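import Mathlib

/-! The Euclidean Steinitz conjecture: definitions used by the modules. -/

namespace Vale.Agent.P262.S2

open MeasureTheory

/-- A standard Gaussian measure on `EuclideanSpace ℝ ι`. -/
noncomputable def gauss (ι : Type) [Fintype ι] : Measure (EuclideanSpace ℝ ι) :=
  ProbabilityTheory.stdGaussian (EuclideanSpace ℝ ι)

/-- A body: finitely many coordinate blocks with radii. -/
structure Body (ι : Type) : Type where
  num : ℕ
  blk : Fin num → Finset ι
  rad : Fin num → ℝ

variable {ι : Type}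

/-- All radii are positive. -/
def Body.Pos (B : Body ι) : Prop := ∀ j, 0 < B.rad j

/-- `z` lies in `C` times the body. -/
def Body.Mem (B : Body ι) (C : ℝ) (z : ι → ℝ) : Prop :=
  ∀ j, ∑ i ∈ B.blk j, z i ^ 2 ≤ (C * B.rad j) ^ 2

/-- The bound on the Gaussian measure of the outside of the body. -/
noncomputable def Body.tail (B : Body ι) : ℝ :=
  ∑ j, (2 : ℝ) ^ (B.blk j).card * Real.exp (-(B.rad j) ^ 2 / 4)

variable {d N : ℕ}

/-- The squared norm on the coordinates `lo ≤ i < hi`. -/
noncomputable def blockSq (x : Fin d → ℝ) (lo hi : ℕ) : ℝ :=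
  ∑ i ∈ Finset.univ.filter (fun i : Fin d => lo ≤ i.val ∧ i.val < hi), x i ^ 2

/-- The sum of the items in `W`. -/
noncomputable def vsum (v : Fin N → Fin d → ℝ) (W : Finset (Fin N)) : Fin d → ℝ :=
  fun i => ∑ w ∈ W, v w i

/-- An entry of the second moment matrix of `W`. -/
noncomputable def gram (v : Fin N → Fin d → ℝ) (W : Finset (Fin N)) (l m : Fin d) : ℝ :=
  ∑ w ∈ W, v w l * v w m

/-- A retired block of coordinates, with its age and the log of the number of parts of the
call that retired it. -/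
structure Dead : Type where
  lo : ℕ
  hi : ℕ
  age : ℕ
  n0 : ℕ

/-- A node of the tree. Coordinates below `plo` are retired, `plo ≤ i < s` are pending (with
parameter `np`), `s ≤ i` are live. -/
structure Node (d N : ℕ) : Type where
  W : Finset (Fin N)
  a : Fin d → ℝ
  m : ℕ
  s : ℕ
  plo : ℕ
  np : ℕ
  dead : List Dead

/-- The right end point of a node. -/
noncomputable def Node.b (v : Fin N → Fin d → ℝ) (x : Node d N) : Fin d → ℝ :=
  fun i => x.a i + vsum v x.W i

/-- The items of `W` that are still small on the retired block `G`. -/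
noncomputable def act (v : Fin N → Fin d → ℝ) (G : Dead) (W : Finset (Fin N)) : Finset (Fin N) :=
  W.filter (fun w => blockSq (v w) G.lo G.hi ≤ (1 / 2 : ℝ) ^ G.age)

/-- The deviation of the items `P` from the fraction `α` of the node, on a retired block. -/
noncomputable def devSq (v : Fin N → Fin d → ℝ) (G : Dead) (W P : Finset (Fin N)) (α : ℝ) : ℝ :=
  blockSq (fun i => vsum v (act v G P) i - α * vsum v (act v G W) i) G.lo G.hi

/-- The excess of `x` over the flag profile `F0 (j - s)` above the coordinate `s`. -/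
noncomputable def excess (F0 : ℝ) (s : ℕ) (x : Fin d → ℝ) : ℝ :=
  (Finset.Icc s (max s d)).sup' ⟨s, Finset.mem_Icc.2 ⟨le_rfl, le_max_left s d⟩⟩
    (fun j => blockSq x s j - F0 * ((j : ℝ) - s))

/-- The fixed parameters of the construction. -/
structure Par : Type where
  base : ℕ
  cE : ℕ
  C0 : ℝ
  cA : ℝ
  F0 : ℝ

/-- `max (λ i / 2 ^ m) 1`. -/
noncomputable def gbar (lam : Fin d → ℝ) (m : ℕ) (i : Fin d) : ℝ := max (lam i / 2 ^ m) 1

/-- The load of the `r` lowest live coordinates. -/
noncomputable def load (P : Par) (v : Fin N → Fin d → ℝ) (x : Node d N) (r : ℕ) : ℕ :=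
  ⌈(r : ℝ) + blockSq x.a x.s (x.s + r) + blockSq (x.b v) x.s (x.s + r)⌉₊ + P.base + x.np

/-- The extra halvings of a call retiring coordinates of load `K`. -/
def extra (K : ℕ) : ℕ := 2 * Nat.clog 2 K + 2

/-- The `r` lowest live coordinates are ready to retire. -/
def Ready (P : Par) (lam : Fin d → ℝ) (v : Fin N → Fin d → ℝ) (x : Node d N) (r : ℕ) : Prop :=
  1 ≤ r ∧ ∃ h : x.s + r - 1 < d,
    lam ⟨x.s + r - 1, h⟩ / 2 ^ x.m <
      (2 : ℝ) ^ (x.np + extra (load P v x r) + 1) * (load P v x r : ℝ) ^ 8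

/-- The number of coordinates retired at a node. -/
noncomputable def retire (P : Par) (lam : Fin d → ℝ) (v : Fin N → Fin d → ℝ) (x : Node d N) : ℕ :=
  open Classical in Nat.findGreatest (Ready P lam v x) (d - x.s)

/-- The number of halvings of the call at a node. -/
noncomputable def halvings (P : Par) (lam : Fin d → ℝ) (v : Fin N → Fin d → ℝ) (x : Node d N) : ℕ :=
  let k := retire P lam v x
  let n := x.np + if k = 0 then 0 else extra (load P v x k)
  max n 1

/-- The pending parameter created by a call. -/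
noncomputable def newPend (P : Par) (lam : Fin d → ℝ) (v : Fin N → Fin d → ℝ) (x : Node d N) : ℕ :=
  let k := retire P lam v x
  if k = 0 then 0 else 10 * Nat.clog 2 (load P v x k) + P.cE

/-- The invariant of a node. -/
structure Inv (P : Par) (lam : Fin d → ℝ) (v : Fin N → Fin d → ℝ) (x : Node d N) : Prop where
  s_le : x.s ≤ d
  plo_le : x.plo ≤ x.s
  np_zero : x.np = 0 → x.plo = x.s
  np_two : x.np ≠ 0 → 2 ≤ x.np ∧ x.plo < x.s
  bal : ∀ l m : Fin d, x.s ≤ l.val → l ≤ m →
    |gram v x.W l m - if l = m then lam l / 2 ^ x.m else 0| ≤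
      P.C0 * (Real.sqrt (Real.sqrt (Real.sqrt (gbar lam x.m m))) + Real.sqrt (gbar lam x.m l))
  pend : ∑ w ∈ x.W, blockSq (v w) x.plo x.s ≤ (2 : ℝ) ^ x.np
  dead_lt : ∀ G ∈ x.dead, G.lo < G.hi
  distinct : x.dead.Pairwise (fun G G' => G.age ≠ G'.age)
  energy : ∀ G ∈ x.dead, ∑ w ∈ act v G x.W, blockSq (v w) G.lo G.hi ≤
    P.cA * (1 + Real.sqrt G.n0) * (3 / 5 : ℝ) ^ G.age

/-- The child's retired blocks: the old ones older by `n`, and the pending one. -/
def childDead (x : Node d N) (n : ℕ) : List Dead :=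
  x.dead.map (fun G => ⟨G.lo, G.hi, G.age + n, G.n0⟩) ++
    if x.np = 0 then [] else [⟨x.plo, x.s, 0, n⟩]

/-- The slack of a call with `n` halvings. -/
def slack (n : ℕ) : ℕ := if n = 1 then 0 else n

end Vale.Agent.P262.S2
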