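import Mathlib
import Vale.Agent.P262.S2.Defs

/-! The Euclidean Steinitz conjecture: statements of the modules. Only propositions. -/

namespace Vale.Agent.P262.S2

open MeasureTheory
open scoped RealInnerProductSpace

/-- G1: the one-step lemma for Gaussian bodies. -/
def StarLemma : Prop :=
  ∃ δ₀ ε₀ : ℝ, 0 < δ₀ ∧ 0 < ε₀ ∧
    ∀ (ι : Type) [Fintype ι] (K : Set (EuclideanSpace ℝ ι)), Convex ℝ K → IsCompact K →
      (∀ p ∈ K, -p ∈ K) → 1 - ε₀ ≤ (gauss ι).real K →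
      ∀ u : EuclideanSpace ℝ ι, ‖u‖ ≤ δ₀ →
        ∃ K' : Set (EuclideanSpace ℝ ι), Convex ℝ K' ∧ IsCompact K' ∧ (∀ p ∈ K', -p ∈ K') ∧
          (gauss ι).real K ≤ (gauss ι).real K' ∧ ∀ p ∈ K', p + u ∈ K ∨ p - u ∈ K

/-- G2: linear discrepancy and balanced partitions into parts, for coordinate bodies. -/
def RoundTools : Prop :=
  ∃ C ε : ℝ, 0 < C ∧ 0 < ε ∧
    ∀ (ι : Type) [Fintype ι] (N : ℕ) (v : Fin N → ι → ℝ), (∀ w, ∑ i, v w i ^ 2 ≤ 1) →
      ∀ B : Body ι, B.Pos →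
        (B.tail ≤ ε → ∀ (W : Finset (Fin N)) (x : Fin N → ℝ),
          (∀ w ∈ W, 0 ≤ x w ∧ x w ≤ 1) →
          ∃ L : Finset (Fin N), L ⊆ W ∧
            B.Mem C (fun i => ∑ w ∈ L, v w i - ∑ w ∈ W, x w * v w i)) ∧
        (∀ M : ℕ, 0 < M → Even M → ((M : ℝ) + 1) * B.tail ≤ ε → ∀ W : Finset (Fin N),
          ∃ f : Fin N → ℕ, (∀ w ∈ W, f w < M) ∧ ∀ q ≤ M,
            B.Mem C (fun i => ∑ w ∈ W.filter (fun w => f w < q), v w i -
              (q : ℝ) / M * ∑ w ∈ W, v w i))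

/-- T0: solving a nearly diagonal symmetric system. -/
def NearDiag : Prop :=
  ∀ (ι : Type) [Fintype ι] [DecidableEq ι] (G : Matrix ι ι ℝ) (g c : ι → ℝ),
    (∀ i j, G i j = G j i) → (∀ i, 0 < g i) →
    ∑ i, ∑ j, (G i j - if i = j then g i else 0) ^ 2 / (g i * g j) ≤ 1 / 4 →
    ∃ y : ι → ℝ, G.mulVec y = c ∧ ∑ i, g i * y i ^ 2 ≤ 4 * ∑ i, c i ^ 2 / g i ∧
      ∑ i, y i * c i ≤ 4 * ∑ i, c i ^ 2 / g i

variable {d N : ℕ}

/-- The guarantees of one call. `child q` are the children in their order. -/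
structure StepData (P : Par) (Cs : ℝ) (lam : Fin d → ℝ) (v : Fin N → Fin d → ℝ) (x : Node d N)
    (child : ℕ → Node d N) : Prop where
  cover : ∀ w, w ∈ x.W ↔ ∃ q < 2 ^ halvings P lam v x, w ∈ (child q).W
  disj : ∀ q q' w, q < 2 ^ halvings P lam v x → q' < 2 ^ halvings P lam v x →
    w ∈ (child q).W → w ∈ (child q').W → q = q'
  start : ∀ q < 2 ^ halvings P lam v x, ∀ i,
    (child q).a i = x.a i + ∑ q' ∈ Finset.range q, vsum v (child q').W i
  shape : ∀ q < 2 ^ halvings P lam v x,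
    (child q).m = x.m + halvings P lam v x ∧ (child q).s = x.s + retire P lam v x ∧
    (child q).plo = x.s ∧ (child q).np = newPend P lam v x ∧
    (child q).dead = childDead x (halvings P lam v x)
  inv : ∀ q < 2 ^ halvings P lam v x, Inv P lam v (child q)
  excess_le : ∀ q < 2 ^ halvings P lam v x,
    excess P.F0 (x.s + retire P lam v x) (child q).a +
        excess P.F0 (x.s + retire P lam v x) ((child q).b v) ≤
      max (excess P.F0 (x.s + retire P lam v x) x.a) (excess P.F0 (x.s + retire P lam v x) (x.b v))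
        + Cs * slack (halvings P lam v x)
  newEnds : ∀ q < 2 ^ halvings P lam v x,
    blockSq (child q).a x.s (x.s + retire P lam v x) +
        blockSq ((child q).b v) x.s (x.s + retire P lam v x) ≤
      Cs * (retire P lam v x + blockSq x.a x.s (x.s + retire P lam v x) +
        blockSq (x.b v) x.s (x.s + retire P lam v x) +
        if retire P lam v x = 0 then 0 else halvings P lam v x)
  oldEnds : ∀ q < 2 ^ halvings P lam v x,
    blockSq (child q).a x.plo x.s + blockSq ((child q).b v) x.plo x.s ≤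
      Cs * (blockSq x.a x.plo x.s + blockSq (x.b v) x.plo x.s + ((x.s : ℝ) - x.plo) +
        if x.np = 0 then 0 else halvings P lam v x)
  transfer : ∀ q < 2 ^ halvings P lam v x, ∀ Q, Q ⊆ (child q).W → ∀ G ∈ x.dead, ∀ α' : ℝ,
    0 ≤ α' → α' ≤ 1 → ∃ α : ℝ, 0 ≤ α ∧ α ≤ 1 ∧ Real.sqrt (devSq v G x.W
        ((Finset.range q).biUnion (fun q' => (child q').W) ∪ Q) α) ≤
      Real.sqrt (devSq v ⟨G.lo, G.hi, G.age + halvings P lam v x, G.n0⟩ (child q).W Q α') +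
      Real.sqrt (Cs * (9 / 10 : ℝ) ^ G.age *
        (1 + ((G.hi : ℝ) - G.lo) + G.n0 + slack (halvings P lam v x)))

/-- T1: every node satisfying the invariant can be called. -/
def StepLemma : Prop :=
  ∃ (P : Par) (Cs : ℝ), 0 ≤ Cs ∧ 1 ≤ P.base ∧ 0 ≤ P.C0 ∧ 0 ≤ P.cA ∧ 0 ≤ P.F0 ∧
    ∀ (d N : ℕ) (lam : Fin d → ℝ) (v : Fin N → Fin d → ℝ), Monotone lam → (∀ i, 0 ≤ lam i) →
      (∀ w, ∑ i, v w i ^ 2 ≤ 1) → ∀ x : Node d N, Inv P lam v x →
        ∃ child : ℕ → Node d N, StepData P Cs lam v x child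

/-- T2: diagonal second moments suffice. -/
def DiagBound : Prop :=
  ∃ C : ℝ, ∀ (d N : ℕ) (lam : Fin d → ℝ) (v : Fin N → Fin d → ℝ),
    Monotone lam → (∀ i, 0 ≤ lam i) → (∀ w, ∑ i, v w i ^ 2 ≤ 1) →
    (∀ l m, gram v Finset.univ l m = if l = m then lam l else 0) → (∀ i, ∑ w, v w i = 0) →
    ∃ π : Equiv.Perm (Fin N), ∀ k : ℕ,
      ∑ i, (∑ j ∈ Finset.univ.filter (fun j : Fin N => j.val < k), v (π j) i) ^ 2 ≤ C * d

/-- The Euclidean Steinitz conjecture. -/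
def SteinitzBound : Prop :=
  ∃ C : ℝ, ∀ (d N : ℕ) (v : Fin N → EuclideanSpace ℝ (Fin d)), (∀ i, ‖v i‖ ≤ 1) → ∑ i, v i = 0 →
    ∃ π : Equiv.Perm (Fin N), ∀ k : ℕ,
      ‖∑ i ∈ Finset.univ.filter (fun i : Fin N => i.val < k), v (π i)‖ ≤ C * Real.sqrt d

end Vale.Agent.P262.S2
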