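import Mathlib
import Vale.Agent.P262.S2.Interface

/-! T2, part 1: the budget of a node and the payment of one call. -/

namespace Vale.Agent.P262.S2

open Finset

variable {d N : ℕ}

lemma blockSq_nonneg (x : Fin d → ℝ) (lo hi : ℕ) : 0 ≤ blockSq x lo hi :=
  sum_nonneg fun _ _ => sq_nonneg _

lemma blockSq_self (x : Fin d → ℝ) (lo : ℕ) : blockSq x lo lo = 0 :=
  sum_eq_zero fun i hi => by
    have := (mem_filter.1 hi).2
    omega

lemma blockSq_split (x : Fin d → ℝ) {a b c : ℕ} (hab : a ≤ b) (hbc : b ≤ c) :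
    blockSq x a c = blockSq x a b + blockSq x b c := by
  unfold blockSq
  simp only [sum_filter]
  rw [← sum_add_distrib]
  refine sum_congr rfl fun i _ => ?_
  split_ifs <;> first | (exfalso; omega) | ring

lemma excess_nonneg (F : ℝ) (s : ℕ) (x : Fin d → ℝ) : 0 ≤ excess F s x := by
  refine le_trans ?_ (Finset.le_sup' _ (b := s) (mem_Icc.2 ⟨le_rfl, le_max_left _ _⟩))
  simp [blockSq_self]

/-- Retiring `k` coordinates lowers the excess by their energy, up to the profile. -/
lemma excess_shift (F : ℝ) (x : Fin d → ℝ) {s k : ℕ} (h : s + k ≤ d) :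
    excess F (s + k) x + blockSq x s (s + k) ≤ excess F s x + F * k := by
  have : excess F (s + k) x ≤ excess F s x + F * k - blockSq x s (s + k) := by
    refine Finset.sup'_le _ _ fun j hj => ?_
    obtain ⟨h1, h2⟩ := mem_Icc.1 hj
    have h3 := Finset.le_sup' (fun j => blockSq x s j - F * ((j : ℝ) - s)) (b := j)
      (s := Finset.Icc s (max s d)) (mem_Icc.2 ⟨by omega, by omega⟩)
    rw [blockSq_split x (b := s + k) (by omega) h1] at h3
    simp only [excess]
    push_cast
    linarith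
  linarith

lemma sum_pow_distinct {c : ℝ} (hc0 : 0 ≤ c) (hc1 : c < 1) (l : List ℕ) (hl : l.Nodup) :
    (l.map (fun j => c ^ j)).sum ≤ (1 - c)⁻¹ := by
  rw [← List.sum_toFinset _ hl, ← tsum_geometric_of_lt_one hc0 hc1]
  exact (summable_geometric_of_lt_one hc0 hc1).sum_le_tsum _ fun j _ => pow_nonneg hc0 j

lemma exists_clog_bound (η : ℝ) (hη : 0 < η) :
    ∃ C : ℝ, 0 ≤ C ∧ ∀ K : ℕ, (Nat.clog 2 K : ℝ) ≤ η * K + C := by
  refine ⟨1 + 2 * |Real.log (η / 2)|, by positivity, fun K => ?_⟩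
  rcases Nat.lt_or_ge 1 K with hK | hK
  · have hlt : 2 ^ (Nat.clog 2 K).pred < K := Nat.pow_pred_clog_lt_self (by norm_num) hK
    have hpos : 1 ≤ Nat.clog 2 K := Nat.clog_pos (by norm_num) hK
    have hKR : (0 : ℝ) < K := by exact_mod_cast (show 0 < K by omega)
    have h1 : ((Nat.clog 2 K : ℝ) - 1) * Real.log 2 ≤ Real.log K := by
      have h2 : ((2 : ℝ) ^ (Nat.clog 2 K - 1)) ≤ K := by exact_mod_cast hlt.le
      have := Real.log_le_log (by positivity) h2
      rwa [Real.log_pow, Nat.cast_sub hpos, Nat.cast_one] at this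
    have h3 : (1 / 2 : ℝ) < Real.log 2 := by linarith [Real.log_two_gt_d9]
    have h4 : Real.log (η / 2 * K) ≤ η / 2 * K :=
      le_trans (Real.log_le_sub_one_of_pos (by positivity)) (by linarith)
    rw [Real.log_mul (by positivity) hKR.ne'] at h4
    have h5 : (0 : ℝ) ≤ (Nat.clog 2 K : ℝ) - 1 := by
      have : (1 : ℝ) ≤ Nat.clog 2 K := by exact_mod_cast hpos
      linarith
    nlinarith [neg_abs_le (Real.log (η / 2)), mul_le_mul_of_nonneg_left h3.le h5]
  · have : Nat.clog 2 K = 0 := Nat.clog_of_right_le_one hK 2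
    rw [this, Nat.cast_zero]
    have : (0 : ℝ) ≤ K := Nat.cast_nonneg K
    positivity

/-- The weight of a retired block in the cost. -/
noncomputable def wage (j : ℕ) : ℝ := 2 * (21 / 20 : ℝ) ^ j

/-- The constants of the budget. -/
structure Coef : Type where
  F1 : ℝ
  K0 : ℝ
  Rn : ℝ
  Rp : ℝ
  Cd : ℝ

/-- The budget of a retired block. -/
noncomputable def deadBudget (K : Coef) (G : Dead) : ℝ :=
  K.Cd * (19 / 20 : ℝ) ^ G.age * (1 + ((G.hi : ℝ) - G.lo) + G.n0)

/-- The budget of a node. -/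
noncomputable def budget (K : Coef) (P : Par) (v : Fin N → Fin d → ℝ) (x : Node d N) : ℝ :=
  K.F1 * ((d : ℝ) - x.s) + K.K0 * (excess P.F0 x.s x.a + excess P.F0 x.s (x.b v)) + K.Rn * x.np +
    K.Rp * (if x.np = 0 then 0 else
      blockSq x.a x.plo x.s + blockSq (x.b v) x.plo x.s + ((x.s : ℝ) - x.plo)) +
    (x.dead.map (deadBudget K)).sum

/-- The conditions on the constants. -/
structure Coef.Ok (K : Coef) (P : Par) (Cs A η Cη : ℝ) : Prop where
  F1_nonneg : 0 ≤ K.F1
  K0_nonneg : 0 ≤ K.K0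
  Rn_nonneg : 0 ≤ K.Rn
  Rp_nonneg : 0 ≤ K.Rp
  Cd_nonneg : 0 ≤ K.Cd
  cd : 840 * Cs ≤ K.Cd
  rp : 2 * K.Cd + 2 * Cs ≤ K.Rp
  A_def : A = K.K0 * Cs + 800 * Cs + K.Rp * Cs + K.Cd + 2 * Cs
  hnp : A + η * (2 * A + 10 * K.Rn) ≤ K.Rn
  hX : K.Rp * Cs + η * (2 * A + 10 * K.Rn) ≤ K.K0
  f1 : 2 * K.K0 * P.F0 + K.Rp * Cs + K.Rp + η * (2 * A + 10 * K.Rn) + K.Rn * P.cE + 2 * A +
    (2 * A + 10 * K.Rn) * (η * (P.base + 1) + Cη) ≤ K.F1
  clog : ∀ k : ℕ, (Nat.clog 2 k : ℝ) ≤ η * k + Cη
  eta : 0 ≤ η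
  ceta : 0 ≤ Cη

theorem exists_coef (P : Par) (Cs : ℝ) (hCs : 0 ≤ Cs) (hF : 0 ≤ P.F0) :
    ∃ (K : Coef) (A η Cη : ℝ), K.Ok P Cs A η Cη := by
  set Cd : ℝ := 840 * Cs + 1
  set Rp : ℝ := 2 * Cd + 2 * Cs
  set K0 : ℝ := Rp * Cs + 1
  set A : ℝ := K0 * Cs + 800 * Cs + Rp * Cs + Cd + 2 * Cs with hA
  set Rn : ℝ := A + 1
  have hCd : 0 ≤ Cd := by positivity
  have hRp : 0 ≤ Rp := by positivity
  have hK0 : 0 ≤ K0 := by positivity
  have hA0 : 0 ≤ A := by positivity
  have hRn : 0 < Rn := by positivity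
  have hB : 0 < 2 * A + 10 * Rn := by positivity
  obtain ⟨Cη, hC0, hC⟩ := exists_clog_bound (1 / (2 * A + 10 * Rn)) (by positivity)
  have hη : (1 / (2 * A + 10 * Rn)) * (2 * A + 10 * Rn) = 1 := div_mul_cancel₀ _ hB.ne'
  refine ⟨⟨2 * K0 * P.F0 + Rp * Cs + Rp + 1 + Rn * P.cE + 2 * A +
    (2 * A + 10 * Rn) * ((1 / (2 * A + 10 * Rn)) * (P.base + 1) + Cη), K0, Rn, Rp, Cd⟩,
    A, 1 / (2 * A + 10 * Rn), Cη, ?_⟩
  constructor <;> try dsimp only
  all_goals first
    | assumption
    | positivity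
    | linarith [show Cd = 840 * Cs + 1 from rfl]

variable {P : Par} {Cs A η Cη : ℝ} {lam : Fin d → ℝ} {v : Fin N → Fin d → ℝ} {x : Node d N}
  {K : Coef}

lemma halvings_pos : 1 ≤ halvings P lam v x := le_max_right _ _

lemma retire_le : retire P lam v x ≤ d - x.s := by
  classical
  exact Nat.findGreatest_le _

lemma Coef.Ok.A_nonneg (hK : K.Ok P Cs A η Cη) (hCs : 0 ≤ Cs) : 0 ≤ A := by
  rw [hK.A_def]
  have := hK.K0_nonneg; have := hK.Rp_nonneg; have := hK.Cd_nonneg
  positivity

/-- Payment of the block that retires and of its ends. -/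
lemma pay_dead (hK : K.Ok P Cs A η Cη) {wd n oX oe : ℝ} (hwd : 1 ≤ wd) (hoX : 0 ≤ oX)
    (ho : oe ≤ Cs * (oX + wd + n)) :
    K.Cd * (1 + wd + n) + 2 * oe ≤ K.Rp * (oX + wd) + (K.Cd + 2 * Cs) * n := by
  have h1 := mul_le_mul_of_nonneg_right hK.rp (show (0 : ℝ) ≤ oX + wd by linarith)
  have h2 := mul_le_mul_of_nonneg_left hwd hK.Cd_nonneg
  have h3 := mul_nonneg hK.Cd_nonneg hoX
  linarith

/-- Payment of a call that retires `k` coordinates. -/
lemma pay_retire (hK : K.Ok P Cs A η Cη) (hCs : 0 ≤ Cs) {k X np n m : ℝ} (hk : 1 ≤ k) (hX : 0 ≤ X)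
    (hnp : 0 ≤ np) (hn : n ≤ np + 2 * m + 2) (hm : m ≤ η * (k + X + P.base + np + 1) + Cη) :
    A * n + K.K0 * (2 * (P.F0 * k)) + K.Rn * (10 * m + P.cE) + K.Rp * (Cs * (k + X) + k) ≤
      K.F1 * k + K.K0 * X + K.Rn * np := by
  have hA0 := hK.A_nonneg hCs
  have h1 := mul_le_mul_of_nonneg_left hn hA0
  have h2 := mul_le_mul_of_nonneg_left hm (show (0 : ℝ) ≤ 2 * A + 10 * K.Rn by
    linarith [hK.Rn_nonneg])
  have h3 := mul_le_mul_of_nonneg_right hK.hX hX
  have h4 := mul_le_mul_of_nonneg_right hK.hnp hnp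
  have h5 := mul_le_mul_of_nonneg_right hK.f1 (show (0 : ℝ) ≤ k by linarith)
  have h6 : 0 ≤ (k - 1) * (K.Rn * P.cE + 2 * A + (2 * A + 10 * K.Rn) * (η * (P.base + 1) + Cη)) := by
    have := hK.Rn_nonneg; have := hK.eta; have := hK.ceta
    refine mul_nonneg (by linarith) ?_
    positivity
  linarith

/-- The budget pays for one call. -/
theorem budget_step (hK : K.Ok P Cs A η Cη) (hCs : 0 ≤ Cs) (hI : Inv P lam v x)
    {child : ℕ → Node d N} (hS : StepData P Cs lam v x child) {q : ℕ}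
    (hq : q < 2 ^ halvings P lam v x) :
    budget K P v (child q) +
      (x.dead.map (fun G => 21 * wage G.age * (Cs * (9 / 10 : ℝ) ^ G.age *
        (1 + ((G.hi : ℝ) - G.lo) + G.n0 + slack (halvings P lam v x))))).sum +
      (if x.np = 0 then 0 else
        2 * (blockSq (child q).a x.plo x.s + blockSq ((child q).b v) x.plo x.s))
      ≤ budget K P v x := by
  set n := halvings P lam v x with hn
  set k := retire P lam v x with hk
  have hn1 : 1 ≤ n := halvings_pos
  have hks : x.s + k ≤ d := by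
    have := retire_le (P := P) (lam := lam) (v := v) (x := x); have := hI.s_le; omega
  obtain ⟨-, hcs, hcplo, hcnp, hcdead⟩ := hS.shape q hq
  have hexc := hS.excess_le q hq
  have hnew := hS.newEnds q hq
  have hold := hS.oldEnds q hq
  rw [← hk, ← hn] at hexc hnew
  rw [← hn] at hold
  set X := blockSq x.a x.s (x.s + k) + blockSq (x.b v) x.s (x.s + k) with hX
  set oX := blockSq x.a x.plo x.s + blockSq (x.b v) x.plo x.s with hoX
  have hX0 : 0 ≤ X := add_nonneg (blockSq_nonneg _ _ _) (blockSq_nonneg _ _ _)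
  have hoX0 : 0 ≤ oX := add_nonneg (blockSq_nonneg _ _ _) (blockSq_nonneg _ _ _)
  -- excess
  have hE : excess P.F0 (x.s + k) (child q).a + excess P.F0 (x.s + k) ((child q).b v) ≤
      excess P.F0 x.s x.a + excess P.F0 x.s (x.b v) - X + 2 * (P.F0 * k) + Cs * slack n := by
    have h1 := excess_shift P.F0 x.a hks
    have h2 := excess_shift P.F0 (x.b v) hks
    have h3 := excess_nonneg P.F0 (x.s + k) x.a
    have h4 := excess_nonneg P.F0 (x.s + k) (x.b v)
    have h5 : max (excess P.F0 (x.s + k) x.a) (excess P.F0 (x.s + k) (x.b v)) ≤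
        excess P.F0 (x.s + k) x.a + excess P.F0 (x.s + k) (x.b v) :=
      max_le (by linarith) (by linarith)
    linarith
  -- old retired blocks
  have hdead : (x.dead.map (fun G => deadBudget K ⟨G.lo, G.hi, G.age + n, G.n0⟩)).sum +
      (x.dead.map (fun G => 21 * wage G.age * (Cs * (9 / 10 : ℝ) ^ G.age *
        (1 + ((G.hi : ℝ) - G.lo) + G.n0 + slack n)))).sum ≤
      (x.dead.map (deadBudget K)).sum + 800 * Cs * slack n := by
    have hper : ∀ G ∈ x.dead, deadBudget K ⟨G.lo, G.hi, G.age + n, G.n0⟩ +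
        21 * wage G.age * (Cs * (9 / 10 : ℝ) ^ G.age *
          (1 + ((G.hi : ℝ) - G.lo) + G.n0 + slack n)) ≤
        deadBudget K G + 42 * Cs * slack n * (189 / 200 : ℝ) ^ G.age := by
      intro G hG
      have hw : (0 : ℝ) ≤ (G.hi : ℝ) - G.lo := by
        have : (G.lo : ℝ) ≤ G.hi := by exact_mod_cast (hI.dead_lt G hG).le
        linarith
      have e1 : 21 * wage G.age * (Cs * (9 / 10 : ℝ) ^ G.age) = 42 * Cs * (189 / 200 : ℝ) ^ G.age := by
        rw [wage, show (189 / 200 : ℝ) = 21 / 20 * (9 / 10) by norm_num, mul_pow]; ring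
      have e2 : (19 / 20 : ℝ) ^ (G.age + n) ≤ (19 / 20) * (19 / 20 : ℝ) ^ G.age := by
        rw [← pow_succ']
        exact pow_le_pow_of_le_one (by norm_num) (by norm_num) (by omega)
      have e3 : (189 / 200 : ℝ) ^ G.age ≤ (19 / 20 : ℝ) ^ G.age :=
        pow_le_pow_left₀ (by norm_num) (by norm_num) _
      have e4 := mul_le_mul_of_nonneg_left e3 (mul_nonneg (show (0 : ℝ) ≤ 42 * Cs by positivity)
        (show (0 : ℝ) ≤ 1 + ((G.hi : ℝ) - G.lo) + G.n0 by positivity))
      have e5 := mul_le_mul_of_nonneg_left e2 (mul_nonneg hK.Cd_nonneg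
        (show (0 : ℝ) ≤ 1 + ((G.hi : ℝ) - G.lo) + G.n0 by positivity))
      have e6 := mul_le_mul_of_nonneg_right hK.cd (mul_nonneg (show (0 : ℝ) ≤ (19 / 20 : ℝ) ^ G.age by positivity)
        (show (0 : ℝ) ≤ 1 + ((G.hi : ℝ) - G.lo) + G.n0 by positivity))
      simp only [deadBudget]
      rw [← mul_assoc (21 * wage G.age), e1]
      nlinarith
    have h1 := List.sum_le_sum hper
    rw [List.sum_map_add, List.sum_map_add, List.sum_map_mul_left] at h1
    have hnd : (x.dead.map Dead.age).Nodup := List.pairwise_map.2 hI.distinct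
    have h2 := sum_pow_distinct (c := 189 / 200) (by norm_num) (by norm_num) _ hnd
    rw [List.map_map] at h2
    have h3 : (0 : ℝ) ≤ 42 * Cs * slack n := by positivity
    have h4 := mul_le_mul_of_nonneg_left h2 h3
    have h5 : (0 : ℝ) ≤ Cs * slack n := by positivity
    simp only [Function.comp_def] at h4
    norm_num at h4
    linarith
  -- the new retired block and the pending one
  have hU : (slack n : ℝ) ≤ n := by
    unfold slack; split <;> simp
  unfold budget
  rw [hcs, hcplo, hcnp, hcdead, ← hk, ← hn, childDead, List.map_append, List.sum_append,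
    List.map_map]
  simp only [Function.comp_def]
  have hK0E := mul_le_mul_of_nonneg_left hE hK.K0_nonneg
  have hA := hK.A_def
  have hCsU := mul_le_mul_of_nonneg_left hU (show (0 : ℝ) ≤ K.K0 * Cs + 800 * Cs by
    have := hK.K0_nonneg; positivity)
  have hA0 : 0 ≤ A := by
    rw [hA]; have := hK.K0_nonneg; have := hK.Rp_nonneg; have := hK.Cd_nonneg; positivity
  have hnR : (0 : ℝ) ≤ n := by positivity
  by_cases hk0 : k = 0
  · have hnp' : newPend P lam v x = 0 := by simp [newPend, ← hk, hk0]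
    have hX' : X = 0 := by simp [hX, hk0, blockSq_self]
    rw [hnp']
    simp only [hk0, Nat.cast_zero, add_zero, mul_zero, if_true, hX', sub_zero] at hK0E ⊢
    by_cases hnp : x.np = 0
    · have : slack n = 0 := by
        have : n = 1 := by simp [hn, halvings, ← hk, hk0, hnp]
        simp [slack, this]
      simp only [this, Nat.cast_zero, mul_zero, add_zero] at hK0E hdead ⊢
      simp only [hnp, if_true, Nat.cast_zero, mul_zero, List.map_nil, List.sum_nil, add_zero]
      linarith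
    · obtain ⟨h2, hlt⟩ := hI.np_two hnp
      have hnn : n = x.np := by simp [hn, halvings, ← hk, hk0]; omega
      have hwd : (1 : ℝ) ≤ (x.s : ℝ) - x.plo := by
        have : (x.plo : ℝ) + 1 ≤ x.s := by exact_mod_cast hlt
        linarith
      simp only [hnp, if_false, List.map_cons, List.map_nil, List.sum_cons, List.sum_nil, add_zero,
        deadBudget, pow_zero, mul_one] at hold ⊢
      have t1 := pay_dead hK hwd hoX0 hold
      have hnR' : (x.np : ℝ) = n := by exact_mod_cast hnn.symm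
      have t2 : A * (n : ℝ) ≤ K.Rn * n := by
        refine mul_le_mul_of_nonneg_right ?_ hnR
        have h := mul_nonneg hK.eta (show (0 : ℝ) ≤ 2 * A + 10 * K.Rn by linarith [hK.Rn_nonneg])
        linarith [hK.hnp]
      have t3 : 0 ≤ K.Rp * Cs * (n : ℝ) := by have := hK.Rp_nonneg; positivity
      rw [hA] at t2
      rw [hnR']
      simp only [deadBudget] at hdead
      linarith [hoX]
  · have hkR : (1 : ℝ) ≤ k := by exact_mod_cast Nat.one_le_iff_ne_zero.2 hk0
    have hnp' : newPend P lam v x = 10 * Nat.clog 2 (load P v x k) + P.cE := by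
      simp [newPend, ← hk, hk0]
    set L := load P v x k with hL
    set m := Nat.clog 2 L with hm
    have hnn : (n : ℝ) ≤ x.np + 2 * m + 2 := by
      have : n = max (x.np + extra L) 1 := by simp [hn, halvings, ← hk, hk0, hL]
      have h : n ≤ x.np + (2 * m + 2) := by
        rw [this, extra, ← hm]; omega
      calc (n : ℝ) ≤ ((x.np + (2 * m + 2) : ℕ) : ℝ) := by exact_mod_cast h
        _ = _ := by push_cast; ring
    have hLle : (L : ℝ) ≤ (k : ℝ) + X + P.base + x.np + 1 := by
      have h := Nat.ceil_lt_add_one (show (0 : ℝ) ≤ (k : ℝ) + blockSq x.a x.s (x.s + k) +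
        blockSq (x.b v) x.s (x.s + k) by linarith)
      rw [hL, load]
      push_cast
      linarith
    have hm' : (m : ℝ) ≤ η * ((k : ℝ) + X + P.base + x.np + 1) + Cη := by
      have := hK.clog L
      have := mul_le_mul_of_nonneg_left hLle hK.eta
      linarith
    have hpay := pay_retire hK hCs hkR hX0 (Nat.cast_nonneg x.np) hnn hm'
    rw [hnp']
    simp only [hk0, if_false] at hnew
    have hpend : (if 10 * m + P.cE = 0 then (0 : ℝ) else
        blockSq (child q).a x.s (x.s + k) + blockSq ((child q).b v) x.s (x.s + k) +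
          (((x.s + k : ℕ) : ℝ) - x.s)) ≤ Cs * ((k : ℝ) + X + n) + k := by
      have e : ((x.s + k : ℕ) : ℝ) - x.s = k := by push_cast; ring
      rw [e]
      split
      · positivity
      · linarith
    have hpend' := mul_le_mul_of_nonneg_left hpend hK.Rp_nonneg
    rw [hA] at hpay
    by_cases hnp : x.np = 0
    · simp only [hnp, if_true, List.map_nil, List.sum_nil, add_zero]
      simp only [hnp] at hpay
      push_cast at hpay hpend' ⊢
      have t4 : 0 ≤ (K.Cd + 2 * Cs) * (n : ℝ) := by have := hK.Cd_nonneg; positivity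
      linarith
    · obtain ⟨h2, hlt⟩ := hI.np_two hnp
      have hwd : (1 : ℝ) ≤ (x.s : ℝ) - x.plo := by
        have : (x.plo : ℝ) + 1 ≤ x.s := by exact_mod_cast hlt
        linarith
      simp only [hnp, if_false, List.map_cons, List.map_nil, List.sum_cons, List.sum_nil, add_zero,
        deadBudget, pow_zero, mul_one] at hold ⊢
      have t1 := pay_dead hK hwd hoX0 hold
      push_cast at hpend' ⊢
      simp only [deadBudget] at hdead
      linarith [hoX]

end Vale.Agent.P262.S2
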