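import Mathlib
import Vale.Agent.P262.S2.Interface

/-!
T1, cut into modules. A call at a node is one partition of its items into `M = 2 ^ n` parts with
tilts `δ q`: on the lifted vectors, the first `q` parts differ from `(q / M + δ q)` times the node
by an element of the body. The five bounds of `StepData` are consequences of that alone.
-/

namespace Vale.Agent.P262.S2

open Finset

/-- A body given by any finite index type. -/
noncomputable def Body.ofFintype {ι κ : Type} [Fintype κ] (blk : κ → Finset ι) (rad : κ → ℝ) :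
    Body ι where
  num := Fintype.card κ
  blk := fun j => blk ((Fintype.equivFin κ).symm j)
  rad := fun j => rad ((Fintype.equivFin κ).symm j)

/-- Lifted coordinates: `v`, products, two block energies, and three kinds for each retired
block. -/
abbrev Idx (d len : ℕ) : Type :=
  Fin d ⊕ (Fin d × Fin d) ⊕ Fin 2 ⊕ (Fin len × (Fin d ⊕ Fin 2))

variable {d N : ℕ}

/-- `w` is small on `G` at age `j`. -/
abbrev smallAt (u : Fin d → ℝ) (G : Dead) (j : ℕ) : Prop :=
  blockSq u G.lo G.hi ≤ (1 / 2 : ℝ) ^ j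

/-- The part of the lifted vector belonging to a retired block, in a call of `n` halvings.
Index `inr 0` is the lump, `inr 1` the energy of the items that stay small. -/
noncomputable def liftDead (u : Fin d → ℝ) (G : Dead) (n : ℕ) : Fin d ⊕ Fin 2 → ℝ :=
  fun z => (1 / (1 + (G.age : ℝ))) *
    match z with
    | .inl i => if smallAt u G G.age ∧ G.lo ≤ i.val ∧ i.val < G.hi then
        Real.sqrt 2 ^ G.age * u i else 0
    | .inr t => if t = 0 then
        (if smallAt u G G.age ∧ ¬ smallAt u G (G.age + n) then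
          Real.sqrt 2 ^ G.age * Real.sqrt (blockSq u G.lo G.hi) else 0)
      else
        (if smallAt u G (G.age + n) then
          (2 : ℝ) ^ (G.age + n) * blockSq u G.lo G.hi else 0)

/-- The lifted vector of one item. `k` coordinates retire and there are `n` halvings. -/
noncomputable def lift (u : Fin d → ℝ) (x : Node d N) (k n : ℕ) : Idx d x.dead.length → ℝ
  | .inl i => u i
  | .inr (.inl p) => if x.s ≤ p.1.val ∧ x.s ≤ p.2.val then u p.1 * u p.2 else 0
  | .inr (.inr (.inl t)) => if t = 0 then blockSq u x.s (x.s + k) else blockSq u x.plo x.s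
  | .inr (.inr (.inr (g, z))) => liftDead u (x.dead.get g) n z

/-- The names of the blocks: flags, pairs, the two blocks with their two energies, and three
blocks for each retired block. -/
abbrev BlockName (x : Node d N) (k : ℕ) : Type :=
  {i : Fin d // x.s + k ≤ i.val} ⊕
    {p : Fin d × Fin d // x.s ≤ p.1.val ∧ p.1 ≤ p.2 ∧ x.s + k ≤ p.2.val} ⊕
      (Fin 2 × Bool) ⊕ (Fin x.dead.length × Fin 3)

/-- The coordinates of a block. In `Fin 2`, `0` is the block that retires and `1` the pending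
one; `true` is its energy. In `Fin 3`, `0` is the vector, `1` the lump, `2` the energy. -/
noncomputable def callBlk (x : Node d N) (k : ℕ) :
    BlockName x k → Finset (Idx d x.dead.length)
  | .inl i => (univ.filter fun z : Fin d => x.s + k ≤ z.val ∧ z.val ≤ i.1.val).map ⟨Sum.inl, Sum.inl_injective⟩
  | .inr (.inl p) => {.inr (.inl p.1)}
  | .inr (.inr (.inl (t, true))) => {.inr (.inr (.inl t))}
  | .inr (.inr (.inl (t, false))) =>
      (univ.filter fun z : Fin d => if t = 0 then x.s ≤ z.val ∧ z.val < x.s + k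
        else x.plo ≤ z.val ∧ z.val < x.s).map ⟨Sum.inl, Sum.inl_injective⟩
  | .inr (.inr (.inr (g, t))) =>
      if t = 0 then
        (univ.filter fun z : Fin d => (x.dead.get g).lo ≤ z.val ∧ z.val < (x.dead.get g).hi).image
          fun z => .inr (.inr (.inr (g, .inl z)))
      else {.inr (.inr (.inr (g, .inr (if t = 1 then 0 else 1))))}

/-- The radii, with one constant `Cr`. -/
noncomputable def callRad (Cr : ℝ) (lam : Fin d → ℝ) (x : Node d N) (k n : ℕ) :
    BlockName x k → ℝ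
  | .inl i => Real.sqrt (Cr * ((i.1.val : ℝ) + 1 - ((x.s : ℝ) + k) + slack n))
  | .inr (.inl p) => Cr * Real.sqrt (Real.sqrt (Real.sqrt (gbar lam (x.m + n) p.1.2)))
  | .inr (.inr (.inl (_, true))) => Real.sqrt (Cr * (1 + n))
  | .inr (.inr (.inl (t, false))) =>
      Real.sqrt (Cr * ((if t = 0 then (k : ℝ) else ((x.s - x.plo : ℕ) : ℝ)) + 1 + n))
  | .inr (.inr (.inr (g, t))) =>
      Real.sqrt (Cr * ((if t = 0 then (((x.dead.get g).hi - (x.dead.get g).lo : ℕ) : ℝ) else 0) +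
        1 + (x.dead.get g).age + slack n))

/-- The body of a call. -/
noncomputable def callBody (Cr : ℝ) (lam : Fin d → ℝ) (x : Node d N) (k n : ℕ) :
    Body (Idx d x.dead.length) :=
  Body.ofFintype (callBlk x k) (callRad Cr lam x k n)

/-- The partition made by one call, with its tilts. -/
structure CallData (P : Par) (Cr Cc : ℝ) (lam : Fin d → ℝ) (v : Fin N → Fin d → ℝ) (x : Node d N)
    (part : ℕ → Finset (Fin N)) (δ : ℕ → Fin N → ℝ) : Prop where
  cover : ∀ w, w ∈ x.W ↔ ∃ q : ℕ, q < 2 ^ halvings P lam v x ∧ w ∈ part q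
  disj : ∀ (q q' : ℕ) w, q < 2 ^ halvings P lam v x → q' < 2 ^ halvings P lam v x →
    w ∈ part q → w ∈ part q' → q = q'
  zero_left : ∀ w, δ 0 w = 0
  zero_right : ∀ w, δ (2 ^ halvings P lam v x) w = 0
  small : ∀ q : ℕ, q ≤ 2 ^ halvings P lam v x →
    ∑ w ∈ x.W, δ q w ^ 2 ≤ 1 / (2 : ℝ) ^ halvings P lam v x
  err : ∀ q : ℕ, q ≤ 2 ^ halvings P lam v x →
    (callBody Cr lam x (retire P lam v x) (halvings P lam v x)).Mem Cc (fun i =>
      ∑ q' ∈ range q, ∑ w ∈ part q', lift (v w) x (retire P lam v x) (halvings P lam v x) i -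
        ∑ w ∈ x.W, ((q : ℝ) / (2 : ℝ) ^ halvings P lam v x + δ q w) *
          lift (v w) x (retire P lam v x) (halvings P lam v x) i)
  exact : ∀ q : ℕ, 0 < q → q < 2 ^ halvings P lam v x → ∀ i : Fin d, x.s + retire P lam v x ≤ i.val →
    x.a i + ∑ w ∈ x.W, ((q : ℝ) / (2 : ℝ) ^ halvings P lam v x + δ q w) * v w i = 0
  offset : ∀ q : ℕ, q ≤ 2 ^ halvings P lam v x →
    blockSq (fun i => ∑ w ∈ x.W, δ q w * v w i) x.s (x.s + retire P lam v x) ≤ 1

/-- The child number `q`. -/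
noncomputable def mkChild (P : Par) (lam : Fin d → ℝ) (v : Fin N → Fin d → ℝ) (x : Node d N)
    (part : ℕ → Finset (Fin N)) (q : ℕ) : Node d N where
  W := part q
  a := fun i => x.a i + ∑ q' ∈ range q, vsum v (part q') i
  m := x.m + halvings P lam v x
  s := x.s + retire P lam v x
  plo := x.s
  np := newPend P lam v x
  dead := childDead x (halvings P lam v x)

/-- The standing hypotheses. -/
structure Hyp (lam : Fin d → ℝ) (v : Fin N → Fin d → ℝ) : Prop where
  mono : Monotone lam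
  nonneg : ∀ i, 0 ≤ lam i
  norm : ∀ w, ∑ i, v w i ^ 2 ≤ 1

/-- T1-A: the partition exists (lifted norms, tail, inversion, two cuts and balanced parts). -/
def PartitionLemma : Prop :=
  ∃ Cr Cc : ℝ, 1 ≤ Cr ∧ 1 ≤ Cc ∧ ∀ C0 : ℝ, 1 ≤ C0 → ∃ b0 : ℕ, ∀ P : Par, P.C0 = C0 → b0 ≤ P.base →
    ∀ (d N : ℕ) (lam : Fin d → ℝ) (v : Fin N → Fin d → ℝ), Hyp lam v →
      ∀ x : Node d N, Inv P lam v x → ∃ part δ, CallData P Cr Cc lam v x part δ

/-- T1-B: the ends of the children. -/
def EndsLemma : Prop :=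
  ∀ Cr Cc : ℝ, 1 ≤ Cr → 1 ≤ Cc → ∃ F₁ : ℝ, 0 ≤ F₁ ∧ ∀ F0 : ℝ, F₁ ≤ F0 → ∃ Cs : ℝ, 0 ≤ Cs ∧
    ∀ P : Par, P.F0 = F0 → 1 ≤ P.base →
      ∀ (d N : ℕ) (lam : Fin d → ℝ) (v : Fin N → Fin d → ℝ), Hyp lam v →
        ∀ x : Node d N, Inv P lam v x → ∀ part δ, CallData P Cr Cc lam v x part δ →
          ∀ q : ℕ, q < 2 ^ halvings P lam v x → let k := retire P lam v x
            let c := mkChild P lam v x part q
            excess P.F0 (x.s + k) c.a + excess P.F0 (x.s + k) (c.b v) ≤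
                max (excess P.F0 (x.s + k) x.a) (excess P.F0 (x.s + k) (x.b v))
                  + Cs * slack (halvings P lam v x) ∧
              blockSq c.a x.s (x.s + k) + blockSq (c.b v) x.s (x.s + k) ≤
                Cs * (k + blockSq x.a x.s (x.s + k) + blockSq (x.b v) x.s (x.s + k) +
                  if k = 0 then 0 else halvings P lam v x) ∧
              blockSq c.a x.plo x.s + blockSq (c.b v) x.plo x.s ≤
                Cs * (blockSq x.a x.plo x.s + blockSq (x.b v) x.plo x.s + ((x.s : ℝ) - x.plo) +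
                  if x.np = 0 then 0 else halvings P lam v x)

/-- T1-C: the children satisfy the invariant. -/
def InvLemma : Prop :=
  ∀ Cr Cc : ℝ, 1 ≤ Cr → 1 ≤ Cc → ∃ C₁ : ℝ, 1 ≤ C₁ ∧ ∀ C0 : ℝ, C₁ ≤ C0 →
    ∃ (b0 e0 : ℕ) (A₁ : ℝ), 0 ≤ A₁ ∧ ∀ P : Par, P.C0 = C0 → b0 ≤ P.base → e0 ≤ P.cE → A₁ ≤ P.cA →
      ∀ (d N : ℕ) (lam : Fin d → ℝ) (v : Fin N → Fin d → ℝ), Hyp lam v →
        ∀ x : Node d N, Inv P lam v x → ∀ part δ, CallData P Cr Cc lam v x part δ →
          ∀ q : ℕ, q < 2 ^ halvings P lam v x → Inv P lam v (mkChild P lam v x part q)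

/-- T1-D: deviations on retired blocks are transferred to the children. -/
def TransferLemma : Prop :=
  ∀ Cr Cc cA : ℝ, 1 ≤ Cr → 1 ≤ Cc → 0 ≤ cA → ∃ Cs : ℝ, 0 ≤ Cs ∧
    ∀ P : Par, P.cA = cA →
      ∀ (d N : ℕ) (lam : Fin d → ℝ) (v : Fin N → Fin d → ℝ), Hyp lam v →
        ∀ x : Node d N, Inv P lam v x → ∀ part δ, CallData P Cr Cc lam v x part δ →
          ∀ q : ℕ, q < 2 ^ halvings P lam v x → ∀ Q, Q ⊆ part q → ∀ G ∈ x.dead, ∀ α' : ℝ,
            0 ≤ α' → α' ≤ 1 → ∃ α : ℝ, 0 ≤ α ∧ α ≤ 1 ∧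
              Real.sqrt (devSq v G x.W ((range q).biUnion part ∪ Q) α) ≤
                Real.sqrt (devSq v ⟨G.lo, G.hi, G.age + halvings P lam v x, G.n0⟩ (part q) Q α') +
                Real.sqrt (Cs * (9 / 10 : ℝ) ^ G.age *
                  (1 + ((G.hi : ℝ) - G.lo) + G.n0 + slack (halvings P lam v x)))

/-- T1 from its four modules. -/
theorem stepLemma_of_modules (hA : PartitionLemma) (hB : EndsLemma) (hC : InvLemma)
    (hD : TransferLemma) : StepLemma := by
  obtain ⟨Cr, Cc, hr, hc, hA⟩ := hA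
  obtain ⟨F₁, hF₁, hB⟩ := hB Cr Cc hr hc
  obtain ⟨Cs₁, hCs₁, hB⟩ := hB F₁ le_rfl
  obtain ⟨C₁, hC₁, hC⟩ := hC Cr Cc hr hc
  obtain ⟨b₁, e₁, A₁, hA₁, hC⟩ := hC C₁ le_rfl
  obtain ⟨b₀, hA⟩ := hA C₁ hC₁
  obtain ⟨Cs₂, hCs₂, hD⟩ := hD Cr Cc A₁ hr hc hA₁
  refine ⟨⟨b₀ + b₁ + 1, e₁ + 2, C₁, A₁, F₁⟩, Cs₁ + Cs₂, by linarith, by simp, ?_, hA₁, hF₁, ?_⟩
  · show (0 : ℝ) ≤ C₁
    linarith
  intro d N lam v hmono hlam hv x hx
  set P : Par := ⟨b₀ + b₁ + 1, e₁ + 2, C₁, A₁, F₁⟩ with hP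
  have H : Hyp lam v := ⟨hmono, hlam, hv⟩
  obtain ⟨part, δ, hp⟩ := hA P rfl (by simp [hP]; omega) d N lam v H x hx
  refine ⟨mkChild P lam v x part, hp.cover, hp.disj, fun q hq i => rfl,
    fun q hq => ⟨rfl, rfl, rfl, rfl, rfl⟩,
    hC P rfl (by simp [hP]; omega) (by simp [hP]) le_rfl d N lam v H x hx part δ hp,
    fun q hq => ?_, fun q hq => ?_, fun q hq => ?_, fun q hq Q hQ G hG α' h0 h1 => ?_⟩
  · refine (hB P rfl (by simp [hP]) d N lam v H x hx part δ hp q hq).1.trans ?_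
    gcongr
    linarith
  · refine (hB P rfl (by simp [hP]) d N lam v H x hx part δ hp q hq).2.1.trans ?_
    refine mul_le_mul_of_nonneg_right (by linarith) ?_
    have := blockSq_nonneg' x.a x.s (x.s + retire P lam v x)
    have := blockSq_nonneg' (x.b v) x.s (x.s + retire P lam v x)
    positivity
  · refine (hB P rfl (by simp [hP]) d N lam v H x hx part δ hp q hq).2.2.trans ?_
    refine mul_le_mul_of_nonneg_right (by linarith) ?_
    have := blockSq_nonneg' x.a x.plo x.s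
    have := blockSq_nonneg' (x.b v) x.plo x.s
    have : (x.plo : ℝ) ≤ x.s := by exact_mod_cast hx.plo_le
    have : (0 : ℝ) ≤ (x.s : ℝ) - x.plo := by linarith
    positivity
  · obtain ⟨α, a0, a1, h⟩ := hD P rfl d N lam v H x hx part δ hp q hq Q hQ G hG α' h0 h1
    refine ⟨α, a0, a1, h.trans (add_le_add le_rfl (Real.sqrt_le_sqrt ?_))⟩
    have : (G.lo : ℝ) ≤ G.hi := by exact_mod_cast (hx.dead_lt G hG).le
    have : (0 : ℝ) ≤ (G.hi : ℝ) - G.lo := by linarith
    gcongr
    linarith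
where
  blockSq_nonneg' {d : ℕ} (x : Fin d → ℝ) (lo hi : ℕ) : 0 ≤ blockSq x lo hi :=
    sum_nonneg fun _ _ => sq_nonneg _

end Vale.Agent.P262.S2
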