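import Mathlib
import Vale.Agent.P262.S2.Call

/-! Facts shared by the modules of T1: the numbers of a call, and reading the body. -/

namespace Vale.Agent.P262.S2

open Finset

/-- The eighth root. -/
noncomputable def root8 (g : ℝ) : ℝ := Real.sqrt (Real.sqrt (Real.sqrt g))

lemma root8_nonneg (g : ℝ) : 0 ≤ root8 g := Real.sqrt_nonneg _

lemma root8_mono {g h : ℝ} (hg : g ≤ h) : root8 g ≤ root8 h :=
  Real.sqrt_le_sqrt (Real.sqrt_le_sqrt (Real.sqrt_le_sqrt hg))

lemma root8_pow {g : ℝ} (hg : 0 ≤ g) : root8 g ^ 8 = g := by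
  have e : root8 g ^ 8 = ((root8 g ^ 2) ^ 2) ^ 2 := by ring
  rw [e, root8, Real.sq_sqrt (Real.sqrt_nonneg _), Real.sq_sqrt (Real.sqrt_nonneg _),
    Real.sq_sqrt hg]

lemma root8_sq_sq {g : ℝ} : (root8 g ^ 2) ^ 2 = Real.sqrt g := by
  rw [root8, Real.sq_sqrt (Real.sqrt_nonneg _), Real.sq_sqrt (Real.sqrt_nonneg _)]

lemma one_le_root8 {g : ℝ} (hg : 1 ≤ g) : 1 ≤ root8 g :=
  Real.one_le_sqrt.2 (Real.one_le_sqrt.2 (Real.one_le_sqrt.2 hg))

lemma sqrt_le_self_of_one_le {g : ℝ} (hg : 1 ≤ g) : Real.sqrt g ≤ g :=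
  Real.sqrt_le_iff.2 ⟨by linarith, by nlinarith⟩

lemma root8_le_sqrt {g : ℝ} (hg : 1 ≤ g) : root8 g ≤ Real.sqrt g :=
  (sqrt_le_self_of_one_le (Real.one_le_sqrt.2 (Real.one_le_sqrt.2 hg))).trans
    (sqrt_le_self_of_one_le (Real.one_le_sqrt.2 hg))

variable {d N : ℕ} {P : Par} {lam : Fin d → ℝ} {v : Fin N → Fin d → ℝ} {x : Node d N}

lemma blockSq_nn (u : Fin d → ℝ) (lo hi : ℕ) : 0 ≤ blockSq u lo hi :=
  sum_nonneg fun _ _ => sq_nonneg _

lemma blockSq_empty (u : Fin d → ℝ) {lo hi : ℕ} (h : hi ≤ lo) : blockSq u lo hi = 0 :=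
  sum_eq_zero fun i hi' => by
    have := (mem_filter.1 hi').2
    omega

lemma blockSq_le_one (H : Hyp lam v) (w : Fin N) (lo hi : ℕ) : blockSq (v w) lo hi ≤ 1 :=
  (sum_le_univ_sum_of_nonneg fun _ => sq_nonneg _).trans (H.norm w)

lemma blockSq_le_of_le (u : Fin d → ℝ) {lo hi hi' : ℕ} (h : hi ≤ hi') :
    blockSq u lo hi ≤ blockSq u lo hi' :=
  sum_le_sum_of_subset_of_nonneg (fun i hi => by
    simp only [mem_filter] at hi ⊢
    exact ⟨hi.1, hi.2.1, by omega⟩) fun _ _ _ => sq_nonneg _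

lemma sqrt_blockSq_add (y z : Fin d → ℝ) (lo hi : ℕ) :
    Real.sqrt (blockSq (fun i => y i + z i) lo hi) ≤
      Real.sqrt (blockSq y lo hi) + Real.sqrt (blockSq z lo hi) := by
  unfold blockSq
  exact Real.Lp_add_le _ y z (p := 2) (by norm_num) |> fun h => by
    simpa [Real.sqrt_eq_rpow, sq_abs] using h

lemma blockSq_add_le (y z : Fin d → ℝ) (lo hi : ℕ) :
    blockSq (fun i => y i + z i) lo hi ≤ 2 * blockSq y lo hi + 2 * blockSq z lo hi := by
  unfold blockSq
  rw [mul_sum, mul_sum, ← sum_add_distrib]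
  exact sum_le_sum fun i _ => by nlinarith [sq_nonneg (y i - z i)]

lemma blockSq_comb_le (W : Finset (Fin N)) (δ : Fin N → ℝ) (u : Fin N → Fin d → ℝ) (lo hi : ℕ) :
    blockSq (fun i => ∑ w ∈ W, δ w * u w i) lo hi ≤
      (∑ w ∈ W, δ w ^ 2) * ∑ w ∈ W, blockSq (u w) lo hi := by
  unfold blockSq
  rw [Finset.sum_comm, mul_sum]
  exact sum_le_sum fun i _ => sum_mul_sq_le_sq_mul_sq _ _ _

lemma retire_le_sub : retire P lam v x ≤ d - x.s := by
  classical
  exact Nat.findGreatest_le _

lemma s_add_retire_le (hI : Inv P lam v x) : x.s + retire P lam v x ≤ d := by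
  have := retire_le_sub (P := P) (lam := lam) (v := v) (x := x)
  have := hI.s_le
  omega

lemma retire_ready (h : retire P lam v x ≠ 0) : Ready P lam v x (retire P lam v x) := by
  classical
  exact Nat.findGreatest_of_ne_zero (P := Ready P lam v x) rfl h

lemma load_mono {r r' : ℕ} (h : r ≤ r') : load P v x r ≤ load P v x r' := by
  unfold load
  have h1 := blockSq_le_of_le x.a (lo := x.s) (show x.s + r ≤ x.s + r' by omega)
  have h2 := blockSq_le_of_le (x.b v) (lo := x.s) (show x.s + r ≤ x.s + r' by omega)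
  have h3 : (r : ℝ) ≤ r' := by exact_mod_cast h
  have h4 := Nat.ceil_le_ceil (show (r : ℝ) + blockSq x.a x.s (x.s + r) + blockSq (x.b v) x.s (x.s + r) ≤
    r' + blockSq x.a x.s (x.s + r') + blockSq (x.b v) x.s (x.s + r') by linarith)
  omega

lemma le_load (r : ℕ) : r + P.base + x.np ≤ load P v x r := by
  unfold load
  have h1 := blockSq_nn x.a x.s (x.s + r)
  have h2 := blockSq_nn (x.b v) x.s (x.s + r)
  have h3 : r ≤ ⌈(r : ℝ) + blockSq x.a x.s (x.s + r) + blockSq (x.b v) x.s (x.s + r)⌉₊ := by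
    calc r = ⌈(r : ℝ)⌉₊ := (Nat.ceil_natCast r).symm
      _ ≤ _ := Nat.ceil_le_ceil (by linarith)
  omega

lemma ends_le_load (r : ℕ) : blockSq x.a x.s (x.s + r) + blockSq (x.b v) x.s (x.s + r) + r + P.base
    ≤ (load P v x r : ℝ) := by
  unfold load
  push_cast
  have := Nat.le_ceil ((r : ℝ) + blockSq x.a x.s (x.s + r) + blockSq (x.b v) x.s (x.s + r))
  linarith [show (0 : ℝ) ≤ x.np from Nat.cast_nonneg _]

lemma one_le_halvings : 1 ≤ halvings P lam v x := le_max_right _ _

lemma np_le_halvings : x.np ≤ halvings P lam v x :=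
  le_trans (Nat.le_add_right _ _) (le_max_left _ _)

lemma halvings_eq (h : retire P lam v x ≠ 0) :
    halvings P lam v x = x.np + extra (load P v x (retire P lam v x)) := by
  simp only [halvings, if_neg h]
  have : 2 ≤ extra (load P v x (retire P lam v x)) := by unfold extra; omega
  omega

lemma slack_le : slack (halvings P lam v x) ≤ halvings P lam v x := by
  unfold slack; split <;> omega

lemma extra_mono {a b : ℕ} (h : a ≤ b) : extra a ≤ extra b := by
  have := Nat.clog_mono_right 2 h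
  unfold extra; omega

lemma halvings_le_of_lt {r : ℕ} (hr : retire P lam v x < r) :
    halvings P lam v x ≤ x.np + extra (load P v x r) := by
  have h2 : 2 ≤ extra (load P v x r) := by unfold extra; omega
  by_cases h : retire P lam v x = 0
  · simp only [halvings, if_pos h]; omega
  · rw [halvings_eq h]
    have := extra_mono (load_mono (P := P) (v := v) (x := x) hr.le)
    omega

lemma halvings_le_load (hb : 1 ≤ P.base) {r : ℕ} (hr : retire P lam v x < r) :
    halvings P lam v x ≤ 4 * load P v x r := by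
  have h1 := halvings_le_of_lt (P := P) (lam := lam) (v := v) (x := x) hr
  have h2 : Nat.clog 2 (load P v x r) ≤ load P v x r :=
    Nat.clog_le_of_le_pow (Nat.lt_two_pow_self).le
  have h3 := le_load (P := P) (v := v) (x := x) r
  unfold extra at h1
  omega

/-- Coordinates above the retired ones are large. -/
lemma large_above {i : Fin d} (hi : x.s + retire P lam v x ≤ i.val) :
    2 * (2 : ℝ) ^ halvings P lam v x * (load P v x (i.val + 1 - x.s) : ℝ) ^ 8 ≤ lam i / 2 ^ x.m := by
  classical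
  have hr : retire P lam v x < i.val + 1 - x.s := by omega
  have hn : ¬ Ready P lam v x (i.val + 1 - x.s) :=
    Nat.findGreatest_is_greatest hr (by omega)
  have he : (⟨x.s + (i.val + 1 - x.s) - 1, by omega⟩ : Fin d) = i := by ext; simp; omega
  have h : (2 : ℝ) ^ (x.np + extra (load P v x (i.val + 1 - x.s)) + 1) *
      (load P v x (i.val + 1 - x.s) : ℝ) ^ 8 ≤ lam i / 2 ^ x.m := by
    by_contra hc
    refine hn ⟨by omega, by omega, ?_⟩
    rw [he]
    exact not_le.1 hc
  refine le_trans ?_ h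
  refine mul_le_mul_of_nonneg_right ?_ (by positivity)
  rw [pow_succ, mul_comm]
  exact mul_le_mul_of_nonneg_right
    (pow_le_pow_right₀ (by norm_num) (halvings_le_of_lt hr)) (by norm_num)

lemma one_le_gbar (m : ℕ) (i : Fin d) : 1 ≤ gbar lam m i := le_max_right _ _

lemma gbar_mono (hm : Monotone lam) (m : ℕ) {i j : Fin d} (h : i ≤ j) : gbar lam m i ≤ gbar lam m j :=
  max_le_max (div_le_div_of_nonneg_right (hm h) (by positivity)) le_rfl

lemma one_le_load (hb : 1 ≤ P.base) (r : ℕ) : 1 ≤ load P v x r := by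
  have := le_load (P := P) (v := v) (x := x) r; omega

lemma gbar_above (hb : 1 ≤ P.base) {i : Fin d} (hi : x.s + retire P lam v x ≤ i.val) :
    gbar lam x.m i = lam i / 2 ^ x.m ∧
      2 * (2 : ℝ) ^ halvings P lam v x * (load P v x (i.val + 1 - x.s) : ℝ) ^ 8 ≤ gbar lam x.m i ∧
      gbar lam (x.m + halvings P lam v x) i = gbar lam x.m i / 2 ^ halvings P lam v x ∧
      2 * (load P v x (i.val + 1 - x.s) : ℝ) ^ 8 ≤ gbar lam (x.m + halvings P lam v x) i := by
  have h := large_above (P := P) (v := v) hi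
  have hK : (1 : ℝ) ≤ (load P v x (i.val + 1 - x.s) : ℝ) ^ 8 :=
    one_le_pow₀ (by exact_mod_cast one_le_load hb _)
  have h2 : (1 : ℝ) ≤ (2 : ℝ) ^ halvings P lam v x := one_le_pow₀ (by norm_num)
  have e1 : gbar lam x.m i = lam i / 2 ^ x.m := max_eq_left (by nlinarith)
  have h3 : 2 * (load P v x (i.val + 1 - x.s) : ℝ) ^ 8 ≤
      lam i / 2 ^ (x.m + halvings P lam v x) := by
    rw [pow_add, ← div_div, le_div_iff₀ (by positivity)]
    linarith
  have e2 : gbar lam (x.m + halvings P lam v x) i = lam i / 2 ^ (x.m + halvings P lam v x) :=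
    max_eq_left (by nlinarith)
  refine ⟨e1, by rw [e1]; exact h, ?_, by rw [e2]; exact h3⟩
  rw [e1, e2, pow_add, div_div]

/-- Coordinates that retire are small. -/
lemma gbar_below (H : Hyp lam v) (hb : 1 ≤ P.base) {i : Fin d}
    (hi : i.val < x.s + retire P lam v x) (hk : retire P lam v x ≠ 0) :
    gbar lam x.m i ≤
      2 * (2 : ℝ) ^ halvings P lam v x * (load P v x (retire P lam v x) : ℝ) ^ 8 := by
  obtain ⟨h1, h2, h3⟩ := retire_ready hk
  refine max_le ((div_le_div_of_nonneg_right (H.mono (b := ⟨_, h2⟩) ?_) (by positivity)).trans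
    (h3.le.trans_eq ?_)) ?_
  · simp [Fin.le_def]; omega
  · rw [halvings_eq hk, pow_succ]; ring
  · have hK : (1 : ℝ) ≤ (load P v x (retire P lam v x) : ℝ) ^ 8 :=
      one_le_pow₀ (by exact_mod_cast one_le_load hb _)
    have : (1 : ℝ) ≤ (2 : ℝ) ^ halvings P lam v x := one_le_pow₀ (by norm_num)
    nlinarith

lemma four_load_sq_le (hk : retire P lam v x ≠ 0) :
    4 * (load P v x (retire P lam v x) : ℝ) ^ 2 ≤ (2 : ℝ) ^ halvings P lam v x := by
  have h := Nat.le_pow_clog (by norm_num : 1 < 2) (load P v x (retire P lam v x))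
  set K := load P v x (retire P lam v x) with hK
  have h' : (K : ℝ) ≤ (2 : ℝ) ^ Nat.clog 2 K := by exact_mod_cast h
  calc 4 * (K : ℝ) ^ 2 ≤ 4 * ((2 : ℝ) ^ Nat.clog 2 K) ^ 2 := by gcongr
    _ = (2 : ℝ) ^ extra K := by rw [extra, pow_add, ← pow_mul]; ring
    _ ≤ (2 : ℝ) ^ halvings P lam v x :=
        pow_le_pow_right₀ (by norm_num) (by rw [halvings_eq hk, ← hK]; omega)

lemma newPend_zero (hk : retire P lam v x = 0) : newPend P lam v x = 0 := by
  simp [newPend, hk]

lemma newPend_pos (hk : retire P lam v x ≠ 0) :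
    (2 : ℝ) ^ P.cE * (load P v x (retire P lam v x) : ℝ) ^ 10 ≤ (2 : ℝ) ^ newPend P lam v x := by
  have h := Nat.le_pow_clog (by norm_num : 1 < 2) (load P v x (retire P lam v x))
  set K := load P v x (retire P lam v x) with hK
  have h' : (K : ℝ) ≤ (2 : ℝ) ^ Nat.clog 2 K := by exact_mod_cast h
  simp only [newPend, if_neg hk, ← hK]
  rw [pow_add, mul_comm (10 : ℕ), pow_mul, mul_comm ((2 : ℝ) ^ P.cE)]
  gcongr

lemma gram_diag_le (hI : Inv P lam v x) (hC : 0 ≤ P.C0) (hn : ∀ i, 0 ≤ lam i) {l : Fin d}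
    (hl : x.s ≤ l.val) : gram v x.W l l ≤ (1 + 2 * P.C0) * gbar lam x.m l := by
  have h := (abs_le.1 (hI.bal l l hl le_rfl)).2
  rw [if_pos rfl] at h
  have h1 := one_le_gbar (lam := lam) x.m l
  have h2 := mul_le_mul_of_nonneg_left (add_le_add ((root8_le_sqrt h1).trans
    (sqrt_le_self_of_one_le h1)) (sqrt_le_self_of_one_le h1)) hC
  have h3 : lam l / 2 ^ x.m ≤ gbar lam x.m l := le_max_left _ _
  have := hn l
  simp only [root8] at h2
  linarith

lemma Body.ofFintype_mem {ι κ : Type} [Fintype κ] {blk : κ → Finset ι} {rad : κ → ℝ} {C : ℝ}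
    {z : ι → ℝ} (h : (Body.ofFintype blk rad).Mem C z) (a : κ) :
    ∑ i ∈ blk a, z i ^ 2 ≤ (C * rad a) ^ 2 := by
  have := h ((Fintype.equivFin κ) a)
  simpa [Body.ofFintype] using this

section read

variable {Cr Cc : ℝ} {k n : ℕ} {z : Idx d x.dead.length → ℝ}

lemma mem_flag (hCr : 0 ≤ Cr) (h : (callBody Cr lam x k n).Mem Cc z) {j : ℕ}
    (hj : x.s + k < j) (hjd : j ≤ d) :
    blockSq (fun i => z (.inl i)) (x.s + k) j ≤
      Cc ^ 2 * Cr * ((j : ℝ) - ((x.s : ℝ) + k) + slack n) := by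
  have := Body.ofFintype_mem h (.inl ⟨⟨j - 1, by omega⟩, by simp; omega⟩)
  simp only [callBlk, sum_map, Function.Embedding.coeFn_mk, callRad] at this
  have hj' : (((j - 1 : ℕ) : ℝ) + 1) = j := by
    rw [Nat.cast_sub (by omega)]; push_cast; ring
  rw [hj', mul_pow, Real.sq_sqrt (mul_nonneg hCr ?_), ← mul_assoc] at this
  · refine le_trans (le_of_eq ?_) this
    refine sum_congr ?_ fun _ _ => rfl
    ext i; simp; omega
  · have : ((x.s + k : ℕ) : ℝ) ≤ j := by exact_mod_cast hj.le
    push_cast at this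
    have : (0 : ℝ) ≤ slack n := Nat.cast_nonneg _
    linarith

lemma mem_pair (hCr : 0 ≤ Cr) (hC : 0 ≤ Cc) (h : (callBody Cr lam x k n).Mem Cc z)
    (l m : Fin d) (hl : x.s ≤ l.val) (hlm : l ≤ m) (hm : x.s + k ≤ m.val) :
    |z (.inr (.inl (l, m)))| ≤ Cc * Cr * root8 (gbar lam (x.m + n) m) := by
  have := Body.ofFintype_mem h (.inr (.inl ⟨(l, m), hl, hlm, hm⟩))
  simp only [callBlk, sum_singleton, callRad] at this
  have := abs_le_of_sq_le_sq this (by positivity)
  simpa [root8, mul_assoc] using this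

lemma mem_energy (hC : 0 ≤ Cc) (h : (callBody Cr lam x k n).Mem Cc z) (t : Fin 2) :
    |z (.inr (.inr (.inl t)))| ≤ Cc * Real.sqrt (Cr * (1 + n)) := by
  have := Body.ofFintype_mem h (.inr (.inr (.inl (t, true))))
  simp only [callBlk, sum_singleton, callRad] at this
  exact abs_le_of_sq_le_sq this (by positivity)

lemma mem_retiring (hCr : 0 ≤ Cr) (h : (callBody Cr lam x k n).Mem Cc z) :
    blockSq (fun i => z (.inl i)) x.s (x.s + k) ≤ Cc ^ 2 * Cr * ((k : ℝ) + 1 + n) := by
  have := Body.ofFintype_mem h (.inr (.inr (.inl (0, false))))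
  simp only [callBlk, sum_map, Function.Embedding.coeFn_mk, callRad, if_true] at this
  rw [mul_pow, Real.sq_sqrt (by positivity), ← mul_assoc] at this
  exact this

lemma mem_pending (hCr : 0 ≤ Cr) (hp : x.plo ≤ x.s) (h : (callBody Cr lam x k n).Mem Cc z) :
    blockSq (fun i => z (.inl i)) x.plo x.s ≤
      Cc ^ 2 * Cr * ((x.s : ℝ) - x.plo + 1 + n) := by
  have := Body.ofFintype_mem h (.inr (.inr (.inl (1, false))))
  simp only [callBlk, sum_map, Function.Embedding.coeFn_mk, callRad, Fin.isValue, one_ne_zero,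
    if_false] at this
  rw [mul_pow, Real.sq_sqrt (by positivity), ← mul_assoc, Nat.cast_sub hp] at this
  exact this

lemma mem_deadVec (hCr : 0 ≤ Cr) (h : (callBody Cr lam x k n).Mem Cc z) (g : Fin x.dead.length) :
    blockSq (fun i => z (.inr (.inr (.inr (g, .inl i))))) (x.dead.get g).lo (x.dead.get g).hi ≤
      Cc ^ 2 * Cr * ((((x.dead.get g).hi - (x.dead.get g).lo : ℕ) : ℝ) + 1 + (x.dead.get g).age
        + slack n) := by
  have := Body.ofFintype_mem h (.inr (.inr (.inr (g, 0))))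
  simp only [callBlk, callRad, if_true] at this
  rw [sum_image (fun a _ b _ hab => by simpa using hab), mul_pow, Real.sq_sqrt (by positivity),
    ← mul_assoc] at this
  exact this

lemma mem_deadLump (hC : 0 ≤ Cc) (h : (callBody Cr lam x k n).Mem Cc z)
    (g : Fin x.dead.length) :
    |z (.inr (.inr (.inr (g, .inr 0))))| ≤
      Cc * Real.sqrt (Cr * (1 + (x.dead.get g).age + slack n)) := by
  have := Body.ofFintype_mem h (.inr (.inr (.inr (g, 1))))
  simp only [callBlk, callRad, Fin.isValue, one_ne_zero, if_false, if_true, sum_singleton, zero_add]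
    at this
  exact abs_le_of_sq_le_sq this (by positivity)

lemma mem_deadEnergy (hC : 0 ≤ Cc) (h : (callBody Cr lam x k n).Mem Cc z)
    (g : Fin x.dead.length) :
    |z (.inr (.inr (.inr (g, .inr 1))))| ≤
      Cc * Real.sqrt (Cr * (1 + (x.dead.get g).age + slack n)) := by
  have := Body.ofFintype_mem h (.inr (.inr (.inr (g, 2))))
  simp only [callBlk, callRad, Fin.isValue, show (2 : Fin 3) ≠ 0 by decide,
    show (2 : Fin 3) ≠ 1 by decide, if_false, sum_singleton, zero_add] at this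
  exact abs_le_of_sq_le_sq this (by positivity)

end read

variable {Cr Cc : ℝ} {part : ℕ → Finset (Fin N)} {δ : ℕ → Fin N → ℝ}

lemma CallData.part_subset (hp : CallData P Cr Cc lam v x part δ) {q : ℕ}
    (hq : q < 2 ^ halvings P lam v x) : part q ⊆ x.W := fun _ hw => (hp.cover _).2 ⟨q, hq, hw⟩

lemma CallData.sum_all (hp : CallData P Cr Cc lam v x part δ) (f : Fin N → ℝ) :
    ∑ q ∈ range (2 ^ halvings P lam v x), ∑ w ∈ part q, f w = ∑ w ∈ x.W, f w := by
  rw [← sum_biUnion]
  · refine sum_congr ?_ fun _ _ => rfl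
    ext w
    simp only [mem_biUnion, mem_range, hp.cover w]
  · intro q hq q' hq' hne
    simp only [coe_range, Set.mem_Iio] at hq hq'
    exact disjoint_left.2 fun w h h' => hne (hp.disj q q' w hq hq' h h')

lemma CallData.child_b_last (hp : CallData P Cr Cc lam v x part δ) :
    (mkChild P lam v x part (2 ^ halvings P lam v x - 1)).b v = x.b v := by
  funext i
  simp only [Node.b, mkChild, vsum]
  rw [← hp.sum_all (fun w => v w i), add_assoc, ← sum_range_succ (fun q => ∑ w ∈ part q, v w i),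
    Nat.sub_add_cancel Nat.one_le_two_pow]

lemma child_b (q : ℕ) : (mkChild P lam v x part q).b v = (mkChild P lam v x part (q + 1)).a := by
  funext i
  simp only [Node.b, mkChild, sum_range_succ, vsum]
  ring

/-- The start of child `q`: interpolation, offset and body error. -/
lemma child_a_eq (q : ℕ) (i : Fin d) :
    (mkChild P lam v x part q).a i =
      ((1 - (q : ℝ) / 2 ^ halvings P lam v x) * x.a i + (q : ℝ) / 2 ^ halvings P lam v x * x.b v i) +
        ∑ w ∈ x.W, δ q w * v w i +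
        (∑ q' ∈ range q, ∑ w ∈ part q', lift (v w) x (retire P lam v x) (halvings P lam v x) (.inl i) -
          ∑ w ∈ x.W, ((q : ℝ) / (2 : ℝ) ^ halvings P lam v x + δ q w) *
            lift (v w) x (retire P lam v x) (halvings P lam v x) (.inl i)) := by
  simp only [mkChild, lift, Node.b, vsum, add_mul, sum_add_distrib, ← mul_sum]
  ring

end Vale.Agent.P262.S2
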