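import Vale.Agent.P262.S2.Call

/-! T1-A inputs: the body of a call has positive radii, the lifted vectors have squared norm at most
`16`, and the Gaussian tail of the body, times the number of checkpoints, is as small as we like. -/

namespace Vale.Agent.P262.S2

open Finset

variable {d N : ℕ}

lemma blockSq_nonneg_cb (u : Fin d → ℝ) (lo hi : ℕ) : 0 ≤ blockSq u lo hi :=
  sum_nonneg fun _ _ => sq_nonneg _

lemma blockSq_le_sum (u : Fin d → ℝ) (lo hi : ℕ) : blockSq u lo hi ≤ ∑ i, u i ^ 2 :=
  sum_le_univ_sum_of_nonneg fun _ => sq_nonneg _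

lemma gbar_pos (lam : Fin d → ℝ) (m : ℕ) (i : Fin d) : 0 < gbar lam m i :=
  lt_max_of_lt_right one_pos

/-- (a) -/
theorem callBody_pos {Cr : ℝ} (hCr : 1 ≤ Cr) (lam : Fin d → ℝ) (x : Node d N) (k n : ℕ) :
    (callBody Cr lam x k n).Pos := by
  intro j
  have h0 : 0 < Cr := one_pos.trans_le hCr
  show 0 < callRad Cr lam x k n _
  generalize (Fintype.equivFin (BlockName x k)).symm j = b
  rcases b with ⟨i, hi⟩ | p | ⟨t, b⟩ | ⟨g, t⟩
  · have h : ((x.s : ℝ) + k) ≤ (i.val : ℝ) := by exact_mod_cast hi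
    exact Real.sqrt_pos.mpr (mul_pos h0 (by linarith [(Nat.cast_nonneg (slack n) : (0 : ℝ) ≤ _)]))
  · exact mul_pos h0 (Real.sqrt_pos.mpr (Real.sqrt_pos.mpr (Real.sqrt_pos.mpr (gbar_pos _ _ _))))
  · cases b
    · refine Real.sqrt_pos.mpr (mul_pos h0 ?_)
      split_ifs <;> positivity
    · exact Real.sqrt_pos.mpr (mul_pos h0 (by positivity))
  · refine Real.sqrt_pos.mpr (mul_pos h0 ?_)
    split_ifs <;> positivity

lemma ages_injective {l : List Dead} (h : l.Pairwise fun G G' => G.age ≠ G'.age) :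
    Function.Injective fun g : Fin l.length => (l.get g).age := by
  intro a b hab
  rcases lt_trichotomy a b with h' | h' | h'
  · exact absurd hab (List.pairwise_iff_get.mp h a b h')
  · exact h'
  · exact absurd hab.symm (List.pairwise_iff_get.mp h b a h')

lemma sum_ages_le {l : List Dead} (h : l.Pairwise fun G G' => G.age ≠ G'.age) (f : ℕ → ℝ) {B : ℝ}
    (hf : ∀ j, 0 ≤ f j) (hB : ∀ M, ∑ j ∈ range M, f j ≤ B) :
    ∑ g : Fin l.length, f (l.get g).age ≤ B := by
  rw [← sum_image (f := f) (ages_injective h).injOn]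
  set S := univ.image fun g : Fin l.length => (l.get g).age
  exact (sum_le_sum_of_subset_of_nonneg (fun j hj => mem_range.mpr
    (Nat.lt_succ_of_le (le_sup (f := id) hj))) fun j _ _ => hf j).trans (hB (S.sup id + 1))

lemma sum_inv_sq_le (M : ℕ) : ∑ j ∈ range M, (1 / (1 + (j : ℝ))) ^ 2 ≤ 2 := by
  have h : ∀ M : ℕ, ∑ j ∈ range M, (1 / (1 + (j : ℝ))) ^ 2 ≤ (2 : ℝ) - 2 / ((M : ℝ) + 1) := by
    intro M
    induction M with
    | zero => simp
    | succ M ih =>
      rw [sum_range_succ]
      push_cast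
      have key : (1 / (1 + (M : ℝ))) ^ 2 ≤ 2 / ((M : ℝ) + 1) - 2 / ((M : ℝ) + 1 + 1) := by
        rw [div_pow, one_pow, div_sub_div _ _ (by positivity) (by positivity),
          div_le_div_iff₀ (by positivity) (by positivity)]
        nlinarith
      linarith
  exact (h M).trans (sub_le_self _ (by positivity))

lemma sq_ite_mul {p : Prop} [Decidable p] (a b : ℝ) :
    (if p then a * b else 0) ^ 2 = if p then a ^ 2 * b ^ 2 else 0 := by
  split_ifs <;> ring

lemma sum_liftDead_sq_le (u : Fin d → ℝ) (G : Dead) (n : ℕ) :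
    ∑ z, liftDead u G n z ^ 2 ≤ (1 / (1 + (G.age : ℝ))) ^ 2 * 3 := by
  have hs2 : ∀ j : ℕ, (Real.sqrt 2 ^ j) ^ 2 = (2 : ℝ) ^ j := fun j => by
    rw [← pow_mul, mul_comm, pow_mul, Real.sq_sqrt zero_le_two]
  have hb := blockSq_nonneg_cb u G.lo G.hi
  have hkey : ∀ j, smallAt u G j → (2 : ℝ) ^ j * blockSq u G.lo G.hi ≤ 1 := fun j hj =>
    (mul_le_mul_of_nonneg_left hj (by positivity)).trans_eq (by rw [← mul_pow]; norm_num)
  have hvec : ∑ i : Fin d, (if smallAt u G G.age ∧ G.lo ≤ i.val ∧ i.val < G.hi then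
      Real.sqrt 2 ^ G.age * u i else 0) ^ 2 ≤ 1 := by
    by_cases h : smallAt u G G.age
    · simp only [h, true_and, sq_ite_mul, hs2]
      rw [← sum_filter, ← mul_sum]
      exact hkey _ h
    · refine le_trans (le_of_eq (sum_eq_zero fun i _ => ?_)) zero_le_one
      rw [if_neg fun hh => h hh.1]
      norm_num
  rw [Fintype.sum_sum_type, Fin.sum_univ_two]
  simp only [liftDead, mul_pow, ← mul_sum, ← mul_add, one_ne_zero, if_true, if_false]
  refine mul_le_mul_of_nonneg_left ?_ (sq_nonneg _)
  have h1 : (if smallAt u G G.age ∧ ¬ smallAt u G (G.age + n) then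
      Real.sqrt 2 ^ G.age * Real.sqrt (blockSq u G.lo G.hi) else 0) ^ 2 ≤ 1 := by
    split_ifs with h
    · rw [mul_pow, hs2, Real.sq_sqrt hb]; exact hkey _ h.1
    · norm_num
  have h2 : (if smallAt u G (G.age + n) then
      (2 : ℝ) ^ (G.age + n) * blockSq u G.lo G.hi else 0) ^ 2 ≤ 1 := by
    split_ifs with h
    · exact pow_le_one₀ (by positivity) (hkey _ h)
    · norm_num
  linarith

/-- (b) -/
theorem sum_lift_sq_le (x : Node d N) (hdist : x.dead.Pairwise fun G G' => G.age ≠ G'.age)
    {u : Fin d → ℝ} (hu : ∑ i, u i ^ 2 ≤ 1) (k n : ℕ) : ∑ i, lift u x k n i ^ 2 ≤ 16 := by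
  have h0 : 0 ≤ ∑ i, u i ^ 2 := sum_nonneg fun i _ => sq_nonneg _
  have e1 : ∑ i : Fin d, lift u x k n (.inl i) ^ 2 ≤ 1 := hu
  have e2 : ∑ p : Fin d × Fin d, lift u x k n (.inr (.inl p)) ^ 2 ≤ 1 := by
    refine (sum_le_sum (g := fun p : Fin d × Fin d => u p.1 ^ 2 * u p.2 ^ 2) fun p _ => ?_).trans ?_
    · simp only [lift, sq_ite_mul]
      split_ifs
      · exact le_rfl
      · positivity
    · rw [Fintype.sum_prod_type]
      simp only [← mul_sum, ← sum_mul]
      exact mul_le_one₀ hu h0 hu
  have e3 : ∑ t : Fin 2, lift u x k n (.inr (.inr (.inl t))) ^ 2 ≤ 2 := by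
    have hb : ∀ lo hi, blockSq u lo hi ^ 2 ≤ 1 := fun lo hi =>
      pow_le_one₀ (blockSq_nonneg_cb u lo hi) ((blockSq_le_sum u lo hi).trans hu)
    rw [Fin.sum_univ_two]
    simp only [lift, one_ne_zero, if_true, if_false]
    linarith [hb x.s (x.s + k), hb x.plo x.s]
  have e4 : ∑ p : Fin x.dead.length × (Fin d ⊕ Fin 2),
      lift u x k n (.inr (.inr (.inr p))) ^ 2 ≤ 6 := by
    rw [Fintype.sum_prod_type]
    refine (sum_le_sum (g := fun g => (1 / (1 + ((x.dead.get g).age : ℝ))) ^ 2 * 3)
      fun g _ => sum_liftDead_sq_le u _ n).trans ?_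
    rw [← sum_mul]
    have := sum_ages_le hdist (fun j => (1 / (1 + (j : ℝ))) ^ 2) (fun _ => sq_nonneg _) sum_inv_sq_le
    linarith
  simp only [Fintype.sum_sum_type]
  linarith

lemma tail_ofFintype {ι κ : Type} [Fintype κ] (blk : κ → Finset ι) (rad : κ → ℝ) :
    (Body.ofFintype blk rad).tail = ∑ k, (2 : ℝ) ^ (blk k).card * Real.exp (-(rad k) ^ 2 / 4) :=
  Equiv.sum_comp (Fintype.equivFin κ).symm
    fun k => (2 : ℝ) ^ (blk k).card * Real.exp (-(rad k) ^ 2 / 4)

lemma clog_le_self (K : ℕ) : Nat.clog 2 K ≤ K := Nat.clog_le_of_le_pow Nat.lt_two_pow_self.le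

lemma blockSq_mono_cb (u : Fin d → ℝ) (lo : ℕ) {hi hi' : ℕ} (h : hi ≤ hi') :
    blockSq u lo hi ≤ blockSq u lo hi' := by
  refine sum_le_sum_of_subset_of_nonneg (fun i hi => ?_) fun i _ _ => sq_nonneg _
  simp only [mem_filter, mem_univ, true_and] at hi ⊢
  omega

lemma load_mono_cb (P : Par) (v : Fin N → Fin d → ℝ) (x : Node d N) {r r' : ℕ} (h : r ≤ r') :
    load P v x r ≤ load P v x r' := by
  unfold load
  gcongr ⌈?_⌉₊ + _ + _
  exact add_le_add (add_le_add (by exact_mod_cast h) (blockSq_mono_cb _ _ (by omega)))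
    (blockSq_mono_cb _ _ (by omega))

lemma self_add_np_le_load (P : Par) (v : Fin N → Fin d → ℝ) (x : Node d N) (r : ℕ) :
    r + x.np ≤ load P v x r := by
  have h : (r : ℝ) ≤ (r : ℝ) + blockSq x.a x.s (x.s + r) + blockSq (x.b v) x.s (x.s + r) := by
    linarith [blockSq_nonneg_cb x.a x.s (x.s + r), blockSq_nonneg_cb (x.b v) x.s (x.s + r)]
  have h' := (Nat.le_ceil _).trans' h
  have h'' : r ≤ ⌈(r : ℝ) + blockSq x.a x.s (x.s + r) + blockSq (x.b v) x.s (x.s + r)⌉₊ :=
    Nat.cast_le.mp h'
  simp only [load]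
  omega

/-- Above the retired coordinates the next level still has `gbar' ≥ K ^ 8`, `K` the load. -/
lemma above_retire (P : Par) (lam : Fin d → ℝ) (v : Fin N → Fin d → ℝ) (x : Node d N) (i : Fin d)
    (hi : x.s + retire P lam v x ≤ i.val) :
    (load P v x (i.val + 1 - x.s) : ℝ) ^ 8 ≤ gbar lam (x.m + halvings P lam v x) i ∧
      i.val + 1 - x.s ≤ load P v x (i.val + 1 - x.s) ∧
      halvings P lam v x ≤ 6 * load P v x (i.val + 1 - x.s) := by
  classical
  set r := i.val + 1 - x.s with hr
  set k := retire P lam v x with hk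
  set K := load P v x r with hK
  have hkr : k < r := by omega
  have hnot : ¬ Ready P lam v x r := by
    rw [hk, retire] at hkr
    exact Nat.findGreatest_is_greatest hkr (by omega)
  have hri : x.s + r - 1 = i.val := by omega
  have hbig : (2 : ℝ) ^ (x.np + extra K + 1) * (K : ℝ) ^ 8 ≤ lam i / 2 ^ x.m := by
    refine le_of_not_gt fun h => hnot ⟨by omega, by omega, ?_⟩
    have e : (⟨x.s + r - 1, by omega⟩ : Fin d) = i := Fin.ext hri
    rw [e]
    exact h
  have hKk : extra (load P v x k) ≤ extra K := by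
    simp only [extra]
    have := Nat.clog_mono_right 2 (show load P v x k ≤ K from load_mono_cb P v x hkr.le)
    omega
  have hn : halvings P lam v x ≤ x.np + extra K + 1 := by
    simp only [halvings, ← hk]
    split_ifs <;> omega
  have hload := self_add_np_le_load P v x r
  refine ⟨?_, by omega, ?_⟩
  · refine le_trans ?_ (le_max_left _ _)
    rw [pow_add, ← div_div, le_div_iff₀ (by positivity)]
    refine le_trans ?_ hbig
    rw [mul_comm]
    exact mul_le_mul_of_nonneg_right (pow_le_pow_right₀ one_le_two hn) (by positivity)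
  · have := clog_le_self K
    simp only [extra] at hn
    omega

section tail

variable {q : ℝ} (hq : 0 < q) (hq2 : q ≤ 1 / 2)
include hq hq2

lemma factor_mul_pow_le (n : ℕ) : ((2 : ℝ) ^ n + 1) * q ^ n ≤ 3 := by
  have h1 : ((2 : ℝ) * q) ^ n ≤ 1 := pow_le_one₀ (by positivity) (by linarith)
  have h2 : q ^ n ≤ 1 := pow_le_one₀ hq.le (by linarith)
  rw [add_mul, one_mul, ← mul_pow]
  linarith

lemma factor_mul_slack_le (n : ℕ) : ((2 : ℝ) ^ n + 1) * q ^ slack n ≤ 3 := by
  simp only [slack]
  split_ifs with h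
  · subst h; norm_num
  · exact factor_mul_pow_le hq hq2 n

lemma sum_pow_le (M : ℕ) : ∑ j ∈ range M, q ^ j ≤ 2 := by
  refine (sum_le_hasSum (range M) (fun j _ => by positivity) (hasSum_geometric_of_lt_one hq.le
    (by linarith))).trans ?_
  rw [inv_le_comm₀ (by linarith) two_pos]
  linarith

lemma sum_pow_succ_le (S : Finset ℕ) : ∑ j ∈ S, q ^ (j + 1) ≤ 2 * q := by
  simp only [pow_succ, ← sum_mul]
  refine mul_le_mul_of_nonneg_right ?_ hq.le
  exact (sum_le_sum_of_subset_of_nonneg (fun j hj => mem_range.mpr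
    (Nat.lt_succ_of_le (le_sup (f := id) hj))) fun j _ _ => by positivity).trans
      (sum_pow_le hq hq2 (S.sup id + 1))

lemma block_term_le {c w n e : ℕ} (hc : c ≤ w) (hn : ((2 : ℝ) ^ n + 1) * q ^ e ≤ 3) (a : ℕ) :
    ((2 : ℝ) ^ n + 1) * ((2 : ℝ) ^ c * q ^ (w + 1 + a + e)) ≤ 3 * q * q ^ a := by
  have h1 : (2 : ℝ) ^ c * q ^ w ≤ 1 := by
    refine (mul_le_mul_of_nonneg_right (pow_le_pow_right₀ one_le_two hc) (by positivity)).trans ?_
    rw [← mul_pow]
    exact pow_le_one₀ (by positivity) (by linarith)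
  calc ((2 : ℝ) ^ n + 1) * ((2 : ℝ) ^ c * q ^ (w + 1 + a + e))
      = (((2 : ℝ) ^ n + 1) * q ^ e) * ((2 : ℝ) ^ c * q ^ w) * (q * q ^ a) := by ring
    _ ≤ 3 * 1 * (q * q ^ a) := mul_le_mul_of_nonneg_right
        (mul_le_mul hn h1 (by positivity) (by norm_num)) (by positivity)
    _ = _ := by ring

end tail

lemma card_interval_le {d : ℕ} (lo hi : ℕ) :
    (univ.filter fun z : Fin d => lo ≤ z.val ∧ z.val < hi).card ≤ hi - lo := by
  rw [← card_map ⟨Fin.val, Fin.val_injective⟩]
  refine (card_le_card fun z hz => ?_).trans (Nat.card_Ico lo hi).le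
  simp only [mem_map, mem_filter, mem_univ, true_and, Function.Embedding.coeFn_mk] at hz
  obtain ⟨a, ha, rfl⟩ := hz
  exact mem_Ico.mpr ha

/-- `exp (-(√(Cr * m))² / 4) = q ^ m`. -/
lemma exp_rad {Cr : ℝ} (hCr : 0 ≤ Cr) {r : ℝ} (m : ℕ) (hr : r = m) :
    Real.exp (-(Real.sqrt (Cr * r)) ^ 2 / 4) = Real.exp (-Cr / 4) ^ m := by
  subst hr
  rw [Real.sq_sqrt (by positivity), ← Real.exp_nat_mul]
  ring_nf

/-- (c) -/
theorem callBody_tail_le (ε : ℝ) (hε : 0 < ε) : ∃ C₁ : ℝ, 1 ≤ C₁ ∧ ∀ Cr : ℝ, C₁ ≤ Cr →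
    ∀ (P : Par) (d N : ℕ) (lam : Fin d → ℝ) (v : Fin N → Fin d → ℝ) (x : Node d N),
      (x.dead.Pairwise fun G G' => G.age ≠ G'.age) →
        ((2 : ℝ) ^ halvings P lam v x + 1) *
          (callBody Cr lam x (retire P lam v x) (halvings P lam v x)).tail ≤ ε := by
  set y : ℝ := min (1 / 2) (ε / 64) with hy
  have hy0 : 0 < y := lt_min (by norm_num) (by positivity)
  refine ⟨max 1 (-(4 * Real.log (y / 512))), le_max_left _ _,
    fun Cr hCr P d N lam v x hdist => ?_⟩
  set q := Real.exp (-Cr / 4) with hqdef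
  have hC1 : 1 ≤ Cr := (le_max_left _ _).trans hCr
  have hC0 : 0 ≤ Cr := by linarith
  have hq : 0 < q := Real.exp_pos _
  have hqy : 512 * q ≤ y := by
    have h : -Cr / 4 ≤ Real.log (y / 512) := by linarith [(le_max_right _ _).trans hCr]
    have h' := Real.exp_le_exp.mpr h
    rw [Real.exp_log (by positivity)] at h'
    rw [hqdef]; linarith
  have hyh : y ≤ 1 / 2 := min_le_left _ _
  have hq2 : q ≤ 1 / 2 := by linarith
  set n := halvings P lam v x with hn
  set k := retire P lam v x with hk
  set F : ℝ := (2 : ℝ) ^ n + 1 with hF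
  have hF0 : 0 ≤ F := by positivity
  rw [callBody, tail_ofFintype]
  simp only [Fintype.sum_sum_type, mul_add]
  have t1 : F * ∑ i : {i : Fin d // x.s + k ≤ i.val},
      (2 : ℝ) ^ (callBlk x k (.inl i)).card *
        Real.exp (-(callRad Cr lam x k n (.inl i)) ^ 2 / 4) ≤ 6 * y := by
    rw [mul_sum]
    calc _ ≤ ∑ i : {i : Fin d // x.s + k ≤ i.val}, 3 * y ^ ((i.1.val - (x.s + k)) + 1) := by
          refine sum_le_sum fun i _ => ?_
          obtain ⟨i, hi⟩ := i
          obtain ⟨j, hj⟩ : ∃ j, i.val = x.s + k + j := ⟨i.val - (x.s + k), by omega⟩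
          simp only [callBlk, callRad, card_map, hj, Nat.add_sub_cancel_left]
          rw [exp_rad hC0 (j + 1 + slack n) (by push_cast; ring), ← hqdef]
          have hc : (univ.filter fun z : Fin d => x.s + k ≤ z.val ∧ z.val ≤ x.s + k + j).card ≤ j + 1 := by
            have := card_interval_le (d := d) (x.s + k) (x.s + k + j + 1)
            simp only [Nat.lt_succ_iff] at this
            omega
          calc F * ((2 : ℝ) ^ _ * q ^ (j + 1 + slack n))
              ≤ F * ((2 : ℝ) ^ (j + 1) * q ^ (j + 1 + slack n)) := by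
                gcongr
                exact one_le_two
            _ = (F * q ^ slack n) * (2 * q) ^ (j + 1) := by ring
            _ ≤ _ := mul_le_mul (factor_mul_slack_le hq hq2 n)
                (pow_le_pow_left₀ (by positivity) (by linarith) _) (by positivity) (by norm_num)
      _ ≤ 6 * y := by
          rw [← mul_sum]
          have h := sum_pow_succ_le hy0 hyh
            (univ.image fun i : {i : Fin d // x.s + k ≤ i.val} => i.1.val - (x.s + k))
          rw [sum_image fun a _ b _ hab => Subtype.ext (Fin.ext (by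
            have := a.2; have := b.2; omega))] at h
          linarith
  have t2 : F * ∑ p : {p : Fin d × Fin d // x.s ≤ p.1.val ∧ p.1 ≤ p.2 ∧ x.s + k ≤ p.2.val},
      (2 : ℝ) ^ (callBlk x k (.inr (.inl p))).card *
        Real.exp (-(callRad Cr lam x k n (.inr (.inl p))) ^ 2 / 4) ≤ 2 * y := by
    rw [mul_sum]
    simp only [callBlk, card_singleton, pow_one, callRad]
    calc _ ≤ ∑ p : {p : Fin d × Fin d // x.s ≤ p.1.val ∧ p.1 ≤ p.2 ∧ x.s + k ≤ p.2.val},
          (256 * q) ^ load P v x (p.1.2.val + 1 - x.s) := by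
          refine sum_le_sum fun p _ => ?_
          obtain ⟨hg, hr, hn6⟩ := above_retire P lam v x p.1.2 p.2.2.2
          set K := load P v x (p.1.2.val + 1 - x.s)
          have hK1 : 1 ≤ K := by
            have := p.2.1; have := p.2.2.1; omega
          set g := gbar lam (x.m + n) p.1.2
          set Q := Real.sqrt (Real.sqrt (Real.sqrt g))
          have hQ : (K : ℝ) ≤ Q := by
            have h2 : (((K : ℝ) ^ 2) ^ 2) ^ 2 ≤ g := by rw [← pow_mul, ← pow_mul]; exact hg
            exact Real.le_sqrt_of_sq_le (Real.le_sqrt_of_sq_le (Real.le_sqrt_of_sq_le h2))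
          have he : Real.exp (-(Cr * Q) ^ 2 / 4) ≤ q ^ K := by
            rw [hqdef, ← Real.exp_nat_mul, Real.exp_le_exp]
            have hK1' : (1 : ℝ) ≤ K := by exact_mod_cast hK1
            have h5 : Cr * K ≤ (Cr * Q) ^ 2 := by
              have h6 : Cr * (K : ℝ) ≤ Cr * Q := mul_le_mul_of_nonneg_left hQ hC0
              have h7 : 1 ≤ Cr * (K : ℝ) := by nlinarith
              nlinarith
            linarith
          calc F * (2 * Real.exp (-(Cr * Q) ^ 2 / 4)) ≤ F * (2 * q ^ K) := by gcongr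
            _ ≤ (256 : ℝ) ^ K * q ^ K := by
                rw [← mul_assoc]
                refine mul_le_mul_of_nonneg_right ?_ (by positivity)
                calc F * 2 ≤ (2 : ℝ) ^ (n + 1) * 2 := by
                      refine mul_le_mul_of_nonneg_right ?_ two_pos.le
                      rw [hF, pow_succ]
                      linarith [one_le_pow₀ (show (1:ℝ) ≤ 2 by norm_num) (n := n)]
                  _ = (2 : ℝ) ^ (n + 2) := by ring
                  _ ≤ (2 : ℝ) ^ (8 * K) := pow_le_pow_right₀ one_le_two (by omega)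
                  _ = _ := by rw [pow_mul]; norm_num
            _ = _ := (mul_pow _ _ _).symm
      _ = ∑ m ∈ univ.filter (fun m : Fin d => x.s + k ≤ m.val),
            ((univ.filter fun l : Fin d => x.s ≤ l.val ∧ l ≤ m).card : ℝ) *
              (256 * q) ^ load P v x (m.val + 1 - x.s) := by
          rw [← sum_subtype (univ.filter fun p : Fin d × Fin d =>
              x.s ≤ p.1.val ∧ p.1 ≤ p.2 ∧ x.s + k ≤ p.2.val) (fun p => by simp)
            (fun p : Fin d × Fin d => (256 * q) ^ load P v x (p.2.val + 1 - x.s)),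
            sum_filter, Fintype.sum_prod_type, sum_comm, sum_filter]
          refine sum_congr rfl fun m _ => ?_
          simp only
          split_ifs with hm
          · rw [← sum_filter]
            simp [hm]
          · exact sum_eq_zero fun l _ => if_neg fun h => hm h.2.2
      _ ≤ ∑ m ∈ univ.filter (fun m : Fin d => x.s + k ≤ m.val), y ^ ((m.val - x.s) + 1) := by
          refine sum_le_sum fun m hm => ?_
          have hm' := (mem_filter.mp hm).2
          obtain ⟨j, hj⟩ : ∃ j, m.val = x.s + j := ⟨m.val - x.s, by omega⟩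
          obtain ⟨-, hr, -⟩ := above_retire P lam v x m hm'
          set K := load P v x (m.val + 1 - x.s)
          have hc : (univ.filter fun l : Fin d => x.s ≤ l.val ∧ l ≤ m).card ≤ K := by
            refine le_trans ?_ hr
            refine (card_le_card fun l hl => ?_).trans (card_interval_le (d := d) x.s (m.val + 1))
            simp only [mem_filter, mem_univ, true_and, Fin.le_def] at hl ⊢
            omega
          have hc' : ((univ.filter fun l : Fin d => x.s ≤ l.val ∧ l ≤ m).card : ℝ) ≤ (2 : ℝ) ^ K :=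
            le_trans (Nat.cast_le.mpr hc) (by exact_mod_cast Nat.lt_two_pow_self.le)
          refine (mul_le_mul_of_nonneg_right hc' (by positivity)).trans ?_
          rw [← mul_pow]
          refine (pow_le_pow_left₀ (by positivity) (show 2 * (256 * q) ≤ y by linarith) _).trans ?_
          exact pow_le_pow_of_le_one hy0.le (by linarith) (by omega)
      _ ≤ 2 * y := by
          have h := sum_pow_succ_le hy0 hyh
            ((univ.filter fun m : Fin d => x.s + k ≤ m.val).image fun m => m.val - x.s)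
          rw [sum_image fun a ha b hb hab => Fin.ext (by
            have ha' := (mem_filter.mp ha).2
            have hb' := (mem_filter.mp hb).2
            omega)] at h
          exact h
  have t3 : F * ∑ z : Fin 2 × Bool, (2 : ℝ) ^ (callBlk x k (.inr (.inr (.inl z)))).card *
      Real.exp (-(callRad Cr lam x k n (.inr (.inr (.inl z)))) ^ 2 / 4) ≤ 24 * q := by
    rw [mul_sum]
    refine (sum_le_sum (g := fun _ => 6 * q) fun z _ => ?_).trans (le_of_eq (by simp; ring))
    obtain ⟨t, b⟩ := z
    cases b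
    · simp only [callBlk, callRad, card_map]
      rw [exp_rad hC0 ((if t = 0 then k else x.s - x.plo) + 1 + 0 + n)
        (by split_ifs <;> (push_cast; ring)), ← hqdef]
      refine (block_term_le hq hq2 ?_ (factor_mul_pow_le hq hq2 n) 0).trans (by rw [pow_zero]; linarith)
      split_ifs
      · simpa using card_interval_le (d := d) x.s (x.s + k)
      · exact card_interval_le _ _
    · simp only [callBlk, callRad, card_singleton, pow_one]
      rw [exp_rad hC0 (1 + n) (by push_cast; ring), ← hqdef]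
      have := factor_mul_pow_le hq hq2 n
      calc F * (2 * q ^ (1 + n)) = (F * q ^ n) * (2 * q) := by ring
        _ ≤ 3 * (2 * q) := mul_le_mul_of_nonneg_right this (by positivity)
        _ = _ := by ring
  have t4 : F * ∑ z : Fin x.dead.length × Fin 3,
      (2 : ℝ) ^ (callBlk x k (.inr (.inr (.inr z)))).card *
        Real.exp (-(callRad Cr lam x k n (.inr (.inr (.inr z)))) ^ 2 / 4) ≤ 36 * q := by
    rw [Fintype.sum_prod_type, mul_sum]
    refine (sum_le_sum (g := fun g => 18 * q * q ^ (x.dead.get g).age) fun g _ => ?_).trans ?_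
    · rw [mul_sum]
      refine (sum_le_sum (g := fun _ => 2 * (3 * q * q ^ (x.dead.get g).age)) fun t _ => ?_).trans
        (le_of_eq (by simp; ring))
      set G := x.dead.get g with hG
      simp only [callBlk, callRad, ← hG]
      rw [exp_rad hC0 ((if t = 0 then G.hi - G.lo else 0) + 1 + G.age + slack n)
        (by split_ifs <;> (push_cast; ring)), ← hqdef]
      have hpos : (0 : ℝ) ≤ 3 * q * q ^ G.age := by positivity
      by_cases h : t = 0
      · simp only [if_pos h]
        refine (block_term_le hq hq2 ?_ (factor_mul_slack_le hq hq2 n) _).trans (by linarith)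
        exact card_image_le.trans (card_interval_le _ _)
      · simp only [if_neg h]
        rw [card_singleton, pow_one]
        have := block_term_le hq hq2 (le_refl 0) (factor_mul_slack_le hq hq2 n) G.age
        rw [pow_zero, one_mul] at this
        calc F * (2 * q ^ (0 + 1 + G.age + slack n)) = 2 * (F * q ^ (0 + 1 + G.age + slack n)) := by ring
          _ ≤ _ := by linarith
    · rw [← mul_sum]
      have := sum_ages_le hdist (fun j => q ^ j) (fun _ => by positivity) (sum_pow_le hq hq2)
      nlinarith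
  calc _ ≤ 6 * y + (2 * y + (24 * q + 36 * q)) :=
        add_le_add t1 (add_le_add t2 (add_le_add t3 t4))
    _ ≤ ε := by linarith [min_le_right (1 / 2 : ℝ) (ε / 64)]

end Vale.Agent.P262.S2
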