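import Mathlib
import Vale.Agent.P262.S2.Call

/-!
T1-B: the ends of the children of a call.

The end after `t` parts is `(1 - t/M) a + (t/M) b + offset + error`, where the error lies in the
body; on the live coordinates, for `0 < t < M`, it is the error alone.
-/

namespace Vale.Agent.P262.S2

open Finset

variable {d N : ℕ}

/-- The end after the first `t` parts. -/
private noncomputable def endAt (v : Fin N → Fin d → ℝ) (x : Node d N) (part : ℕ → Finset (Fin N)) (t : ℕ) :
    Fin d → ℝ :=
  fun i => x.a i + ∑ q' ∈ range t, vsum v (part q') i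

/-- The error of the first `t` parts on the original coordinates. -/
private noncomputable def errAt (P : Par) (lam : Fin d → ℝ) (v : Fin N → Fin d → ℝ) (x : Node d N)
    (part : ℕ → Finset (Fin N)) (δ : ℕ → Fin N → ℝ) (t : ℕ) : Fin d → ℝ :=
  fun i => ∑ q' ∈ range t, ∑ w ∈ part q', v w i -
    ∑ w ∈ x.W, ((t : ℝ) / (2 : ℝ) ^ halvings P lam v x + δ t w) * v w i

private lemma blk_nonneg (z : Fin d → ℝ) (lo hi : ℕ) : 0 ≤ blockSq z lo hi :=
  sum_nonneg fun _ _ => sq_nonneg _

private lemma blk_empty (z : Fin d → ℝ) (lo : ℕ) : blockSq z lo lo = 0 := by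
  refine sum_eq_zero fun i hi => ?_
  simp only [mem_filter] at hi
  omega

private lemma blk_congr {z z' : Fin d → ℝ} {lo hi : ℕ}
    (h : ∀ i : Fin d, lo ≤ i.val → i.val < hi → z i = z' i) :
    blockSq z lo hi = blockSq z' lo hi := by
  refine sum_congr rfl fun i hi' => ?_
  simp only [mem_filter] at hi'
  rw [h i hi'.2.1 hi'.2.2]

private lemma excess_self (F0 : ℝ) (s : ℕ) (z : Fin d → ℝ) : 0 ≤ excess F0 s z := by
  refine le_trans ?_ (le_sup' (fun j => blockSq z s j - F0 * ((j : ℝ) - s))
    (mem_Icc.2 ⟨le_rfl, le_max_left s d⟩))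
  simp [blk_empty]

private lemma excess_congr (F0 : ℝ) (s : ℕ) {z z' : Fin d → ℝ}
    (h : ∀ i : Fin d, s ≤ i.val → z i = z' i) : excess F0 s z = excess F0 s z' := by
  unfold excess
  congr 1
  funext j
  rw [blk_congr fun i hi _ => h i hi]

variable {P : Par} {Cr Cc : ℝ} {lam : Fin d → ℝ} {v : Fin N → Fin d → ℝ} {x : Node d N}
  {part : ℕ → Finset (Fin N)} {δ : ℕ → Fin N → ℝ}

private lemma err_block (H : CallData P Cr Cc lam v x part δ) {t : ℕ}
    (ht : t ≤ 2 ^ halvings P lam v x) (j : BlockName x (retire P lam v x)) :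
    ∑ i ∈ callBlk x (retire P lam v x) j,
      (∑ q' ∈ range t, ∑ w ∈ part q', lift (v w) x (retire P lam v x) (halvings P lam v x) i -
        ∑ w ∈ x.W, ((t : ℝ) / (2 : ℝ) ^ halvings P lam v x + δ t w) *
          lift (v w) x (retire P lam v x) (halvings P lam v x) i) ^ 2
      ≤ (Cc * callRad Cr lam x (retire P lam v x) (halvings P lam v x) j) ^ 2 := by
  have h := H.err t ht (Fintype.equivFin _ j)
  simpa [callBody, Body.ofFintype] using h

private lemma err_flag (hr : 0 ≤ Cr) (H : CallData P Cr Cc lam v x part δ) {t : ℕ}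
    (ht : t ≤ 2 ^ halvings P lam v x) {j : ℕ} (hj : x.s + retire P lam v x < j) (hjd : j ≤ d) :
    blockSq (errAt P lam v x part δ t) (x.s + retire P lam v x) j ≤
      Cc ^ 2 * Cr * ((j : ℝ) - ((x.s + retire P lam v x : ℕ) : ℝ) + slack (halvings P lam v x)) := by
  have h := err_block H ht (Sum.inl ⟨⟨j - 1, by omega⟩, by show _ ≤ j - 1; omega⟩)
  simp only [callBlk, callRad, sum_map, Function.Embedding.coeFn_mk] at h
  have hj1 : (((j - 1 : ℕ) : ℝ) + 1) = (j : ℝ) := by
    rw [Nat.cast_sub (by omega)]; simp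
  have hcast : (x.s : ℝ) + (retire P lam v x : ℝ) ≤ j := by exact_mod_cast hj.le
  rw [hj1, mul_pow, Real.sq_sqrt (mul_nonneg hr (by
    have : (0 : ℝ) ≤ (slack (halvings P lam v x) : ℝ) := Nat.cast_nonneg _
    linarith))] at h
  push_cast
  refine le_trans (le_of_eq ?_) (h.trans (le_of_eq (by ring)))
  refine sum_congr ?_ fun i _ => rfl
  ext i
  simp only [mem_filter, mem_univ, true_and]
  omega

private lemma err_group (hr : 0 ≤ Cr) (H : CallData P Cr Cc lam v x part δ) {t : ℕ}
    (ht : t ≤ 2 ^ halvings P lam v x) :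
    blockSq (errAt P lam v x part δ t) x.s (x.s + retire P lam v x) ≤
        Cc ^ 2 * Cr * ((retire P lam v x : ℝ) + 1 + halvings P lam v x) ∧
      blockSq (errAt P lam v x part δ t) x.plo x.s ≤
        Cc ^ 2 * Cr * (((x.s - x.plo : ℕ) : ℝ) + 1 + halvings P lam v x) := by
  constructor
  · have h := err_block H ht (Sum.inr (Sum.inr (Sum.inl ((0 : Fin 2), false))))
    simp only [callBlk, callRad, sum_map, Function.Embedding.coeFn_mk] at h
    rw [mul_pow, Real.sq_sqrt (by positivity)] at h
    refine le_trans (le_of_eq ?_) (h.trans (le_of_eq (by simp; ring)))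
    refine sum_congr ?_ fun i _ => rfl
    ext i
    simp
  · have h := err_block H ht (Sum.inr (Sum.inr (Sum.inl ((1 : Fin 2), false))))
    simp only [callBlk, callRad, sum_map, Function.Embedding.coeFn_mk] at h
    rw [mul_pow, Real.sq_sqrt (by positivity)] at h
    refine le_trans (le_of_eq ?_) (h.trans (le_of_eq (by simp; ring)))
    refine sum_congr ?_ fun i _ => rfl
    ext i
    simp

private lemma endAt_eq (t : ℕ) (i : Fin d) :
    endAt v x part t i = x.a i + ∑ w ∈ x.W,
      ((t : ℝ) / (2 : ℝ) ^ halvings P lam v x + δ t w) * v w i + errAt P lam v x part δ t i := by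
  simp only [endAt, errAt, vsum]; ring

private lemma endAt_last (H : CallData P Cr Cc lam v x part δ) :
    endAt v x part (2 ^ halvings P lam v x) = x.b v := by
  funext i
  have e : x.W = (range (2 ^ halvings P lam v x)).biUnion part := by
    ext w; simp [H.cover w]
  simp only [endAt, Node.b, vsum]
  rw [e, sum_biUnion]
  intro a ha b hb hab
  refine disjoint_left.2 fun w hwa hwb => hab ?_
  exact H.disj a b w (mem_range.1 ha) (mem_range.1 hb) hwa hwb

private lemma blk_endAt {lo hi t : ℕ} (ht : t ≤ 2 ^ halvings P lam v x) :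
    blockSq (endAt v x part t) lo hi ≤ 3 * (blockSq x.a lo hi + blockSq (x.b v) lo hi +
      blockSq (fun i => ∑ w ∈ x.W, δ t w * v w i) lo hi +
      blockSq (errAt P lam v x part δ t) lo hi) := by
  set α : ℝ := (t : ℝ) / (2 : ℝ) ^ halvings P lam v x with hα
  have hα0 : 0 ≤ α := by positivity
  have hα1 : α ≤ 1 := by
    rw [hα, div_le_one (by positivity)]; exact_mod_cast ht
  simp only [blockSq, ← sum_add_distrib, mul_sum]
  refine sum_le_sum fun i _ => ?_
  have e : endAt v x part t i = ((1 - α) * x.a i + α * x.b v i) + (∑ w ∈ x.W, δ t w * v w i)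
      + errAt P lam v x part δ t i := by
    rw [endAt_eq (P := P) (lam := lam) (δ := δ)]
    simp only [Node.b, vsum, add_mul, sum_add_distrib, ← mul_sum, hα]
    ring
  rw [e]
  set a := x.a i
  set b := x.b v i
  set o := ∑ w ∈ x.W, δ t w * v w i
  set r := errAt P lam v x part δ t i
  have hc : ((1 - α) * a + α * b) ^ 2 ≤ a ^ 2 + b ^ 2 := by
    nlinarith [mul_nonneg (mul_nonneg hα0 (sub_nonneg.2 hα1)) (sq_nonneg (a - b)),
      mul_nonneg hα0 (sq_nonneg a), mul_nonneg (sub_nonneg.2 hα1) (sq_nonneg b)]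
  set p := (1 - α) * a + α * b
  nlinarith [sq_nonneg (p - o), sq_nonneg (p - r), sq_nonneg (o - r)]

private lemma offset_pend (H : CallData P Cr Cc lam v x part δ) (hx : Inv P lam v x) {t : ℕ}
    (ht : t ≤ 2 ^ halvings P lam v x) :
    blockSq (fun i => ∑ w ∈ x.W, δ t w * v w i) x.plo x.s ≤ 1 := by
  have hn : x.np ≤ halvings P lam v x :=
    le_trans (Nat.le_add_right _ _) (le_max_left _ _)
  calc blockSq (fun i => ∑ w ∈ x.W, δ t w * v w i) x.plo x.s
      ≤ (∑ w ∈ x.W, δ t w ^ 2) * ∑ w ∈ x.W, blockSq (v w) x.plo x.s := by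
        simp only [blockSq]
        rw [sum_comm, mul_sum]
        exact sum_le_sum fun i _ => sum_mul_sq_le_sq_mul_sq _ _ _
    _ ≤ (1 / (2 : ℝ) ^ halvings P lam v x) * (2 : ℝ) ^ x.np :=
        mul_le_mul (H.small t ht) hx.pend (sum_nonneg fun _ _ => blk_nonneg _ _ _) (by positivity)
    _ ≤ 1 := by
        rw [one_div_mul_eq_div, div_le_one (by positivity)]
        exact pow_le_pow_right₀ (by norm_num) hn

private lemma excess_fresh (hr : 0 ≤ Cr) (H : CallData P Cr Cc lam v x part δ) {t : ℕ} (ht0 : 0 < t)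
    (htM : t < 2 ^ halvings P lam v x) {F0 : ℝ} (hF : Cc ^ 2 * Cr ≤ F0) :
    excess F0 (x.s + retire P lam v x) (endAt v x part t) ≤
      Cc ^ 2 * Cr * slack (halvings P lam v x) := by
  have hpos : 0 ≤ Cc ^ 2 * Cr := by positivity
  rw [excess_congr F0 _ (z' := errAt P lam v x part δ t) fun i hi => by
    rw [endAt_eq (P := P) (lam := lam) (δ := δ), H.exact t ht0 htM i hi, zero_add]]
  refine sup'_le _ _ fun j hj => ?_
  rw [mem_Icc] at hj
  rcases hj.1.eq_or_lt with h | h
  · subst h
    simp only [blk_empty, sub_self, mul_zero]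
    positivity
  · have hjd : j ≤ d := by omega
    have := err_flag hr H htM.le h hjd
    have hcast : ((x.s + retire P lam v x : ℕ) : ℝ) ≤ j := by exact_mod_cast h.le
    nlinarith [mul_le_mul_of_nonneg_right hF (sub_nonneg.2 hcast)]

theorem endsLemma : EndsLemma := by
  intro Cr Cc hr hc
  have hr0 : (0 : ℝ) ≤ Cr := by linarith
  set C := Cc ^ 2 * Cr with hC
  have hC0 : 0 ≤ C := by positivity
  refine ⟨C, hC0, fun F0 hF => ⟨12 * (1 + C), by positivity, ?_⟩⟩
  intro P hP _ d N lam v _ x hx part δ H q hq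
  set n := halvings P lam v x with hn
  set k := retire P lam v x with hk
  have hn1 : 1 ≤ n := le_max_right _ _
  have hM : 2 ≤ 2 ^ n := le_trans (by norm_num) (Nat.pow_le_pow_right (by norm_num) hn1)
  have ea : (mkChild P lam v x part q).a = endAt v x part q := rfl
  have eb : (mkChild P lam v x part q).b v = endAt v x part (q + 1) := by
    funext i
    simp only [Node.b, mkChild, endAt, sum_range_succ]
    ring
  intro k' c
  simp only [k', c]
  rw [ea, eb, hP]
  refine ⟨?_, ?_, ?_⟩
  · have hsl : (0 : ℝ) ≤ slack n := Nat.cast_nonneg _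
    have hCs : C * slack n ≤ 6 * (1 + C) * slack n := mul_le_mul_of_nonneg_right (by linarith) hsl
    have hCs0 : 0 ≤ (1 + C) * (slack n : ℝ) := mul_nonneg (by linarith) hsl
    have h0a := excess_self F0 (x.s + k) x.a
    have h0b := excess_self F0 (x.s + k) (x.b v)
    have hma : excess F0 (x.s + k) x.a ≤
        max (excess F0 (x.s + k) x.a) (excess F0 (x.s + k) (x.b v)) := le_max_left _ _
    have hmb : excess F0 (x.s + k) (x.b v) ≤
        max (excess F0 (x.s + k) x.a) (excess F0 (x.s + k) (x.b v)) := le_max_right _ _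
    have hfresh : ∀ t, 0 < t → t < 2 ^ n →
        excess F0 (x.s + k) (endAt v x part t) ≤ C * slack n :=
      fun t h0 hlt => excess_fresh hr0 H h0 hlt hF
    have e0 : endAt v x part 0 = x.a := by funext i; simp [endAt]
    have eM : endAt v x part (2 ^ n) = x.b v := endAt_last H
    rcases Nat.eq_zero_or_pos q with h0 | h0
    · subst h0
      rw [e0, zero_add]
      have := hfresh 1 one_pos (by omega)
      linarith
    · have := hfresh q h0 hq
      rcases Nat.lt_or_ge (q + 1) (2 ^ n) with h1 | h1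
      · have := hfresh (q + 1) (by omega) h1
        linarith
      · rw [show q + 1 = 2 ^ n by omega, eM]
        linarith
  · rcases Nat.eq_zero_or_pos k with h0 | h0
    · simp [h0, blk_empty]
    rw [if_neg (by omega)]
    have hk1 : (1 : ℝ) ≤ k := by exact_mod_cast h0
    have hnR : (0 : ℝ) ≤ n := Nat.cast_nonneg _
    have key : ∀ t, t ≤ 2 ^ n → blockSq (endAt v x part t) x.s (x.s + k) ≤
        6 * (1 + C) * (k + blockSq x.a x.s (x.s + k) + blockSq (x.b v) x.s (x.s + k) + n) := by
      intro t ht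
      have h1 := blk_endAt (P := P) (lam := lam) (δ := δ) (part := part) (v := v) (x := x)
        (lo := x.s) (hi := x.s + k) ht
      have h2 := H.offset t ht
      have h3 := (err_group hr0 H ht).1
      have ha := blk_nonneg x.a x.s (x.s + k)
      have hb := blk_nonneg (x.b v) x.s (x.s + k)
      rw [← hk, ← hn] at *
      rw [← hC] at h3
      nlinarith [mul_nonneg hC0 (sub_nonneg.2 hk1), mul_nonneg hC0 hnR, mul_nonneg hC0 ha,
        mul_nonneg hC0 hb]
    have := key q hq.le
    have := key (q + 1) hq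
    linarith
  · rcases Nat.eq_zero_or_pos x.np with h0 | h0
    · simp [h0, hx.np_zero h0, blk_empty]
    rw [if_neg (by omega)]
    have hw : x.plo < x.s := (hx.np_two (by omega)).2
    have hcast : ((x.s - x.plo : ℕ) : ℝ) = (x.s : ℝ) - x.plo := Nat.cast_sub hw.le
    have hw1 : (1 : ℝ) ≤ (x.s : ℝ) - x.plo := by
      rw [← hcast]; exact_mod_cast (by omega : 1 ≤ x.s - x.plo)
    have hnR : (0 : ℝ) ≤ n := Nat.cast_nonneg _
    have key : ∀ t, t ≤ 2 ^ n → blockSq (endAt v x part t) x.plo x.s ≤
        6 * (1 + C) * (blockSq x.a x.plo x.s + blockSq (x.b v) x.plo x.s +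
          ((x.s : ℝ) - x.plo) + n) := by
      intro t ht
      have h1 := blk_endAt (P := P) (lam := lam) (δ := δ) (part := part) (v := v) (x := x)
        (lo := x.plo) (hi := x.s) ht
      have h2 := offset_pend H hx ht
      have h3 := (err_group hr0 H ht).2
      have ha := blk_nonneg x.a x.plo x.s
      have hb := blk_nonneg (x.b v) x.plo x.s
      rw [hcast, ← hn, ← hC] at h3
      nlinarith [mul_nonneg hC0 (sub_nonneg.2 hw1), mul_nonneg hC0 hnR, mul_nonneg hC0 ha,
        mul_nonneg hC0 hb]
    have := key q hq.le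
    have := key (q + 1) hq
    linarith

end Vale.Agent.P262.S2
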