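import Vale.Agent.P262.S2.Call

/-! T1-C: the children of a call satisfy the invariant. -/

namespace Vale.Agent.P262.S2

open Finset

namespace InvStep

variable {d N : ℕ}

lemma blockSq_nonneg (u : Fin d → ℝ) (lo hi : ℕ) : 0 ≤ blockSq u lo hi :=
  sum_nonneg fun _ _ => sq_nonneg _

lemma blockSq_le_total (u : Fin d → ℝ) (lo hi : ℕ) : blockSq u lo hi ≤ ∑ i, u i ^ 2 :=
  sum_le_sum_of_subset_of_nonneg (filter_subset _ _) fun _ _ _ => sq_nonneg _

lemma one_le_gbar (lam : Fin d → ℝ) (m : ℕ) (i : Fin d) : 1 ≤ gbar lam m i := le_max_right _ _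

/-- Scaling of `gbar`. -/
lemma gbar_le_scale (lam : Fin d → ℝ) (_hl : ∀ i, 0 ≤ lam i) (m n : ℕ) (i : Fin d) :
    gbar lam m i ≤ 2 ^ n * gbar lam (m + n) i := by
  have h1 : (1 : ℝ) ≤ 2 ^ n := one_le_pow₀ (by norm_num)
  refine max_le ?_ ?_
  · have : lam i / 2 ^ m = 2 ^ n * (lam i / 2 ^ (m + n)) := by
      rw [pow_add]; field_simp
    rw [this]
    exact mul_le_mul_of_nonneg_left (le_max_left _ _) (by linarith)
  · exact h1.trans (le_mul_of_one_le_right (by linarith) (one_le_gbar lam (m + n) i))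

lemma eighth_le_sqrt {x : ℝ} (hx : 1 ≤ x) : Real.sqrt (Real.sqrt (Real.sqrt x)) ≤ Real.sqrt x := by
  have key : ∀ y : ℝ, 1 ≤ y → Real.sqrt y ≤ y := fun y hy => by
    rw [Real.sqrt_le_left (by linarith)]; nlinarith
  have h1 : 1 ≤ Real.sqrt x := Real.one_le_sqrt.2 hx
  have h2 : 1 ≤ Real.sqrt (Real.sqrt x) := Real.one_le_sqrt.2 h1
  exact (key _ h2).trans (key _ h1)

lemma halvings_facts (P : Par) (lam : Fin d → ℝ) (v : Fin N → Fin d → ℝ) (x : Node d N) :
    1 ≤ halvings P lam v x ∧ x.np ≤ halvings P lam v x ∧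
      (retire P lam v x ≠ 0 →
        halvings P lam v x = x.np + extra (load P v x (retire P lam v x))) := by
  simp only [halvings]
  refine ⟨le_max_right _ _, (Nat.le_add_right _ _).trans (le_max_left _ _), fun h => ?_⟩
  rw [if_neg h, max_eq_left]
  simp only [extra]
  omega

lemma ready_retire {P : Par} {lam : Fin d → ℝ} {v : Fin N → Fin d → ℝ} {x : Node d N}
    (h : retire P lam v x ≠ 0) : Ready P lam v x (retire P lam v x) := by
  classical
  exact Nat.findGreatest_of_ne_zero rfl h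

lemma retire_le (P : Par) (lam : Fin d → ℝ) (v : Fin N → Fin d → ℝ) (x : Node d N) :
    retire P lam v x ≤ d - x.s := by
  classical
  exact Nat.findGreatest_le (P := Ready P lam v x) (d - x.s)

variable {P : Par} {Cr Cc : ℝ} {lam : Fin d → ℝ} {v : Fin N → Fin d → ℝ} {x : Node d N}
  {part : ℕ → Finset (Fin N)} {δ : ℕ → Fin N → ℝ}

/-- One scalar coordinate of the lifted vectors. -/
lemma coord (hp : CallData P Cr Cc lam v x part δ) (hCc : 0 ≤ Cc) {q : ℕ}
    (hq : q < 2 ^ halvings P lam v x) (nm : BlockName x (retire P lam v x))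
    (i : Idx d x.dead.length) (hb : callBlk x (retire P lam v x) nm = {i})
    (hr : 0 ≤ callRad Cr lam x (retire P lam v x) (halvings P lam v x) nm) :
    |∑ w ∈ part q, lift (v w) x (retire P lam v x) (halvings P lam v x) i -
        ∑ w ∈ x.W, (1 / (2 : ℝ) ^ halvings P lam v x + (δ (q + 1) w - δ q w)) *
          lift (v w) x (retire P lam v x) (halvings P lam v x) i| ≤
      2 * Cc * callRad Cr lam x (retire P lam v x) (halvings P lam v x) nm := by
  have h : ∀ r, r ≤ 2 ^ halvings P lam v x → |∑ q' ∈ range r, ∑ w ∈ part q', lift (v w) x (retire P lam v x) (halvings P lam v x) i -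
      ∑ w ∈ x.W, ((r : ℝ) / (2 : ℝ) ^ halvings P lam v x + δ r w) * lift (v w) x (retire P lam v x) (halvings P lam v x) i| ≤ Cc * callRad Cr lam x (retire P lam v x) (halvings P lam v x) nm := fun r hr' => by
    have := hp.err r hr' (Fintype.equivFin _ nm)
    simp only [callBody, Body.ofFintype, Equiv.symm_apply_apply] at this
    rw [hb, sum_singleton] at this
    exact abs_le.2 (abs_le_of_sq_le_sq' this (mul_nonneg hCc hr))
  have e : ∑ w ∈ part q, lift (v w) x (retire P lam v x) (halvings P lam v x) i -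
      ∑ w ∈ x.W, (1 / (2 : ℝ) ^ halvings P lam v x + (δ (q + 1) w - δ q w)) * lift (v w) x (retire P lam v x) (halvings P lam v x) i =
      (∑ q' ∈ range (q + 1), ∑ w ∈ part q', lift (v w) x (retire P lam v x) (halvings P lam v x) i -
        ∑ w ∈ x.W, (((q + 1 : ℕ) : ℝ) / (2 : ℝ) ^ halvings P lam v x + δ (q + 1) w) * lift (v w) x (retire P lam v x) (halvings P lam v x) i) -
      (∑ q' ∈ range q, ∑ w ∈ part q', lift (v w) x (retire P lam v x) (halvings P lam v x) i -
        ∑ w ∈ x.W, ((q : ℝ) / (2 : ℝ) ^ halvings P lam v x + δ q w) * lift (v w) x (retire P lam v x) (halvings P lam v x) i) := by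
    have e' : ∑ w ∈ x.W, (1 / (2 : ℝ) ^ halvings P lam v x + (δ (q + 1) w - δ q w)) * lift (v w) x (retire P lam v x) (halvings P lam v x) i =
        ∑ w ∈ x.W, (((q + 1 : ℕ) : ℝ) / (2 : ℝ) ^ halvings P lam v x + δ (q + 1) w) * lift (v w) x (retire P lam v x) (halvings P lam v x) i -
          ∑ w ∈ x.W, ((q : ℝ) / (2 : ℝ) ^ halvings P lam v x + δ q w) * lift (v w) x (retire P lam v x) (halvings P lam v x) i := by
      rw [← sum_sub_distrib]
      refine sum_congr rfl fun w _ => ?_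
      push_cast
      ring
    rw [sum_range_succ, e']
    ring
  rw [e, two_mul, add_mul]
  exact (abs_sub _ _).trans (add_le_add (h (q + 1) hq) (h q hq.le))

/-- The tilts cost little. -/
lemma tilt (hp : CallData P Cr Cc lam v x part δ) {q : ℕ} (hq : q < 2 ^ halvings P lam v x)
    (f : Fin N → ℝ) :
    |∑ w ∈ x.W, (δ (q + 1) w - δ q w) * f w| ≤
      2 * Real.sqrt ((∑ w ∈ x.W, f w ^ 2) / (2 : ℝ) ^ halvings P lam v x) := by
  set n := halvings P lam v x
  have h1 := sum_mul_sq_le_sq_mul_sq x.W (fun w => δ (q + 1) w - δ q w) f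
  have h2 : ∑ w ∈ x.W, (δ (q + 1) w - δ q w) ^ 2 ≤ 4 / (2 : ℝ) ^ n := by
    calc ∑ w ∈ x.W, (δ (q + 1) w - δ q w) ^ 2
        ≤ ∑ w ∈ x.W, (2 * δ (q + 1) w ^ 2 + 2 * δ q w ^ 2) := sum_le_sum fun w _ => by
          nlinarith [sq_nonneg (δ (q + 1) w + δ q w)]
      _ ≤ 4 / (2 : ℝ) ^ n := by
          rw [sum_add_distrib, ← mul_sum, ← mul_sum]
          have a := hp.small (q + 1) hq
          have b := hp.small q hq.le
          have : (4 : ℝ) / 2 ^ n = 2 * (1 / 2 ^ n) + 2 * (1 / 2 ^ n) := by ring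
          linarith
  have hS : 0 ≤ (∑ w ∈ x.W, f w ^ 2) / (2 : ℝ) ^ n :=
    div_nonneg (sum_nonneg fun _ _ => sq_nonneg _) (by positivity)
  refine abs_le.2 (abs_le_of_sq_le_sq' ?_ (by positivity))
  rw [mul_pow, Real.sq_sqrt hS]
  refine h1.trans ((mul_le_mul_of_nonneg_right h2 (sum_nonneg fun _ _ => sq_nonneg _)).trans
    (le_of_eq ?_))
  ring

/-- The sum of a coordinate over one part. -/
lemma part_le (hp : CallData P Cr Cc lam v x part δ) (hCc : 0 ≤ Cc) {q : ℕ}
    (hq : q < 2 ^ halvings P lam v x) (nm : BlockName x (retire P lam v x))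
    (i : Idx d x.dead.length) (hb : callBlk x (retire P lam v x) nm = {i})
    (hr : 0 ≤ callRad Cr lam x (retire P lam v x) (halvings P lam v x) nm) (f : Fin N → ℝ)
    (hf : ∀ w, lift (v w) x (retire P lam v x) (halvings P lam v x) i = f w) :
    |∑ w ∈ part q, f w - (∑ w ∈ x.W, f w) / (2 : ℝ) ^ halvings P lam v x| ≤
      2 * Real.sqrt ((∑ w ∈ x.W, f w ^ 2) / (2 : ℝ) ^ halvings P lam v x) +
        2 * Cc * callRad Cr lam x (retire P lam v x) (halvings P lam v x) nm := by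
  have h1 := coord hp hCc hq nm i hb hr
  simp only [hf] at h1
  have h2 := tilt hp hq f
  have e : ∑ w ∈ x.W, (1 / (2 : ℝ) ^ halvings P lam v x + (δ (q + 1) w - δ q w)) * f w =
      (∑ w ∈ x.W, f w) / (2 : ℝ) ^ halvings P lam v x +
        ∑ w ∈ x.W, (δ (q + 1) w - δ q w) * f w := by
    simp only [add_mul, sum_add_distrib, one_div, ← mul_sum]
    ring
  rw [e] at h1
  rw [abs_le] at h1 h2 ⊢
  constructor <;> linarith

/-- Diagonal bound from the invariant. -/
lemma gram_diag_le (hx : Inv P lam v x) (hC0 : 0 ≤ P.C0) (i : Fin d) (hi : x.s ≤ i.val) :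
    gram v x.W i i ≤ gbar lam x.m i + 2 * P.C0 * Real.sqrt (gbar lam x.m i) := by
  have h := (abs_le.1 (hx.bal i i hi le_rfl)).2
  rw [if_pos rfl] at h
  have h1 : lam i / 2 ^ x.m ≤ gbar lam x.m i := le_max_left _ _
  have h2 := mul_le_mul_of_nonneg_left (eighth_le_sqrt (one_le_gbar lam x.m i)) hC0
  linarith

/-- The balance is inherited. -/
lemma bal_step (H : Hyp lam v) (hx : Inv P lam v x) (hp : CallData P Cr Cc lam v x part δ)
    (hCr : 1 ≤ Cr) (hCc : 1 ≤ Cc) (hC0 : 1 ≤ P.C0)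
    (hbig : 2 * Cc * Cr + 2 * Real.sqrt (1 + 2 * P.C0) ≤ P.C0 / 4) {q : ℕ}
    (hq : q < 2 ^ halvings P lam v x) (l m : Fin d) (hl : x.s + retire P lam v x ≤ l.val)
    (hlm : l ≤ m) :
    |gram v (part q) l m - if l = m then lam l / 2 ^ (x.m + halvings P lam v x) else 0| ≤
      P.C0 * (Real.sqrt (Real.sqrt (Real.sqrt (gbar lam (x.m + halvings P lam v x) m))) +
        Real.sqrt (gbar lam (x.m + halvings P lam v x) l)) := by
  set k := retire P lam v x
  set n := halvings P lam v x with hn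
  set M : ℝ := (2 : ℝ) ^ n with hM
  have hn1 : 1 ≤ n := (halvings_facts P lam v x).1
  have hM2 : 2 ≤ M := by
    calc (2 : ℝ) = 2 ^ 1 := by norm_num
      _ ≤ M := pow_le_pow_right₀ (by norm_num) hn1
  have hlm' : l.val ≤ m.val := hlm
  have hls : x.s ≤ l.val := by omega
  set E := Real.sqrt (Real.sqrt (Real.sqrt (gbar lam (x.m + n) m)))
  set S := Real.sqrt (gbar lam (x.m + n) l)
  have hS1 : 1 ≤ S := Real.one_le_sqrt.2 (one_le_gbar _ _ _)
  have hE0 : 0 ≤ E := Real.sqrt_nonneg _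
  have hgl : gbar lam x.m l ≤ M * gbar lam (x.m + n) l := gbar_le_scale lam H.nonneg x.m n l
  have hgm : gbar lam x.m m ≤ M * gbar lam (x.m + n) m := gbar_le_scale lam H.nonneg x.m n m
  let nm : BlockName x k := .inr (.inl ⟨(l, m), hls, hlm, by show x.s + k ≤ m.val; omega⟩)
  have hrad : callRad Cr lam x k n nm = Cr * E := rfl
  have h1 := part_le hp (by linarith) hq nm (.inr (.inl (l, m))) rfl
    (by rw [hrad]; positivity) (fun w => v w l * v w m)
    (fun w => if_pos ⟨hls, show x.s ≤ m.val by omega⟩)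
  rw [hrad] at h1
  change |gram v (part q) l m - gram v x.W l m / M| ≤ _ at h1
  have hsum : (∑ w ∈ x.W, (v w l * v w m) ^ 2) / M ≤ (1 + 2 * P.C0) * S ^ 2 := by
    have hv : ∀ w, v w m ^ 2 ≤ 1 := fun w =>
      (single_le_sum (f := fun i => v w i ^ 2) (fun i _ => sq_nonneg _) (mem_univ m)).trans
        (H.norm w)
    have h2 : ∑ w ∈ x.W, (v w l * v w m) ^ 2 ≤ gram v x.W l l := sum_le_sum fun w _ => by
      rw [mul_pow, ← sq]
      exact mul_le_of_le_one_right (sq_nonneg _) (hv w)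
    have h3 := h2.trans (gram_diag_le hx (by linarith) l hls)
    have h4 : Real.sqrt (gbar lam x.m l) ≤ gbar lam x.m l := by
      rw [Real.sqrt_le_left (by linarith [one_le_gbar lam x.m l])]
      nlinarith [one_le_gbar lam x.m l]
    rw [Real.sq_sqrt (by linarith [one_le_gbar lam (x.m + n) l]), div_le_iff₀ (by positivity)]
    calc ∑ w ∈ x.W, (v w l * v w m) ^ 2 ≤ gbar lam x.m l + 2 * P.C0 * gbar lam x.m l := by
          have := mul_le_mul_of_nonneg_left h4 (show 0 ≤ 2 * P.C0 by linarith)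
          linarith
      _ = (1 + 2 * P.C0) * gbar lam x.m l := by ring
      _ ≤ (1 + 2 * P.C0) * (M * gbar lam (x.m + n) l) := by gcongr
      _ = (1 + 2 * P.C0) * gbar lam (x.m + n) l * M := by ring
  have htilt : 2 * Real.sqrt ((∑ w ∈ x.W, (v w l * v w m) ^ 2) / M) ≤
      2 * Real.sqrt (1 + 2 * P.C0) * S := by
    rw [mul_assoc]
    refine mul_le_mul_of_nonneg_left ((Real.sqrt_le_sqrt hsum).trans (le_of_eq ?_)) zero_le_two
    rw [Real.sqrt_mul (by linarith), Real.sqrt_sq (by linarith)]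
  have hpar : |gram v x.W l m / M - if l = m then lam l / 2 ^ (x.m + n) else 0| ≤
      3 / 4 * P.C0 * (E + S) := by
    have e : gram v x.W l m / M - (if l = m then lam l / 2 ^ (x.m + n) else 0) =
        (gram v x.W l m - if l = m then lam l / 2 ^ x.m else 0) / M := by
      rw [pow_add, hM, sub_div]
      split_ifs
      · rw [div_div]
      · simp
    rw [e, abs_div, abs_of_pos (show 0 < M by linarith), div_le_iff₀ (by linarith)]
    refine (hx.bal l m hls hlm).trans ?_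
    have hs : 4 / 3 * Real.sqrt M ≤ M := by
      have : 4 / 3 ≤ Real.sqrt M := Real.le_sqrt_of_sq_le (by linarith)
      nlinarith [Real.mul_self_sqrt (show 0 ≤ M by linarith), Real.sqrt_nonneg M]
    have a1 : Real.sqrt (gbar lam x.m l) ≤ Real.sqrt M * S := by
      rw [← Real.sqrt_mul (by linarith)]; exact Real.sqrt_le_sqrt hgl
    have a2 : Real.sqrt (Real.sqrt (Real.sqrt (gbar lam x.m m))) ≤ Real.sqrt M * E := by
      refine (Real.sqrt_le_sqrt (Real.sqrt_le_sqrt (Real.sqrt_le_sqrt hgm))).trans ?_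
      rw [Real.sqrt_mul (by linarith), Real.sqrt_mul (Real.sqrt_nonneg _),
        Real.sqrt_mul (Real.sqrt_nonneg _)]
      exact mul_le_mul_of_nonneg_right (eighth_le_sqrt (by linarith)) hE0
    calc P.C0 * (Real.sqrt (Real.sqrt (Real.sqrt (gbar lam x.m m))) + Real.sqrt (gbar lam x.m l))
        ≤ P.C0 * (Real.sqrt M * E + Real.sqrt M * S) := by gcongr
      _ = P.C0 * (E + S) * Real.sqrt M := by ring
      _ ≤ P.C0 * (E + S) * (3 / 4 * M) := by
          refine mul_le_mul_of_nonneg_left (by linarith) (by positivity)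
      _ = 3 / 4 * P.C0 * (E + S) * M := by ring
  have hCCr : 0 ≤ 2 * Cc * Cr := by positivity
  have hsq : 0 ≤ 2 * Real.sqrt (1 + 2 * P.C0) := by positivity
  calc _ ≤ _ := abs_sub_le _ (gram v x.W l m / M) _
    _ ≤ (2 * Real.sqrt (1 + 2 * P.C0) * S + 2 * Cc * (Cr * E)) + 3 / 4 * P.C0 * (E + S) :=
        add_le_add (h1.trans (by linarith)) hpar
    _ ≤ P.C0 * (E + S) := by
        nlinarith [mul_le_mul_of_nonneg_right hbig (add_nonneg hE0 (zero_le_one.trans hS1)),
          mul_nonneg hCCr (zero_le_one.trans hS1), mul_nonneg hsq hE0]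

/-- One of the two energies of the groups that are not yet retired. -/
lemma group_energy (H : Hyp lam v) (hp : CallData P Cr Cc lam v x part δ) (hCr : 1 ≤ Cr)
    (hCc : 1 ≤ Cc) {q : ℕ} (hq : q < 2 ^ halvings P lam v x) (t : Fin 2) :
    ∑ w ∈ part q, (if t = 0 then blockSq (v w) x.s (x.s + retire P lam v x)
        else blockSq (v w) x.plo x.s) ≤
      2 * (∑ w ∈ x.W, (if t = 0 then blockSq (v w) x.s (x.s + retire P lam v x)
        else blockSq (v w) x.plo x.s)) / (2 : ℝ) ^ halvings P lam v x + 1 +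
      2 * Cc * Cr * (1 + Real.sqrt (halvings P lam v x)) := by
  set k := retire P lam v x
  set n := halvings P lam v x
  set f : Fin N → ℝ := fun w =>
    if t = 0 then blockSq (v w) x.s (x.s + k) else blockSq (v w) x.plo x.s with hf
  have h01 : ∀ w, 0 ≤ f w ∧ f w ≤ 1 := fun w => by
    simp only [f]
    split_ifs <;> exact ⟨blockSq_nonneg _ _ _, (blockSq_le_total _ _ _).trans (H.norm w)⟩
  have h1 := (abs_le.1 (part_le hp (by linarith) hq (.inr (.inr (.inl (t, true))))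
    (.inr (.inr (.inl t))) rfl (Real.sqrt_nonneg _) f fun w => rfl)).2
  have hsum : ∑ w ∈ x.W, f w ^ 2 ≤ ∑ w ∈ x.W, f w :=
    sum_le_sum fun w _ => by nlinarith [h01 w]
  set X := (∑ w ∈ x.W, f w) / (2 : ℝ) ^ n with hX
  have hX0 : 0 ≤ X := div_nonneg (sum_nonneg fun w _ => (h01 w).1) (by positivity)
  have hs : Real.sqrt ((∑ w ∈ x.W, f w ^ 2) / (2 : ℝ) ^ n) ≤ (X + 1) / 2 := by
    refine (Real.sqrt_le_sqrt (div_le_div_of_nonneg_right hsum (by positivity))).trans ?_
    rw [Real.sqrt_le_left (by linarith)]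
    nlinarith [sq_nonneg (X - 1)]
  have hr : Real.sqrt (Cr * (1 + (n : ℝ))) ≤ Cr * (1 + Real.sqrt n) := by
    rw [Real.sqrt_le_left (by positivity)]
    have hq' := Real.mul_self_sqrt (Nat.cast_nonneg (α := ℝ) n)
    have h0 : 0 ≤ Cr * (2 * Real.sqrt n) := by positivity
    calc Cr * (1 + (n : ℝ)) ≤ Cr * (1 + Real.sqrt n) ^ 2 := by nlinarith
      _ ≤ (Cr * (1 + Real.sqrt n)) ^ 2 := by
          rw [mul_pow]; exact mul_le_mul_of_nonneg_right (by nlinarith) (sq_nonneg _)
  have hcc := mul_le_mul_of_nonneg_left hr (show 0 ≤ 2 * Cc by linarith)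
  show ∑ w ∈ part q, f w ≤ 2 * (∑ w ∈ x.W, f w) / 2 ^ n + 1 + _
  rw [mul_div_assoc, ← hX]
  have h2 : (∑ w ∈ part q, f w) - X ≤ 2 * Real.sqrt ((∑ w ∈ x.W, f w ^ 2) / (2 : ℝ) ^ n) +
      2 * Cc * Real.sqrt (Cr * (1 + (n : ℝ))) := h1
  linarith

lemma le_pow_clog (K : ℕ) : K ≤ 2 ^ Nat.clog 2 K := Nat.le_pow_clog one_lt_two K

lemma clog_le (K : ℕ) : Nat.clog 2 K ≤ K := Nat.clog_le_of_le_pow (Nat.lt_two_pow_self).le

/-- The new pending block. -/
lemma pend_step (H : Hyp lam v) (hx : Inv P lam v x) (hp : CallData P Cr Cc lam v x part δ)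
    (hCr : 1 ≤ Cr) (hCc : 1 ≤ Cc) (hC0 : 1 ≤ P.C0) (hbase : 1 ≤ P.base)
    (hcE : 4 * (1 + 2 * P.C0) + 1 + 12 * Cc * Cr ≤ (2 : ℝ) ^ P.cE) {q : ℕ}
    (hq : q < 2 ^ halvings P lam v x) :
    ∑ w ∈ part q, blockSq (v w) x.s (x.s + retire P lam v x) ≤
      (2 : ℝ) ^ newPend P lam v x := by
  rcases eq_or_ne (retire P lam v x) 0 with h0 | h0
  · refine le_trans (le_of_eq (sum_eq_zero fun w _ => ?_)) (zero_le_one.trans
      (one_le_pow₀ one_le_two))
    rw [h0, add_zero]
    exact sum_eq_zero fun i hi => absurd (mem_filter.1 hi).2 (by omega)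
  have hg := group_energy H hp hCr hCc hq 0
  simp only [if_true] at hg
  obtain ⟨hn1, -, hn⟩ := halvings_facts P lam v x
  specialize hn h0
  obtain ⟨hk1, htop, hready⟩ := ready_retire h0
  set k := retire P lam v x with hk
  set K := load P v x k with hK
  set n := halvings P lam v x
  have hKk : k ≤ K := by
    have : (k : ℝ) ≤ (k : ℝ) + blockSq x.a x.s (x.s + k) + blockSq (x.b v) x.s (x.s + k) := by
      linarith [blockSq_nonneg x.a x.s (x.s + k), blockSq_nonneg (x.b v) x.s (x.s + k)]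
    have h' := (Nat.le_ceil ((k : ℝ) + blockSq x.a x.s (x.s + k) +
      blockSq (x.b v) x.s (x.s + k))).trans' this
    have : k ≤ ⌈(k : ℝ) + blockSq x.a x.s (x.s + k) + blockSq (x.b v) x.s (x.s + k)⌉₊ := by
      exact_mod_cast h'
    simp only [hK, load]
    omega
  have hK1 : (1 : ℝ) ≤ K := by exact_mod_cast (show 1 ≤ K by omega)
  have hnK : (n : ℝ) ≤ 5 * K := by
    have h1 := clog_le K
    have h2 : x.np ≤ K := by simp only [hK, load]; omega
    have : n ≤ 5 * K := by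
      rw [hn, extra]; omega
    exact_mod_cast this
  set T : ℝ := 2 ^ n * 2 * (K : ℝ) ^ 8 with hT
  have hready' : lam ⟨x.s + k - 1, htop⟩ / 2 ^ x.m < T := by
    calc _ < _ := hready
      _ = T := by rw [hT, hn, pow_succ]
  have hK9 : (1 : ℝ) ≤ (K : ℝ) ^ 8 := one_le_pow₀ hK1
  have hT1 : 1 ≤ T := by
    have : (1 : ℝ) ≤ 2 ^ n := one_le_pow₀ one_le_two
    rw [hT]; nlinarith
  have hterm : ∀ i : Fin d, x.s ≤ i.val → i.val < x.s + k →
      gram v x.W i i ≤ (1 + 2 * P.C0) * T := by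
    intro i hi hi'
    have h1 : gbar lam x.m i ≤ T := by
      refine max_le ((div_le_div_of_nonneg_right (H.mono ?_) (by positivity)).trans hready'.le) hT1
      show i.val ≤ x.s + k - 1
      omega
    have h2 := gram_diag_le hx (by linarith) i hi
    have h3 : Real.sqrt (gbar lam x.m i) ≤ T := by
      rw [Real.sqrt_le_left (by linarith)]; nlinarith
    nlinarith [mul_le_mul_of_nonneg_left h3 (show 0 ≤ 2 * P.C0 by linarith)]
  have hE : ∑ w ∈ x.W, blockSq (v w) x.s (x.s + k) ≤ (k : ℝ) * ((1 + 2 * P.C0) * T) := by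
    simp only [blockSq]
    rw [sum_comm]
    have hcard : (univ.filter fun i : Fin d => x.s ≤ i.val ∧ i.val < x.s + k).card ≤ k := by
      rw [← card_map Fin.valEmbedding]
      refine (card_le_card fun z hz => ?_).trans (le_of_eq (by simp :
        (Ico x.s (x.s + k)).card = k))
      obtain ⟨i, hi, rfl⟩ := mem_map.1 hz
      simpa using hi
    have hnn : 0 ≤ (1 + 2 * P.C0) * T := by positivity
    calc _ ≤ ∑ i ∈ univ.filter (fun i : Fin d => x.s ≤ i.val ∧ i.val < x.s + k),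
          (1 + 2 * P.C0) * T := sum_le_sum fun i hi => by
            obtain ⟨h1, h2⟩ := (mem_filter.1 hi).2
            refine le_trans (le_of_eq ?_) (hterm i h1 h2)
            exact sum_congr rfl fun w _ => sq _
      _ ≤ _ := by
          rw [sum_const, nsmul_eq_mul]
          exact mul_le_mul_of_nonneg_right (by exact_mod_cast hcard) hnn
  have hE' : 2 * (∑ w ∈ x.W, blockSq (v w) x.s (x.s + k)) / (2 : ℝ) ^ n ≤
      4 * (1 + 2 * P.C0) * (K : ℝ) ^ 9 := by
    rw [div_le_iff₀ (by positivity)]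
    calc _ ≤ 2 * ((k : ℝ) * ((1 + 2 * P.C0) * T)) := by linarith
      _ ≤ 2 * ((K : ℝ) * ((1 + 2 * P.C0) * T)) := by gcongr
      _ = _ := by rw [hT]; ring
  have hs : 1 + Real.sqrt n ≤ 6 * (K : ℝ) ^ 9 := by
    have h1 : Real.sqrt n ≤ 5 * K := by
      rw [Real.sqrt_le_left (by positivity)]; nlinarith
    have : (K : ℝ) ≤ (K : ℝ) ^ 9 := le_self_pow₀ hK1 (by norm_num)
    linarith
  have hpow : (K : ℝ) ^ 9 * (2 : ℝ) ^ P.cE ≤ (2 : ℝ) ^ newPend P lam v x := by
    simp only [newPend, ← hk, if_neg h0, ← hK, pow_add]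
    refine mul_le_mul_of_nonneg_right ?_ (by positivity)
    rw [mul_comm 10, pow_mul]
    calc (K : ℝ) ^ 9 ≤ (K : ℝ) ^ 10 := pow_le_pow_right₀ hK1 (by norm_num)
      _ ≤ ((2 : ℝ) ^ Nat.clog 2 K) ^ 10 := by
          gcongr; exact_mod_cast le_pow_clog K
  have h9 : (1 : ℝ) ≤ (K : ℝ) ^ 9 := one_le_pow₀ hK1
  refine le_trans ?_ hpow
  calc _ ≤ _ := hg
    _ ≤ 4 * (1 + 2 * P.C0) * (K : ℝ) ^ 9 + (K : ℝ) ^ 9 + 2 * Cc * Cr * (6 * (K : ℝ) ^ 9) := by
        gcongr
    _ = (K : ℝ) ^ 9 * (4 * (1 + 2 * P.C0) + 1 + 12 * Cc * Cr) := by ring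
    _ ≤ _ := mul_le_mul_of_nonneg_left hcE (by positivity)

lemma sq_le_geom : ∀ J : ℕ, (1 + (J : ℝ)) ^ 2 ≤ 200 * (6 / 5 : ℝ) ^ J
  | 0 => by norm_num
  | J + 1 => by
    have ih := sq_le_geom J
    rcases le_or_gt J 9 with h | h
    · have : (J : ℝ) ≤ 9 := by exact_mod_cast h
      have : (1 : ℝ) ≤ (6 / 5 : ℝ) ^ (J + 1) := one_le_pow₀ (by norm_num)
      push_cast
      nlinarith [Nat.cast_nonneg (α := ℝ) J]
    · have : (10 : ℝ) ≤ J := by exact_mod_cast h
      rw [pow_succ (6 / 5 : ℝ)]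
      push_cast
      nlinarith

lemma mul_pow_le : ∀ n : ℕ, 1 ≤ n → (11 / 10 : ℝ) * (1 / 2) ^ n ≤ 11 / 12 * (3 / 5) ^ n := by
  intro n hn
  induction n, hn using Nat.le_induction with
  | base => norm_num
  | succ n hn ih =>
    rw [pow_succ, pow_succ]
    have : (0 : ℝ) ≤ (3 / 5 : ℝ) ^ n := by positivity
    nlinarith

/-- An old retired block. -/
lemma dead_step (hx : Inv P lam v x) (hp : CallData P Cr Cc lam v x part δ) (hCr : 1 ≤ Cr)
    (hCc : 1 ≤ Cc) (hcA : 2400 * (10 + 2 * Cc * Cr) ≤ P.cA) {q : ℕ}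
    (hq : q < 2 ^ halvings P lam v x) (g : Fin x.dead.length) :
    ∑ w ∈ act v ⟨(x.dead.get g).lo, (x.dead.get g).hi, (x.dead.get g).age + halvings P lam v x,
        (x.dead.get g).n0⟩ (part q), blockSq (v w) (x.dead.get g).lo (x.dead.get g).hi ≤
      P.cA * (1 + Real.sqrt (x.dead.get g).n0) *
        (3 / 5 : ℝ) ^ ((x.dead.get g).age + halvings P lam v x) := by
  classical
  obtain ⟨hn1, -, -⟩ := halvings_facts P lam v x
  set n := halvings P lam v x
  set G := x.dead.get g with hG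
  set J := G.age + n with hJ
  set e : Fin N → ℝ := fun w =>
    if smallAt (v w) G J then blockSq (v w) G.lo G.hi else 0 with he
  set c : ℝ := 1 / (1 + (G.age : ℝ)) * (2 : ℝ) ^ J with hc
  have hc0 : 0 < c := by positivity
  set R := Real.sqrt (Cr * (((if (2 : Fin 3) = 0 then ((G.hi - G.lo : ℕ) : ℝ) else 0)) + 1 + G.age +
    slack n))
  let nm : BlockName x (retire P lam v x) := .inr (.inr (.inr (g, 2)))
  have hlift : ∀ w, lift (v w) x (retire P lam v x) n (.inr (.inr (.inr (g, .inr 1)))) = c * e w := by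
    intro w
    show 1 / (1 + (G.age : ℝ)) * (if (1 : Fin 2) = 0 then _ else
      if smallAt (v w) G (G.age + n) then (2 : ℝ) ^ (G.age + n) * blockSq (v w) G.lo G.hi else 0) = _
    rw [if_neg (by decide : (1 : Fin 2) ≠ 0), he, hc]
    by_cases hs : smallAt (v w) G J
    · rw [if_pos hs]
      simp only [if_pos hs]
      ring
    · rw [if_neg hs]
      simp only [if_neg hs, mul_zero]
  have h1 := (abs_le.1 (part_le hp (by linarith) hq nm _ (by rfl) (Real.sqrt_nonneg _)
    (fun w => c * e w) hlift)).2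
  have h2 : c * ∑ w ∈ part q, e w ≤ c * ((∑ w ∈ x.W, e w) / (2 : ℝ) ^ n) +
      2 * Real.sqrt ((∑ w ∈ x.W, (c * e w) ^ 2) / (2 : ℝ) ^ n) + 2 * Cc * R := by
    have h1' : (∑ w ∈ part q, c * e w) - (∑ w ∈ x.W, c * e w) / (2 : ℝ) ^ n ≤
        2 * Real.sqrt ((∑ w ∈ x.W, (c * e w) ^ 2) / (2 : ℝ) ^ n) + 2 * Cc * R := h1
    simp only [← mul_sum, mul_div_assoc] at h1'
    linarith
  have he0 : ∀ w, 0 ≤ e w ∧ e w ≤ (1 / 2 : ℝ) ^ J := fun w => by
    simp only [e]
    split_ifs with hs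
    · exact ⟨blockSq_nonneg _ _ _, hs⟩
    · exact ⟨le_rfl, by positivity⟩
  set X := (∑ w ∈ x.W, e w) / (2 : ℝ) ^ n with hX
  have hX0 : 0 ≤ X := div_nonneg (sum_nonneg fun w _ => (he0 w).1) (by positivity)
  have hsq : Real.sqrt ((∑ w ∈ x.W, (c * e w) ^ 2) / (2 : ℝ) ^ n) ≤
      c * (X / 20 + 5 * (1 / 2) ^ J) := by
    rw [Real.sqrt_le_left (by positivity)]
    have : ∑ w ∈ x.W, (c * e w) ^ 2 ≤ c ^ 2 * (1 / 2 : ℝ) ^ J * ∑ w ∈ x.W, e w := by
      rw [mul_sum]
      refine sum_le_sum fun w _ => ?_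
      rw [mul_pow, mul_assoc, sq (e w)]
      exact mul_le_mul_of_nonneg_left (mul_le_mul_of_nonneg_right (he0 w).2 (he0 w).1) (sq_nonneg c)
    refine (div_le_div_of_nonneg_right this (by positivity)).trans ?_
    rw [mul_div_assoc, ← hX, mul_pow c, mul_assoc]
    refine mul_le_mul_of_nonneg_left ?_ (sq_nonneg c)
    nlinarith [sq_nonneg (X / 20 - 5 * (1 / 2) ^ J)]
  have hR : R ≤ Cr * (1 + (J : ℝ)) := by
    have hsl : (slack n : ℝ) ≤ n := by
      have : slack n ≤ n := by simp only [slack]; split_ifs <;> omega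
      exact_mod_cast this
    have hJ' : (J : ℝ) = G.age + n := by push_cast [hJ]; ring
    rw [Real.sqrt_le_left (by positivity)]
    rw [if_neg (by decide : (2 : Fin 3) ≠ 0), mul_pow]
    refine mul_le_mul (by nlinarith) ?_ (by positivity) (sq_nonneg _)
    nlinarith [Nat.cast_nonneg (α := ℝ) G.age, Nat.cast_nonneg (α := ℝ) n]
  have hdiv : (1 + (G.age : ℝ)) * (1 / 2 : ℝ) ^ J * c = 1 := by
    rw [hc, one_div_pow]
    field_simp
  have h3 : ∑ w ∈ part q, e w ≤ 11 / 10 * X + (10 + 2 * Cc * Cr) * ((1 + (J : ℝ)) ^ 2 * (1 / 2) ^ J) := by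
    refine le_of_mul_le_mul_left (h2.trans ?_) hc0
    have hage : 1 + (G.age : ℝ) ≤ 1 + J := by
      have : (G.age : ℝ) ≤ J := by exact_mod_cast (show G.age ≤ J by omega)
      linarith
    have h4 : 2 * Cc * R ≤ c * (2 * Cc * Cr * ((1 + (J : ℝ)) ^ 2 * (1 / 2) ^ J)) := by
      have h5 : 2 * Cc * R ≤ 2 * Cc * (Cr * (1 + (J : ℝ))) * ((1 + (G.age : ℝ)) * (1 / 2 : ℝ) ^ J * c) := by
        rw [hdiv, mul_one]; exact mul_le_mul_of_nonneg_left hR (by linarith)
      refine h5.trans ?_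
      have : 0 ≤ 2 * Cc * Cr * (1 + (J : ℝ)) * (1 / 2 : ℝ) ^ J * c := by positivity
      nlinarith [mul_le_mul_of_nonneg_left hage this]
    have h6 : (1 : ℝ) ≤ (1 + (J : ℝ)) ^ 2 := one_le_pow₀ (by linarith [Nat.cast_nonneg (α := ℝ) J])
    nlinarith [mul_le_mul_of_nonneg_left h6 (show 0 ≤ c * (10 * (1 / 2 : ℝ) ^ J) by positivity)]
  set A := P.cA * (1 + Real.sqrt G.n0) with hA
  have hA1 : 2400 * (10 + 2 * Cc * Cr) ≤ A := by
    refine hcA.trans (le_mul_of_one_le_right ?_ (by linarith [Real.sqrt_nonneg (G.n0 : ℝ)]))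
    have : 0 ≤ Cc * Cr := by positivity
    nlinarith
  have hEW : ∑ w ∈ x.W, e w ≤ A * (3 / 5 : ℝ) ^ G.age := by
    refine le_trans ?_ (hx.energy G (List.get_mem _ _))
    rw [act, sum_filter]
    refine sum_le_sum fun w _ => ?_
    simp only [e]
    by_cases hs : smallAt (v w) G J
    · rw [if_pos hs, if_pos (hs.trans (pow_le_pow_of_le_one (by norm_num) (by norm_num) (by omega)))]
    · rw [if_neg hs]
      split_ifs
      · exact blockSq_nonneg _ _ _
      · exact le_rfl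
  have hlhs : ∑ w ∈ act v ⟨G.lo, G.hi, J, G.n0⟩ (part q), blockSq (v w) G.lo G.hi =
      ∑ w ∈ part q, e w := by rw [act, sum_filter]
  rw [hlhs]
  have hX' : 11 / 10 * X ≤ 11 / 12 * (A * (3 / 5 : ℝ) ^ J) := by
    have hAn : 0 ≤ A * (3 / 5 : ℝ) ^ G.age := le_trans (sum_nonneg fun w _ => (he0 w).1) hEW
    calc 11 / 10 * X ≤ 11 / 10 * (A * (3 / 5 : ℝ) ^ G.age / 2 ^ n) := by rw [hX]; gcongr
      _ = A * (3 / 5 : ℝ) ^ G.age * (11 / 10 * (1 / 2) ^ n) := by rw [one_div_pow]; ring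
      _ ≤ A * (3 / 5 : ℝ) ^ G.age * (11 / 12 * (3 / 5) ^ n) :=
          mul_le_mul_of_nonneg_left (mul_pow_le n hn1) hAn
      _ = _ := by rw [hJ, pow_add]; ring
  have h7 : (1 + (J : ℝ)) ^ 2 * (1 / 2) ^ J ≤ 200 * (3 / 5 : ℝ) ^ J := by
    calc _ ≤ 200 * (6 / 5 : ℝ) ^ J * (1 / 2) ^ J :=
          mul_le_mul_of_nonneg_right (sq_le_geom J) (by positivity)
      _ = _ := by rw [mul_assoc, ← mul_pow]; norm_num
  have h8 := mul_le_mul_of_nonneg_left h7 (show 0 ≤ 10 + 2 * Cc * Cr by positivity)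
  have h9 := mul_le_mul_of_nonneg_right hA1 (show (0 : ℝ) ≤ (3 / 5 : ℝ) ^ J by positivity)
  linarith

end InvStep

open InvStep in
/-- T1-C. -/
theorem invLemma : InvLemma := by
  intro Cr Cc hCr hCc
  refine ⟨16 * (Cc * Cr) + 1024, by nlinarith [mul_le_mul hCc hCr zero_le_one (by linarith)],
    fun C0 hC0 => ?_⟩
  obtain ⟨e, he⟩ := pow_unbounded_of_one_lt (4 * (1 + 2 * C0) + 1 + 12 * Cc * Cr)
    (show (1 : ℝ) < 2 by norm_num)
  refine ⟨1, e + 2, 2400 * (10 + 2 * Cc * Cr), by positivity, fun P hP hbase hcE hcA d N lam v H x hx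
    part δ hp q hq => ?_⟩
  have hCC : 1 ≤ Cc * Cr := one_le_mul_of_one_le_of_one_le hCc hCr
  have hC1 : 1 ≤ P.C0 := by rw [hP]; linarith
  have hbig : 2 * Cc * Cr + 2 * Real.sqrt (1 + 2 * P.C0) ≤ P.C0 / 4 := by
    rw [hP]
    have : Real.sqrt (1 + 2 * C0) ≤ C0 / 16 := by
      rw [Real.sqrt_le_left (by linarith)]
      nlinarith
    linarith
  have hE : 4 * (1 + 2 * P.C0) + 1 + 12 * Cc * Cr ≤ (2 : ℝ) ^ P.cE := by
    rw [hP]
    exact he.le.trans (pow_le_pow_right₀ one_le_two (by omega))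
  obtain ⟨hn1, hnp, -⟩ := halvings_facts P lam v x
  have hk := retire_le P lam v x
  refine ⟨?_, ?_, ?_, ?_, fun l m hl hlm => bal_step H hx hp hCr hCc hC1 hbig hq l m hl hlm,
    pend_step H hx hp hCr hCc hC1 (by omega) hE hq, ?_, ?_, ?_⟩
  · show x.s + retire P lam v x ≤ d
    have := hx.s_le
    omega
  · exact Nat.le_add_right _ _
  · intro h
    show x.s = x.s + retire P lam v x
    change newPend P lam v x = 0 at h
    simp only [newPend] at h
    split_ifs at h with h0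
    · rw [h0, add_zero]
    · omega
  · intro h
    show 2 ≤ newPend P lam v x ∧ x.s < x.s + retire P lam v x
    change newPend P lam v x ≠ 0 at h
    simp only [newPend] at h ⊢
    split_ifs at h ⊢ with h0
    · exact absurd rfl h
    · exact ⟨by omega, by omega⟩
  · intro G hG
    change G ∈ childDead x _ at hG
    rw [childDead, List.mem_append] at hG
    rcases hG with hG | hG
    · obtain ⟨G₀, hG₀, rfl⟩ := List.mem_map.1 hG
      exact hx.dead_lt G₀ hG₀
    · split_ifs at hG with h0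
      · simp at hG
      · rw [List.mem_singleton] at hG
        subst hG
        exact (hx.np_two h0).2
  · show (childDead x _).Pairwise _
    rw [childDead, List.pairwise_append, List.pairwise_map]
    refine ⟨hx.distinct.imp fun h => by simpa using h, by split_ifs <;> simp, fun G hG G' hG' => ?_⟩
    obtain ⟨G₀, -, rfl⟩ := List.mem_map.1 hG
    split_ifs at hG' with h0
    · simp at hG'
    · rw [List.mem_singleton] at hG'
      subst hG'
      show G₀.age + halvings P lam v x ≠ 0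
      omega
  · intro G hG
    change G ∈ childDead x _ at hG
    rw [childDead, List.mem_append] at hG
    rcases hG with hG | hG
    · obtain ⟨G₀, hG₀, rfl⟩ := List.mem_map.1 hG
      obtain ⟨g, rfl⟩ := List.get_of_mem hG₀
      exact dead_step hx hp hCr hCc (hcA) hq g
    · split_ifs at hG with h0
      · simp at hG
      · rw [List.mem_singleton] at hG
        subst hG
        have hg := group_energy H hp hCr hCc hq 1
        simp only [show (1 : Fin 2) ≠ 0 by decide, if_false] at hg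
        have hpend : 2 * (∑ w ∈ x.W, blockSq (v w) x.plo x.s) / (2 : ℝ) ^ halvings P lam v x ≤ 2 := by
          rw [div_le_iff₀ (by positivity)]
          exact mul_le_mul_of_nonneg_left
            (hx.pend.trans (pow_le_pow_right₀ one_le_two hnp)) zero_le_two
        simp only [pow_zero, mul_one]
        have hsn : 1 ≤ 1 + Real.sqrt (halvings P lam v x) := by
          linarith [Real.sqrt_nonneg ((halvings P lam v x : ℕ) : ℝ)]
        have hA : 2 * Cc * Cr + 3 ≤ P.cA := by linarith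
        refine le_trans ((sum_le_sum_of_subset_of_nonneg (filter_subset _ _)
          fun w _ _ => blockSq_nonneg _ _ _).trans hg) ?_
        nlinarith [mul_le_mul_of_nonneg_right hA (zero_le_one.trans hsn)]

end Vale.Agent.P262.S2
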