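import Vale.Agent.P262.S2.PartTilt
import Vale.Agent.P262.S2.CallBody

/-! T1-A: the partition of a call. The first and the last part are cut with exact tilts, the parts
between them are balanced. -/

namespace Vale.Agent.P262.S2

open Finset

variable {ι : Type} {B : Body ι} {C : ℝ}

lemma Body.Mem.monoC {C' : ℝ} {z : ι → ℝ} (hB : B.Pos) (hC : 0 ≤ C) (h : B.Mem C z) (hle : C ≤ C') :
    B.Mem C' z := fun j =>
  (h j).trans (pow_le_pow_left₀ (mul_nonneg hC (hB j).le)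
    (mul_le_mul_of_nonneg_right hle (hB j).le) 2)

lemma Body.mem_zero : B.Mem C (fun _ => (0 : ℝ)) := fun j => by simp [sq_nonneg]

lemma Body.Mem.scale {z : ι → ℝ} (h : B.Mem C (fun i => z i / 4)) : B.Mem (4 * C) z := fun j => by
  have := h j
  simp only [div_pow] at this
  rw [← sum_div, div_le_iff₀ (by norm_num)] at this
  refine this.trans (le_of_eq ?_)
  ring

lemma Body.Mem.mix {z z₁ z₂ z₃ : ι → ℝ} (h₁ : B.Mem C z₁) (h₂ : B.Mem C z₂) (h₃ : B.Mem C z₃)
    {t : ℝ} (h0 : 0 ≤ t) (h1 : t ≤ 1)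
    (hz : ∀ i, z i = (1 - t) * z₁ i + t * z₂ i + z₃ i) : B.Mem (2 * C) z := fun j => by
  refine (sum_le_sum (g := fun i => 2 * ((1 - t) * z₁ i ^ 2 + t * z₂ i ^ 2) + 2 * z₃ i ^ 2)
    fun i _ => ?_).trans ?_
  · rw [hz i]
    nlinarith [sq_nonneg ((1 - t) * z₁ i + t * z₂ i - z₃ i),
      mul_nonneg (mul_nonneg (sub_nonneg.2 h1) h0) (sq_nonneg (z₁ i - z₂ i))]
  · simp only [sum_add_distrib, ← mul_sum]
    have a1 := mul_le_mul_of_nonneg_left (h₁ j) (sub_nonneg.2 h1)
    have a2 := mul_le_mul_of_nonneg_left (h₂ j) h0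
    have a3 := h₃ j
    rw [mul_pow, mul_pow]
    simp only [mul_pow] at a1 a2 a3
    linarith

variable {d N : ℕ} {P : Par} {lam : Fin d → ℝ} {v : Fin N → Fin d → ℝ} {x : Node d N}

lemma sq_mix_le (A B : ℝ) {t : ℝ} (h0 : 0 ≤ t) (h1 : t ≤ 1) :
    ((1 - t) * A + t * B) ^ 2 ≤ A ^ 2 + B ^ 2 := by
  nlinarith [mul_nonneg (mul_nonneg (sub_nonneg.2 h1) h0) (sq_nonneg (A - B)),
    mul_nonneg h0 (sq_nonneg A), mul_nonneg (sub_nonneg.2 h1) (sq_nonneg B)]

/-- One cut and balanced parts of the lifted vectors, from `RoundTools`. -/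
lemma lifted_tools (hR : RoundTools) :
    ∃ C Cr : ℝ, 0 < C ∧ 1 ≤ Cr ∧ ∀ (P : Par) (d N : ℕ) (lam : Fin d → ℝ) (v : Fin N → Fin d → ℝ),
      Hyp lam v → ∀ x : Node d N, Inv P lam v x →
        let k := retire P lam v x
        let n := halvings P lam v x
        (callBody Cr lam x k n).Pos ∧
        (∀ (W : Finset (Fin N)) (y : Fin N → ℝ), (∀ w ∈ W, 0 ≤ y w ∧ y w ≤ 1) →
          ∃ L ⊆ W, (callBody Cr lam x k n).Mem C
            (fun i => ∑ w ∈ L, lift (v w) x k n i - ∑ w ∈ W, y w * lift (v w) x k n i)) ∧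
        (∀ m : ℕ, 0 < m → Even m → m ≤ 2 ^ n → ∀ W : Finset (Fin N),
          ∃ f : Fin N → ℕ, (∀ w ∈ W, f w < m) ∧ ∀ q ≤ m, (callBody Cr lam x k n).Mem C
            (fun i => ∑ w ∈ W.filter (fun w => f w < q), lift (v w) x k n i -
              (q : ℝ) / m * ∑ w ∈ W, lift (v w) x k n i)) := by
  obtain ⟨C, ε, hC, hε, hR⟩ := hR
  obtain ⟨Cr, hCr, htail⟩ := callBody_tail_le ε hε
  refine ⟨4 * C, Cr, by positivity, hCr, fun P d N lam v H x hI => ?_⟩
  dsimp only
  set k := retire P lam v x with hk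
  set n := halvings P lam v x with hn
  have hpos := callBody_pos hCr lam x k n
  have hu : ∀ w, ∑ i, (lift (v w) x k n i / 4) ^ 2 ≤ 1 := fun w => by
    simp only [div_pow, ← sum_div]
    rw [div_le_one (by norm_num)]
    exact (sum_lift_sq_le x hI.distinct (H.norm w) k n).trans (by norm_num)
  obtain ⟨hcut, hparts⟩ := hR (Idx d x.dead.length) N _ hu (callBody Cr lam x k n) hpos
  have ht := htail Cr le_rfl P d N lam v x hI.distinct
  have htl : 0 ≤ (callBody Cr lam x k n).tail := sum_nonneg fun j _ => by positivity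
  have h2 : (1 : ℝ) ≤ (2 : ℝ) ^ n := one_le_pow₀ (by norm_num)
  refine ⟨hpos, fun W y hy => ?_, fun m hm he hmn W => ?_⟩
  · obtain ⟨L, hL, hmem⟩ := hcut (le_trans (le_mul_of_one_le_left htl (by linarith)) ht) W y hy
    refine ⟨L, hL, Body.Mem.scale ?_⟩
    intro j
    refine le_trans (le_of_eq (sum_congr rfl fun i _ => ?_)) (hmem j)
    simp only [sub_div, sum_div, mul_div_assoc]
  · have hm' : (m : ℝ) ≤ (2 : ℝ) ^ n := by exact_mod_cast hmn
    obtain ⟨f, hf, hmem⟩ := hparts m hm he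
      (le_trans (mul_le_mul_of_nonneg_right (by linarith) htl) ht) W
    refine ⟨f, hf, fun q hq => Body.Mem.scale ?_⟩
    intro j
    refine le_trans (le_of_eq (sum_congr rfl fun i _ => ?_)) (hmem q hq j)
    simp only [sub_div, sum_div, mul_div_assoc]

/-- A partition given by a label. -/
lemma assemble {Cr Cc : ℝ} (g : Fin N → ℕ) (δ : ℕ → Fin N → ℝ)
    (hg : ∀ w ∈ x.W, g w < 2 ^ halvings P lam v x)
    (h : ∀ q : ℕ, 0 < q → q < 2 ^ halvings P lam v x →
      ∑ w ∈ x.W, δ q w ^ 2 ≤ 1 / (2 : ℝ) ^ halvings P lam v x ∧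
      (callBody Cr lam x (retire P lam v x) (halvings P lam v x)).Mem Cc (fun i =>
        ∑ w ∈ x.W.filter (fun w => g w < q), lift (v w) x (retire P lam v x) (halvings P lam v x) i -
          ∑ w ∈ x.W, ((q : ℝ) / (2 : ℝ) ^ halvings P lam v x + δ q w) *
            lift (v w) x (retire P lam v x) (halvings P lam v x) i) ∧
      (∀ i : Fin d, x.s + retire P lam v x ≤ i.val →
        x.a i + ∑ w ∈ x.W, ((q : ℝ) / (2 : ℝ) ^ halvings P lam v x + δ q w) * v w i = 0) ∧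
      blockSq (fun i => ∑ w ∈ x.W, δ q w * v w i) x.s (x.s + retire P lam v x) ≤ 1) :
    CallData P Cr Cc lam v x (fun q => x.W.filter fun w => g w = q)
      (fun q w => if 0 < q ∧ q < 2 ^ halvings P lam v x then δ q w else 0) := by
  set n := halvings P lam v x with hn
  have hsum : ∀ (q : ℕ) (f : Fin N → ℝ),
      ∑ q' ∈ range q, ∑ w ∈ x.W.filter (fun w => g w = q'), f w =
        ∑ w ∈ x.W.filter (fun w => g w < q), f w := fun q f => by
    rw [sum_filter (p := fun w => g w < q)]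
    simp only [sum_filter]
    rw [sum_comm]
    exact sum_congr rfl fun w _ => by rw [sum_ite_eq]; simp only [mem_range]
  have hend : ∀ q : ℕ, q ≤ 2 ^ n → ¬ (0 < q ∧ q < 2 ^ n) → q = 0 ∨ q = 2 ^ n := fun q h1 h2 => by
    omega
  constructor
  · intro w
    refine ⟨fun hw => ⟨g w, hg w hw, mem_filter.2 ⟨hw, rfl⟩⟩, ?_⟩
    rintro ⟨q, -, hw⟩
    exact (mem_filter.1 hw).1
  · intro q q' w _ _ h1 h2
    exact (mem_filter.1 h1).2.symm.trans (mem_filter.1 h2).2
  · intro w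
    simp
  · intro w
    simp [hn]
  · intro q hq
    by_cases hq' : 0 < q ∧ q < 2 ^ n
    · simp only [if_pos hq']
      exact (h q hq'.1 hq'.2).1
    · simp only [← hn, hq', if_false, ne_eq, OfNat.ofNat_ne_zero, not_false_eq_true, zero_pow,
        sum_const_zero]
      positivity
  · intro q hq
    simp only [hsum]
    by_cases hq' : 0 < q ∧ q < 2 ^ n
    · simp only [if_pos hq']
      exact (h q hq'.1 hq'.2).2.1
    · intro j
      refine le_trans (le_of_eq (sum_eq_zero fun i _ => ?_)) (sq_nonneg _)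
      simp only [← hn, hq', if_false, add_zero]
      rcases hend q hq hq' with rfl | rfl
      · simp
      · rw [filter_true_of_mem hg]
        simp
  · intro q h0 h1 i hi
    refine Eq.trans ?_ ((h q h0 h1).2.2.1 i hi)
    refine congrArg (x.a i + ·) (sum_congr rfl fun w _ => ?_)
    exact congrArg (fun z : ℝ => ((q : ℝ) / (2 : ℝ) ^ n + z) * v w i) (if_pos ⟨h0, h1⟩)
  · intro q hq
    by_cases hq' : 0 < q ∧ q < 2 ^ n
    · simp only [if_pos hq']
      exact (h q hq'.1 hq'.2).2.2.2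
    · simp [if_neg hq', blockSq]

/-- The Gram matrix of what remains after the first cut is close to `1 - 1/M` times the ideal. -/
lemma rest_near (H : Hyp lam v) (hI : Inv P lam v x) (hb : 1 ≤ P.base) (hC0 : 0 ≤ P.C0)
    {Cr C : ℝ} (hCr : 0 ≤ Cr) (hC : 0 ≤ C) {P0 : Finset (Fin N)} (hP0 : P0 ⊆ x.W)
    {δ : Fin N → ℝ} {c : ℝ} (hc0 : 0 ≤ c) (hc1 : c ≤ 1) (hδ : ∑ w ∈ x.W, δ w ^ 2 ≤ 1)
    (hmem : (callBody Cr lam x (retire P lam v x) (halvings P lam v x)).Mem C (fun i =>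
      ∑ w ∈ P0, lift (v w) x (retire P lam v x) (halvings P lam v x) i -
        ∑ w ∈ x.W, (c + δ w) * lift (v w) x (retire P lam v x) (halvings P lam v x) i)) :
    NearIdeal P lam v x (x.W \ P0) (1 - c) (3 * P.C0 + 1 + C * Cr) := by
  intro l m hl hlm hm
  set n := halvings P lam v x with hn
  have hm' : x.s ≤ m.val := by omega
  have hz := mem_pair hCr hC hmem l m hl hlm hm
  simp only [lift, hl, hm', and_self, if_true] at hz
  have hgm : gbar lam (x.m + n) m ≤ gbar lam x.m m := by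
    rw [(gbar_above (P := P) (v := v) hb hm).2.2.1]
    exact div_le_self (le_trans zero_le_one (one_le_gbar _ _)) (one_le_pow₀ (by norm_num))
  have hz' := hz.trans (mul_le_mul_of_nonneg_left (root8_mono hgm) (mul_nonneg hC hCr))
  have hbal := hI.bal l m hl hlm
  rw [show Real.sqrt (Real.sqrt (Real.sqrt (gbar lam x.m m))) = root8 (gbar lam x.m m) from rfl]
    at hbal
  set R := root8 (gbar lam x.m m) with hR
  set S := Real.sqrt (gbar lam x.m l) with hS
  have hR0 : 0 ≤ R := root8_nonneg _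
  have hS0 : 0 ≤ S := Real.sqrt_nonneg _
  have hv1 : ∀ w i, v w i ^ 2 ≤ 1 := fun w i => le_trans
    (single_le_sum (f := fun i => v w i ^ 2) (fun _ _ => sq_nonneg _) (mem_univ i)) (H.norm w)
  have hd : |∑ w ∈ x.W, δ w * (v w l * v w m)| ≤ (1 + 2 * P.C0) * S := by
    refine abs_le_of_sq_le_sq ?_ (by positivity)
    refine (sum_mul_sq_le_sq_mul_sq _ _ _).trans ?_
    have h1 : ∑ w ∈ x.W, (v w l * v w m) ^ 2 ≤ (1 + 2 * P.C0) * gbar lam x.m l := by
      refine le_trans (sum_le_sum fun w _ => ?_) (gram_diag_le hI hC0 H.nonneg hl)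
      rw [mul_pow, ← pow_two (v w l)]
      exact mul_le_of_le_one_right (sq_nonneg _) (hv1 w m)
    refine (mul_le_mul hδ h1 (sum_nonneg fun _ _ => sq_nonneg _) zero_le_one).trans ?_
    rw [one_mul, mul_pow, hS, Real.sq_sqrt (le_trans zero_le_one (one_le_gbar _ _))]
    exact mul_le_mul_of_nonneg_right (by nlinarith)
      (le_trans zero_le_one (one_le_gbar _ _))
  have e : gram v (x.W \ P0) l m - (if l = m then (1 - c) * (lam l / 2 ^ x.m) else 0) =
      (1 - c) * (gram v x.W l m - if l = m then lam l / 2 ^ x.m else 0)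
        - (∑ w ∈ P0, v w l * v w m - ∑ w ∈ x.W, (c + δ w) * (v w l * v w m))
        - ∑ w ∈ x.W, δ w * (v w l * v w m) := by
    simp only [gram, ← sum_sdiff hP0 (f := fun w => v w l * v w m), add_mul, sum_add_distrib,
      ← mul_sum]
    split_ifs <;> ring
  rw [e]
  refine (abs_sub _ _).trans (le_trans (add_le_add (abs_sub _ _) le_rfl) ?_)
  rw [abs_mul, abs_of_nonneg (sub_nonneg.2 hc1)]
  have h1 : (1 - c) * |gram v x.W l m - if l = m then lam l / 2 ^ x.m else 0| ≤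
      1 * (P.C0 * (R + S)) :=
    mul_le_mul (by linarith) hbal (abs_nonneg _) zero_le_one
  have : 0 ≤ C * Cr * S := by positivity
  have : 0 ≤ R * (2 * P.C0 + 1) := by positivity
  linarith

/-- The first and the last cut. -/
lemma two_cuts (H : Hyp lam v) (hI : Inv P lam v x) (hC0 : 0 ≤ P.C0) {Cr C : ℝ} (hCr1 : 1 ≤ Cr)
    (hC : 0 < C) (hbase : 10000 * (3 * P.C0 + 2 + C * Cr) ^ 2 ≤ P.base)
    (hcut : ∀ (W : Finset (Fin N)) (y : Fin N → ℝ), (∀ w ∈ W, 0 ≤ y w ∧ y w ≤ 1) →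
      ∃ L ⊆ W, (callBody Cr lam x (retire P lam v x) (halvings P lam v x)).Mem C (fun i =>
        ∑ w ∈ L, lift (v w) x (retire P lam v x) (halvings P lam v x) i -
          ∑ w ∈ W, y w * lift (v w) x (retire P lam v x) (halvings P lam v x) i)) :
    let k := retire P lam v x
    let n := halvings P lam v x
    let M : ℝ := (2 : ℝ) ^ n
    ∃ (P0 R : Finset (Fin N)) (δ₁ δ₂ : Fin N → ℝ), P0 ⊆ x.W ∧ R ⊆ x.W \ P0 ∧
      (∑ w ∈ x.W, δ₁ w ^ 2 ≤ 1 / M ∧
        (∀ i : Fin d, x.s + k ≤ i.val → x.a i + ∑ w ∈ x.W, (1 / M + δ₁ w) * v w i = 0) ∧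
        blockSq (fun i => ∑ w ∈ x.W, δ₁ w * v w i) x.s (x.s + k) ≤ 1 ∧
        (callBody Cr lam x k n).Mem (2 * C) (fun i =>
          ∑ w ∈ P0, lift (v w) x k n i - ∑ w ∈ x.W, (1 / M + δ₁ w) * lift (v w) x k n i)) ∧
      (∑ w ∈ x.W, δ₂ w ^ 2 ≤ 1 / M ∧
        (∀ i : Fin d, x.s + k ≤ i.val → x.a i + ∑ w ∈ x.W, ((M - 1) / M + δ₂ w) * v w i = 0) ∧
        blockSq (fun i => ∑ w ∈ x.W, δ₂ w * v w i) x.s (x.s + k) ≤ 1 ∧
        (callBody Cr lam x k n).Mem (2 * C) (fun i =>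
          ∑ w ∈ P0, lift (v w) x k n i + ∑ w ∈ R, lift (v w) x k n i -
            ∑ w ∈ x.W, ((M - 1) / M + δ₂ w) * lift (v w) x k n i)) := by
  intro k n M
  have hCr : 0 ≤ Cr := by linarith
  have hb : 1 ≤ P.base := by
    have h0 : 0 ≤ C * Cr := by positivity
    have : (1 : ℝ) ≤ P.base := le_trans (by nlinarith) hbase
    exact_mod_cast this
  have hM2 : 2 ≤ M := by
    calc (2 : ℝ) = 2 ^ 1 := by norm_num
      _ ≤ M := pow_le_pow_right₀ (by norm_num) one_le_halvings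
  have hM0 : 0 < M := by linarith
  have hM1 : 0 < M - 1 := by linarith
  have hinv0 : (0 : ℝ) ≤ 1 / M := by positivity
  have hinv : 1 / M ≤ 1 / 2 := one_div_le_one_div_of_le (by norm_num) hM2
  set S : Fin d → ℝ := vsum v x.W with hS
  set c₁ : Fin d → ℝ := fun i => -(x.a i + 1 / M * S i) with hc₁
  have hc₁' : ∀ i ∈ liveSet P lam v x, c₁ i ^ 2 ≤ 2 * topLoad P v x i := by
    intro i hi
    have h := (topLoad_facts (P := P) (v := v) hb hi).2.2.1
    have e : c₁ i = -((1 - 1 / M) * x.a i + 1 / M * x.b v i) := by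
      simp only [hc₁, hS, Node.b]; ring
    rw [e, neg_sq]
    have hm := sq_mix_le (x.a i) (x.b v i) hinv0 (by linarith : 1 / M ≤ 1)
    have h' := one_le_topLoad (P := P) (v := v) hb hi
    linarith
  have hW1 : NearIdeal P lam v x x.W 1 P.C0 := by
    intro l m hl hlm _
    simpa [root8] using hI.bal l m hl hlm
  have hbase1 : 10000 * (P.C0 + 1) ^ 2 ≤ (P.base : ℝ) := by
    refine le_trans ?_ hbase
    have h0 : 0 ≤ C * Cr := by positivity
    exact mul_le_mul_of_nonneg_left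
      (pow_le_pow_left₀ (by linarith) (by linarith) 2) (by norm_num)
  obtain ⟨δ₁, he1, hs1, ha1, ho1⟩ := tilt H hb (by norm_num) hC0 hW1 hbase1 c₁ (fun i hi => by
    have h := hc₁' i hi
    have h' := one_le_topLoad (P := P) (v := v) hb hi
    linarith)
  have hsmallM : 1 / (4 * M) ≤ 1 / M := by gcongr; linarith
  obtain ⟨P0, hP0, hm1⟩ := hcut x.W (fun w => 1 / M + δ₁ w) (fun w _ => by
    have := abs_le.1 (ha1 w)
    constructor <;> linarith)
  have hS1 : ∀ i : Fin d, x.s + k ≤ i.val → x.a i + ∑ w ∈ x.W, (1 / M + δ₁ w) * v w i = 0 := by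
    intro i hi
    rw [show ∑ w ∈ x.W, (1 / M + δ₁ w) * v w i = 1 / M * S i + ∑ w ∈ x.W, δ₁ w * v w i by
        simp only [hS, vsum, mul_sum, ← sum_add_distrib, add_mul],
      he1 i (mem_liveSet.2 hi)]
    simp only [hc₁]
    ring
  have hδ1M : ∑ w ∈ x.W, δ₁ w ^ 2 ≤ 1 / M := hs1.trans (by gcongr; linarith)
  have hm1' : (callBody Cr lam x k n).Mem (2 * C) (fun i =>
      ∑ w ∈ P0, lift (v w) x k n i - ∑ w ∈ x.W, (1 / M + δ₁ w) * lift (v w) x k n i) :=
    Body.Mem.monoC (callBody_pos hCr1 lam x k n) hC.le hm1 (by linarith)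
  by_cases hn1 : M = 2
  · have e : (M - 1) / M = 1 / M := by rw [hn1]; norm_num
    refine ⟨P0, ∅, δ₁, δ₁, hP0, empty_subset _, ⟨hδ1M, hS1, ho1.trans (by norm_num), hm1'⟩,
      hδ1M, ?_, ho1.trans (by norm_num), ?_⟩
    · rw [e]; exact hS1
    · rw [e]
      simpa only [sum_empty, add_zero] using hm1'
  have hM4 : 4 ≤ M := by
    rcases Nat.lt_or_ge n 2 with h | h
    · exact absurd (show M = 2 by
        have : n = 1 := by have := one_le_halvings (P := P) (lam := lam) (v := v) (x := x); omega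
        simp [M, this]) hn1
    · calc (4 : ℝ) = 2 ^ 2 := by norm_num
        _ ≤ M := pow_le_pow_right₀ (by norm_num) h
  set W' := x.W \ P0 with hW'
  have hδ1 : ∑ w ∈ x.W, δ₁ w ^ 2 ≤ 1 := hs1.trans (by
    rw [div_le_one (by positivity)]; linarith)
  have hW2 : NearIdeal P lam v x W' (1 - 1 / M) (3 * P.C0 + 1 + C * Cr) :=
    rest_near H hI hb hC0 hCr hC.le hP0 hinv0 (by linarith) hδ1 hm1
  set c₂ : Fin d → ℝ := fun i => -(x.a i + (M - 1) / M * S i) - c₁ i / (M - 1) with hc₂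
  have hc₂' : ∀ i ∈ liveSet P lam v x, c₂ i ^ 2 ≤ 8 * topLoad P v x i := by
    intro i hi
    have h := (topLoad_facts (P := P) (v := v) hb hi).2.2.1
    have h1 := hc₁' i hi
    have e : x.a i + (M - 1) / M * S i = 1 / M * x.a i + (1 - 1 / M) * x.b v i := by
      simp only [hS, Node.b]
      field_simp
      ring
    have h2 : (c₁ i / (M - 1)) ^ 2 ≤ c₁ i ^ 2 := by
      rw [div_pow]
      exact div_le_self (sq_nonneg _) (one_le_pow₀ (by linarith))
    have h3 : (x.a i + (M - 1) / M * S i) ^ 2 ≤ 2 * (x.a i ^ 2 + x.b v i ^ 2) := by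
      rw [e]
      have p1 : (1 / M * x.a i) ^ 2 ≤ x.a i ^ 2 := by
        rw [mul_pow]
        exact mul_le_of_le_one_left (sq_nonneg _) (pow_le_one₀ hinv0 (by linarith))
      have p2 : ((1 - 1 / M) * x.b v i) ^ 2 ≤ x.b v i ^ 2 := by
        rw [mul_pow]
        exact mul_le_of_le_one_left (sq_nonneg _) (pow_le_one₀ (by linarith) (by linarith))
      nlinarith [sq_nonneg (1 / M * x.a i - (1 - 1 / M) * x.b v i)]
    simp only [hc₂]
    nlinarith [sq_nonneg (-(x.a i + (M - 1) / M * S i) + c₁ i / (M - 1))]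
  obtain ⟨δ', he2, hs2, ha2, ho2⟩ := tilt H hb (by linarith) (by positivity) hW2
    (le_trans (le_of_eq (by ring)) hbase) c₂ hc₂'
  set c' : ℝ := (M - 2) / (M - 1) with hc'
  have hc0' : 0 ≤ c' := div_nonneg (by linarith) hM1.le
  have hc1' : c' + 1 / (M - 1) = 1 := by
    rw [hc', ← add_div, div_eq_one_iff_eq hM1.ne']; ring
  set δ₂ : Fin N → ℝ := fun w => 1 / (M - 1) * δ₁ w + (if w ∈ W' then δ' w else 0) with hδ₂
  have hite : ∀ f : Fin N → ℝ, ∑ w ∈ x.W, (if w ∈ W' then δ' w else 0) * f w =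
      ∑ w ∈ W', δ' w * f w := fun f => by
    simp only [ite_mul, zero_mul]
    rw [sum_ite_mem, inter_eq_right.2 sdiff_subset]
  have hlin : ∀ f : Fin N → ℝ, ∑ w ∈ x.W, δ₂ w * f w =
      1 / (M - 1) * ∑ w ∈ x.W, δ₁ w * f w + ∑ w ∈ W', δ' w * f w := fun f => by
    simp only [hδ₂, add_mul, sum_add_distrib, hite, mul_assoc, ← mul_sum]
  have ⟨R, hR, hRmem⟩ : ∃ R, R ⊆ W' ∧ (callBody Cr lam x k n).Mem (2 * C) (fun i =>
      ∑ w ∈ P0, lift (v w) x k n i + ∑ w ∈ R, lift (v w) x k n i -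
        ∑ w ∈ x.W, ((M - 1) / M + δ₂ w) * lift (v w) x k n i) := by
    obtain ⟨R, hR, hm2⟩ := hcut W' (fun w => c' + δ' w) (fun w _ => by
      have h := abs_le.1 (ha2 w)
      have e1 : 1 / (4 * M) ≤ c' := by
        rw [hc', div_le_div_iff₀ (by positivity) hM1]; nlinarith
      have e2 : 1 / (4 * M) ≤ 1 / (M - 1) := one_div_le_one_div_of_le hM1 (by linarith)
      constructor <;> linarith [hc1'])
    refine ⟨R, hR, Body.Mem.mix (t := 1 / (M - 1)) Body.mem_zero hm1 hm2 (by positivity) (by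
      rw [div_le_one hM1]; linarith) fun i => ?_⟩
    set F := fun w => lift (v w) x k n i with hF
    have hsd : ∑ w ∈ W', F w = ∑ w ∈ x.W, F w - ∑ w ∈ P0, F w := by
      rw [hW', ← sum_sdiff hP0 (f := F)]; ring
    have h1 : ∑ w ∈ x.W, ((M - 1) / M + δ₂ w) * F w = (M - 1) / M * ∑ w ∈ x.W, F w +
        (1 / (M - 1) * ∑ w ∈ x.W, δ₁ w * F w + ∑ w ∈ W', δ' w * F w) := by
      rw [← hlin F, mul_sum, ← sum_add_distrib]
      exact sum_congr rfl fun w _ => add_mul _ _ _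
    have h2 : ∑ w ∈ x.W, (1 / M + δ₁ w) * F w =
        1 / M * ∑ w ∈ x.W, F w + ∑ w ∈ x.W, δ₁ w * F w := by
      rw [mul_sum, ← sum_add_distrib]
      exact sum_congr rfl fun w _ => add_mul _ _ _
    have h3 : ∑ w ∈ W', (c' + δ' w) * F w = c' * ∑ w ∈ W', F w + ∑ w ∈ W', δ' w * F w := by
      rw [mul_sum, ← sum_add_distrib]
      exact sum_congr rfl fun w _ => add_mul _ _ _
    show ∑ w ∈ P0, F w + ∑ w ∈ R, F w - ∑ w ∈ x.W, ((M - 1) / M + δ₂ w) * F w =
      (1 - 1 / (M - 1)) * 0 + 1 / (M - 1) * (∑ w ∈ P0, F w - ∑ w ∈ x.W, (1 / M + δ₁ w) * F w) +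
        (∑ w ∈ R, F w - ∑ w ∈ W', (c' + δ' w) * F w)
    rw [h1, h2, h3, hsd, hc']
    field_simp
    ring
  refine ⟨P0, R, δ₁, δ₂, hP0, hR, ⟨hδ1M, hS1, ho1.trans (by norm_num), hm1'⟩, ?_, ?_, ?_, hRmem⟩
  · calc ∑ w ∈ x.W, δ₂ w ^ 2
        ≤ ∑ w ∈ x.W, (2 * δ₁ w ^ 2 + 2 * (if w ∈ W' then δ' w else 0) ^ 2) := by
          refine sum_le_sum fun w _ => ?_
          simp only [hδ₂]
          have h2 : (1 / (M - 1) * δ₁ w) ^ 2 ≤ δ₁ w ^ 2 := by
            rw [mul_pow]
            exact mul_le_of_le_one_left (sq_nonneg _) (pow_le_one₀ (by positivity)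
              (by rw [div_le_one hM1]; linarith))
          nlinarith [sq_nonneg (1 / (M - 1) * δ₁ w - (if w ∈ W' then δ' w else 0))]
      _ ≤ 2 * (1 / (8 * M)) + 2 * (1 / (8 * M)) := by
          rw [sum_add_distrib, ← mul_sum, ← mul_sum]
          refine add_le_add (by linarith [hs1]) ?_
          have e : ∑ w ∈ x.W, (if w ∈ W' then δ' w else 0) ^ 2 = ∑ w ∈ W', δ' w ^ 2 := by
            simp only [ite_pow, ne_eq, OfNat.ofNat_ne_zero, not_false_eq_true, zero_pow]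
            rw [sum_ite_mem, inter_eq_right.2 sdiff_subset]
          rw [e]
          linarith [hs2]
      _ ≤ 1 / M := by
          have : 2 * (1 / (8 * M)) + 2 * (1 / (8 * M)) = 1 / 2 * (1 / M) := by ring
          linarith
  · intro i hi
    rw [show ∑ w ∈ x.W, ((M - 1) / M + δ₂ w) * v w i = (M - 1) / M * S i + ∑ w ∈ x.W, δ₂ w * v w i by
        simp only [hS, vsum, mul_sum, ← sum_add_distrib, add_mul],
      hlin (fun w => v w i), he1 i (mem_liveSet.2 hi), he2 i (mem_liveSet.2 hi)]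
    simp only [hc₂]
    ring
  · rw [show (fun i => ∑ w ∈ x.W, δ₂ w * v w i) = fun i =>
        1 / (M - 1) * (∑ w ∈ x.W, δ₁ w * v w i) + ∑ w ∈ W', δ' w * v w i from
      funext fun i => hlin fun w => v w i]
    refine (blockSq_add_le _ _ _ _).trans ?_
    have h1 : blockSq (fun i => 1 / (M - 1) * ∑ w ∈ x.W, δ₁ w * v w i) x.s (x.s + k) ≤
        blockSq (fun i => ∑ w ∈ x.W, δ₁ w * v w i) x.s (x.s + k) := by
      refine sum_le_sum fun i _ => ?_
      rw [mul_pow]
      exact mul_le_of_le_one_left (sq_nonneg _) (pow_le_one₀ (by positivity)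
        (by rw [div_le_one hM1]; linarith))
    linarith

/-- T1-A. -/
theorem partitionLemma (h : RoundTools) : PartitionLemma := by
  obtain ⟨C, Cr, hC, hCr, htools⟩ := lifted_tools h
  refine ⟨Cr, max 1 (4 * C), hCr, le_max_left _ _, fun C0 hC0 => ?_⟩
  refine ⟨⌈10000 * (3 * C0 + 2 + C * Cr) ^ 2⌉₊, fun P hP hb d N lam v H x hI => ?_⟩
  subst hP
  have hbase : 10000 * (3 * P.C0 + 2 + C * Cr) ^ 2 ≤ (P.base : ℝ) :=
    (Nat.le_ceil _).trans (Nat.cast_le.2 hb)
  obtain ⟨hpos, hcut, hparts⟩ := htools P d N lam v H x hI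
  obtain ⟨P0, R, δ₁, δ₂, hP0, hR, ⟨hs1, he1, ho1, hm1⟩, hs2, he2, ho2, hm2⟩ :=
    two_cuts H hI (by linarith) hCr hC hbase hcut
  set k := retire P lam v x with hk
  set n := halvings P lam v x with hn
  set M : ℕ := 2 ^ n with hM
  have hMr : (M : ℝ) = (2 : ℝ) ^ n := by simp [hM]
  have hM2 : 2 ≤ M := by
    calc 2 = 2 ^ 1 := (pow_one 2).symm
      _ ≤ M := Nat.pow_le_pow_right (by norm_num) one_le_halvings
  have hMeven : Even M := (Nat.even_pow' (by have := one_le_halvings (P := P) (lam := lam) (v := v) (x := x); omega)).2 even_two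
  have hM' : 2 ^ halvings P lam v x = M := rfl
  have hR0 : ∀ w ∈ R, w ∉ P0 := fun w hw => (mem_sdiff.1 (hR hw)).2
  have hRW : R ⊆ x.W := fun w hw => (mem_sdiff.1 (hR hw)).1
  by_cases h2 : M = 2
  · refine ⟨_, _, assemble (Cr := Cr) (fun w => if w ∈ P0 then 0 else 1) (fun _ => δ₁) ?_ ?_⟩
    · intro w _
      split_ifs <;> omega
    · intro q h0 h1
      have hq : q = 1 := by omega
      subst hq
      refine ⟨hs1, ?_, ?_, ho1⟩
      · have e : x.W.filter (fun w => (if w ∈ P0 then 0 else 1) < 1) = P0 := by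
          ext w
          simp only [mem_filter]
          exact ⟨fun h => by by_contra hc; simp [hc] at h, fun h => ⟨hP0 h, by simp [h]⟩⟩
        rw [e]
        simp only [Nat.cast_one]
        exact Body.Mem.monoC hpos (by positivity) hm1 (le_max_of_le_right (by linarith))
      · simpa only [Nat.cast_one] using he1
  obtain ⟨f, hf, hfm⟩ := hparts (M - 2) (by omega) (Nat.even_sub hM2 |>.2 (by simp [hMeven])) (by omega) R
  set g : Fin N → ℕ := fun w => if w ∈ P0 then 0 else if w ∈ R then f w + 1 else M - 1 with hg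
  set t : ℕ → ℝ := fun q => ((q - 1 : ℕ) : ℝ) / ((M - 2 : ℕ) : ℝ) with ht
  refine ⟨_, _, assemble (Cr := Cr) g (fun q w => (1 - t q) * δ₁ w + t q * δ₂ w) ?_ ?_⟩
  · intro w _
    simp only [hg]
    split_ifs with h1 h3
    · omega
    · have := hf w h3; omega
    · omega
  intro q h0 h1
  have hd : (0 : ℝ) < ((M - 2 : ℕ) : ℝ) := by exact_mod_cast (show 0 < M - 2 by omega)
  have ht0 : 0 ≤ t q := by simp only [ht]; positivity
  have ht1 : t q ≤ 1 := by
    simp only [ht]; rw [div_le_one hd]; exact_mod_cast (show q - 1 ≤ M - 2 by omega)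
  have hc : (q : ℝ) / (2 : ℝ) ^ n = (1 - t q) * (1 / (2 : ℝ) ^ n) + t q * (((2 : ℝ) ^ n - 1) / (2 : ℝ) ^ n) := by
    simp only [ht]
    rw [← hMr, Nat.cast_sub (show 1 ≤ q by omega), Nat.cast_sub (show 2 ≤ M by omega)]
    have : (M : ℝ) ≠ 0 := by exact_mod_cast (show M ≠ 0 by omega)
    have : (M : ℝ) - 2 ≠ 0 := by
      rw [Nat.cast_sub (show 2 ≤ M by omega)] at hd
      push_cast at hd
      linarith
    push_cast
    field_simp
    ring
  have hlin : ∀ F : Fin N → ℝ, ∑ w ∈ x.W, ((q : ℝ) / (2 : ℝ) ^ n + ((1 - t q) * δ₁ w + t q * δ₂ w)) * F w =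
      (1 - t q) * ∑ w ∈ x.W, (1 / (2 : ℝ) ^ n + δ₁ w) * F w +
        t q * ∑ w ∈ x.W, (((2 : ℝ) ^ n - 1) / (2 : ℝ) ^ n + δ₂ w) * F w := fun F => by
    rw [mul_sum, mul_sum, ← sum_add_distrib]
    refine sum_congr rfl fun w _ => ?_
    rw [hc]; ring
  refine ⟨?_, ?_, ?_, ?_⟩
  · refine (sum_le_sum (g := fun w => (1 - t q) * δ₁ w ^ 2 + t q * δ₂ w ^ 2) fun w _ => ?_).trans ?_
    · nlinarith [mul_nonneg (mul_nonneg (sub_nonneg.2 ht1) ht0) (sq_nonneg (δ₁ w - δ₂ w))]
    · rw [sum_add_distrib, ← mul_sum, ← mul_sum]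
      have a1 := mul_le_mul_of_nonneg_left hs1 (sub_nonneg.2 ht1)
      have a2 := mul_le_mul_of_nonneg_left hs2 ht0
      linarith
  · have e : x.W.filter (fun w => g w < q) = P0 ∪ R.filter (fun w => f w < q - 1) := by
      ext w
      simp only [mem_filter, mem_union, hg]
      constructor
      · rintro ⟨-, h⟩
        split_ifs at h with h3 h4
        · exact Or.inl h3
        · exact Or.inr ⟨h4, by omega⟩
        · omega
      · rintro (h | ⟨h, h'⟩)
        · exact ⟨hP0 h, by rw [if_pos h]; omega⟩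
        · exact ⟨hRW h, by rw [if_neg (hR0 w h), if_pos h]; omega⟩
    refine Body.Mem.monoC hpos (by positivity) (Body.Mem.mix (t := t q) hm1 hm2
      (Body.Mem.monoC hpos hC.le (hfm (q - 1) (by omega)) (by linarith)) ht0 ht1 fun i => ?_)
      (le_max_of_le_right (by linarith))
    rw [e, sum_union (disjoint_left.2 fun w hw hw' => hR0 w (mem_filter.1 hw').1 hw),
      hlin (fun w => lift (v w) x k n i)]
    simp only [ht]
    ring
  · intro i hi
    rw [hlin (fun w => v w i)]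
    have a1 := congrArg (fun z => (1 - t q) * z) (he1 i hi)
    have a2 := congrArg (fun z => t q * z) (he2 i hi)
    simp only [mul_zero] at a1 a2
    linarith
  · refine (sum_le_sum (g := fun i => (1 - t q) * (∑ w ∈ x.W, δ₁ w * v w i) ^ 2 +
      t q * (∑ w ∈ x.W, δ₂ w * v w i) ^ 2) fun i _ => ?_).trans ?_
    · simp only
      rw [show ∑ w ∈ x.W, ((1 - t q) * δ₁ w + t q * δ₂ w) * v w i =
        (1 - t q) * ∑ w ∈ x.W, δ₁ w * v w i + t q * ∑ w ∈ x.W, δ₂ w * v w i by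
          rw [mul_sum, mul_sum, ← sum_add_distrib]
          exact sum_congr rfl fun w _ => by ring]
      nlinarith [mul_nonneg (mul_nonneg (sub_nonneg.2 ht1) ht0)
        (sq_nonneg ((∑ w ∈ x.W, δ₁ w * v w i) - ∑ w ∈ x.W, δ₂ w * v w i))]
    · rw [sum_add_distrib, ← mul_sum, ← mul_sum]
      simp only [blockSq] at ho1 ho2
      have a1 := mul_le_mul_of_nonneg_left ho1 (sub_nonneg.2 ht1)
      have a2 := mul_le_mul_of_nonneg_left ho2 ht0
      linarith

end Vale.Agent.P262.S2
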