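import Mathlib
import Vale.Agent.P262.S2.Budget

/-! T2, part 2: the recursion, the order of the items, and `DiagBound`. -/

namespace Vale.Agent.P262.S2

open Finset

variable {d N : ℕ} {P : Par} {Cs A η Cη : ℝ} {lam : Fin d → ℝ} {v : Fin N → Fin d → ℝ}
  {x : Node d N} {K : Coef}

/-- The cost of an initial segment `Q` of a node. -/
noncomputable def cost (v : Fin N → Fin d → ℝ) (x : Node d N) (Q : Finset (Fin N))
    (α : Dead → ℝ) : ℝ :=
  (x.dead.map (fun G => wage G.age * devSq v G x.W Q (α G))).sum +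
    blockSq (fun i => x.a i + vsum v Q i) x.plo d

/-- Some order of the items has all initial segments within the budget. -/
def Good (K : Coef) (P : Par) (v : Fin N → Fin d → ℝ) (x : Node d N) : Prop :=
  ∃ l : List (Fin N), l.Nodup ∧ l.toFinset = x.W ∧
    ∀ k, ∃ α : Dead → ℝ, (∀ G, 0 ≤ α G ∧ α G ≤ 1) ∧
      cost v x (l.take k).toFinset α ≤ budget K P v x

/-- Concatenation of the orders of disjoint parts. -/
lemma concat_lists {γ : Type} [DecidableEq γ] (Wq : ℕ → Finset γ) (L : ℕ → List γ) (M : ℕ)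
    (hnd : ∀ q < M, (L q).Nodup) (hW : ∀ q < M, (L q).toFinset = Wq q)
    (hdis : ∀ q q' w, q < M → q' < M → w ∈ Wq q → w ∈ Wq q' → q = q') :
    ∃ l : List γ, l.Nodup ∧ l.toFinset = (range M).biUnion Wq ∧
      ∀ k, M = 0 ∨ ∃ q < M, ∃ j,
        (l.take k).toFinset = (range q).biUnion Wq ∪ ((L q).take j).toFinset := by
  induction M with
  | zero => exact ⟨[], List.nodup_nil, by simp, fun _ => Or.inl rfl⟩
  | succ M ih =>
    obtain ⟨l, h1, h2, h3⟩ := ih (fun q hq => hnd q (by omega)) (fun q hq => hW q (by omega))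
      (fun q q' w hq hq' => hdis q q' w (by omega) (by omega))
    refine ⟨l ++ L M, ?_, ?_, fun k => Or.inr ?_⟩
    · refine List.nodup_append.2 ⟨h1, hnd M (by omega), ?_⟩
      intro w hw w' hw' he
      subst he
      rw [← List.mem_toFinset, h2, mem_biUnion] at hw
      obtain ⟨q, hq, hwq⟩ := hw
      rw [← List.mem_toFinset, hW M (by omega)] at hw'
      have := hdis q M w (by simp only [mem_range] at hq; omega) (by omega) hwq hw'
      simp only [mem_range] at hq
      omega
    · rw [List.toFinset_append, h2, hW M (by omega), range_add_one, biUnion_insert, union_comm]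
    · rw [List.take_append, List.toFinset_append]
      by_cases hk : l.length ≤ k
      · exact ⟨M, by omega, k - l.length, by rw [List.take_of_length_le hk, h2]⟩
      · rcases h3 k with h0 | ⟨q, hq, j, hj⟩
        · subst h0
          have : l = [] := by simpa using h2
          simp [this] at hk
        · refine ⟨q, by omega, j, ?_⟩
          rw [hj, show k - l.length = 0 by omega]
          simp

lemma wage_nonneg (j : ℕ) : 0 ≤ wage j := by unfold wage; positivity

/-- From square roots to squares with the factor `21/20`. -/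
lemma sq_transfer {a a' e : ℝ} (ha : 0 ≤ a) (ha' : 0 ≤ a') (he : 0 ≤ e)
    (h : Real.sqrt a ≤ Real.sqrt a' + Real.sqrt e) : a ≤ 21 / 20 * a' + 21 * e := by
  have h1 := mul_self_le_mul_self (Real.sqrt_nonneg a) h
  rw [Real.mul_self_sqrt ha] at h1
  nlinarith [Real.mul_self_sqrt ha', Real.mul_self_sqrt he,
    sq_nonneg (Real.sqrt a' - 20 * Real.sqrt e)]

/-- A block that was pending becomes a retired block of age zero. -/
lemma pend_bound (hv : ∀ w, ∑ i, v w i ^ 2 ≤ 1) (y : Node d N) (Q : Finset (Fin N))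
    (lo hi n : ℕ) (α : ℝ) (h0 : 0 ≤ α) (h1 : α ≤ 1) :
    blockSq (fun i => y.a i + vsum v Q i) lo hi ≤
      2 * (blockSq y.a lo hi + blockSq (y.b v) lo hi) +
        wage 0 * devSq v ⟨lo, hi, 0, n⟩ y.W Q α := by
  have hact : ∀ S : Finset (Fin N), act v ⟨lo, hi, 0, n⟩ S = S := by
    intro S
    refine filter_true_of_mem fun w _ => ?_
    simp only [pow_zero]
    exact (sum_le_sum_of_subset_of_nonneg (filter_subset _ _) fun i _ _ => sq_nonneg _).trans (hv w)
  simp only [devSq, hact, wage, pow_zero, mul_one, blockSq]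
  rw [← sum_add_distrib, mul_sum, mul_sum, ← sum_add_distrib]
  refine sum_le_sum fun i _ => ?_
  simp only [Node.b]
  set u := y.a i
  set S := vsum v y.W i
  set T := vsum v Q i
  have h2 : (u + α * S) ^ 2 ≤ u ^ 2 + (u + S) ^ 2 := by
    nlinarith [mul_nonneg (mul_nonneg h0 (show (0:ℝ) ≤ 1 - α by linarith)) (sq_nonneg S),
      mul_nonneg h0 (sq_nonneg u), mul_nonneg (show (0:ℝ) ≤ 1 - α by linarith) (sq_nonneg (u + S))]
  nlinarith [sq_nonneg (u + α * S - (T - α * S))]

lemma budget_nonneg (hK : K.Ok P Cs A η Cη) (hI : Inv P lam v x) : 0 ≤ budget K P v x := by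
  unfold budget
  have h1 : (x.s : ℝ) ≤ d := by exact_mod_cast hI.s_le
  have h2 : (x.plo : ℝ) ≤ x.s := by exact_mod_cast hI.plo_le
  have h3 : 0 ≤ (x.dead.map (deadBudget K)).sum := by
    refine List.sum_nonneg fun b hb => ?_
    obtain ⟨G, hG, rfl⟩ := List.mem_map.1 hb
    have : (G.lo : ℝ) ≤ G.hi := by exact_mod_cast (hI.dead_lt G hG).le
    unfold deadBudget
    have := hK.Cd_nonneg
    positivity
  have h4 : 0 ≤ K.Rp * (if x.np = 0 then 0 else
      blockSq x.a x.plo x.s + blockSq (x.b v) x.plo x.s + ((x.s : ℝ) - x.plo)) := by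
    refine mul_nonneg hK.Rp_nonneg ?_
    split_ifs
    · exact le_rfl
    · have := blockSq_nonneg x.a x.plo x.s
      have := blockSq_nonneg (x.b v) x.plo x.s
      linarith
  have h5 := mul_nonneg hK.F1_nonneg (show (0:ℝ) ≤ (d : ℝ) - x.s by linarith)
  have h6 := mul_nonneg hK.K0_nonneg (add_nonneg (excess_nonneg P.F0 x.s x.a)
    (excess_nonneg P.F0 x.s (x.b v)))
  have h7 : 0 ≤ K.Rn * x.np := mul_nonneg hK.Rn_nonneg (Nat.cast_nonneg _)
  linarith

/-- A node whose children are good is good. -/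
lemma good_step (hK : K.Ok P Cs A η Cη) (hCs : 0 ≤ Cs) (hv : ∀ w, ∑ i, v w i ^ 2 ≤ 1)
    (hI : Inv P lam v x) {child : ℕ → Node d N} (hS : StepData P Cs lam v x child)
    (hc : ∀ q < 2 ^ halvings P lam v x, Good K P v (child q)) : Good K P v x := by
  set n := halvings P lam v x with hn
  have hn1 : 1 ≤ n := halvings_pos
  choose! L hL1 hL2 hL3 using hc
  obtain ⟨l, h1, h2, h3⟩ := concat_lists (fun q => (child q).W) L (2 ^ n) hL1 hL2 hS.disj
  refine ⟨l, h1, ?_, fun k => ?_⟩
  · rw [h2]
    ext w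
    simp only [mem_biUnion, mem_range]
    exact ((hS.cover w).trans Iff.rfl).symm
  obtain ⟨q, hq, j, hj⟩ := (h3 k).resolve_left (by positivity)
  obtain ⟨α', hα', hcost⟩ := hL3 q hq j
  set Q' := ((L q).take j).toFinset with hQ'
  have hsub : Q' ⊆ (child q).W := by
    rw [← hL2 q hq]
    intro w hw
    simp only [hQ', List.mem_toFinset] at hw ⊢
    exact List.mem_of_mem_take hw
  have hex : ∀ G : Dead, ∃ α : ℝ, (0 ≤ α ∧ α ≤ 1) ∧ (G ∈ x.dead →
      Real.sqrt (devSq v G x.W ((range q).biUnion (fun q' => (child q').W) ∪ Q') α) ≤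
      Real.sqrt (devSq v ⟨G.lo, G.hi, G.age + n, G.n0⟩ (child q).W Q'
          (α' ⟨G.lo, G.hi, G.age + n, G.n0⟩)) +
      Real.sqrt (Cs * (9 / 10 : ℝ) ^ G.age * (1 + ((G.hi : ℝ) - G.lo) + G.n0 + slack n))) := by
    intro G
    by_cases hG : G ∈ x.dead
    · obtain ⟨α, a0, a1, a2⟩ := hS.transfer q hq Q' hsub G hG _ (hα' ⟨G.lo, G.hi, G.age + n, G.n0⟩).1
        (hα' ⟨G.lo, G.hi, G.age + n, G.n0⟩).2
      exact ⟨α, ⟨a0, a1⟩, fun _ => a2⟩
    · exact ⟨0, ⟨le_rfl, zero_le_one⟩, fun h => absurd h hG⟩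
  choose α hα01 hαT using hex
  refine ⟨α, hα01, ?_⟩
  rw [hj]
  set Q := (range q).biUnion (fun q' => (child q').W) ∪ Q' with hQ
  obtain ⟨-, hcs, hcplo, -, hcdead⟩ := hS.shape q hq
  have hvec : ∀ i, x.a i + vsum v Q i = (child q).a i + vsum v Q' i := by
    intro i
    have hd : Disjoint ((range q).biUnion (fun q' => (child q').W)) Q' := by
      rw [disjoint_left]
      intro w hw hw'
      obtain ⟨q', hq', hwq⟩ := mem_biUnion.1 hw
      have := hS.disj q' q w (lt_trans (mem_range.1 hq') hq) hq hwq (hsub hw')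
      exact absurd (mem_range.1 hq') (by omega)
    rw [hS.start q hq i, hQ, vsum, sum_union hd, sum_biUnion]
    · simp only [vsum]; ring
    · intro a ha b hb hab
      rw [Function.onFun, disjoint_left]
      intro w hwa hwb
      exact hab (hS.disj a b w (lt_trans (mem_range.1 (mem_coe.1 ha)) hq)
        (lt_trans (mem_range.1 (mem_coe.1 hb)) hq) hwa hwb)
  have hold : (x.dead.map (fun G => wage G.age * devSq v G x.W Q (α G))).sum ≤
      (x.dead.map (fun G => wage (G.age + n) * devSq v ⟨G.lo, G.hi, G.age + n, G.n0⟩ (child q).W Q'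
        (α' ⟨G.lo, G.hi, G.age + n, G.n0⟩))).sum +
      (x.dead.map (fun G => 21 * wage G.age * (Cs * (9 / 10 : ℝ) ^ G.age *
        (1 + ((G.hi : ℝ) - G.lo) + G.n0 + slack n)))).sum := by
    rw [← List.sum_map_add]
    refine List.sum_le_sum fun G hG => ?_
    have hw : (G.lo : ℝ) ≤ G.hi := by exact_mod_cast (hI.dead_lt G hG).le
    set e := Cs * (9 / 10 : ℝ) ^ G.age * (1 + ((G.hi : ℝ) - G.lo) + G.n0 + slack n) with he
    have he0 : 0 ≤ e := by positivity
    have h := sq_transfer (blockSq_nonneg _ _ _) (blockSq_nonneg _ _ _) he0 (hαT G hG)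
    have hw1 : wage G.age * (21 / 20) ≤ wage (G.age + n) := by
      have : (21 / 20 : ℝ) ^ (G.age + 1) ≤ (21 / 20) ^ (G.age + n) :=
        pow_le_pow_right₀ (by norm_num) (by omega)
      rw [pow_succ] at this
      unfold wage
      linarith
    have h2 := mul_le_mul_of_nonneg_left h (wage_nonneg G.age)
    have h3 : 0 ≤ devSq v ⟨G.lo, G.hi, G.age + n, G.n0⟩ (child q).W Q'
        (α' ⟨G.lo, G.hi, G.age + n, G.n0⟩) := blockSq_nonneg _ _ _
    have h4 := mul_le_mul_of_nonneg_right hw1 h3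
    unfold devSq at h2 h4 ⊢
    linarith
  have hsplit : blockSq (fun i => (child q).a i + vsum v Q' i) x.plo d =
      blockSq (fun i => (child q).a i + vsum v Q' i) x.plo x.s +
      blockSq (fun i => (child q).a i + vsum v Q' i) x.s d :=
    blockSq_split _ hI.plo_le hI.s_le
  have hb := budget_step hK hCs hI hS hq
  rw [← hn] at hb
  unfold cost at hcost ⊢
  rw [hcdead, hcplo, childDead, List.map_append, List.sum_append, List.map_map] at hcost
  simp only [Function.comp_def] at hcost
  rw [show (fun i => x.a i + vsum v Q i) = (fun i => (child q).a i + vsum v Q' i) from funext hvec,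
    hsplit]
  by_cases hnp : x.np = 0
  · have : blockSq (fun i => (child q).a i + vsum v Q' i) x.plo x.s = 0 := by
      rw [hI.np_zero hnp, blockSq_self]
    simp only [hnp, if_true, List.map_nil, List.sum_nil, add_zero] at hcost hb
    linarith
  · simp only [hnp, if_false, List.map_cons, List.map_nil, List.sum_cons, List.sum_nil, add_zero]
      at hcost hb
    have := pend_bound hv (child q) Q' x.plo x.s n (α' ⟨x.plo, x.s, 0, n⟩) (hα' _).1 (hα' _).2
    linarith

/-- When every retired block is old, any order is good. -/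
lemma good_base (hK : K.Ok P Cs A η Cη) (hI : Inv P lam v x) {A0 : ℕ}
    (hA0 : ∀ w i, v w i ≠ 0 → (1 / 2 : ℝ) ^ A0 < v w i ^ 2) (hs : x.s = d) (hnp : x.np = 0)
    (hage : ∀ G ∈ x.dead, A0 ≤ G.age) : Good K P v x := by
  refine ⟨x.W.toList, x.W.nodup_toList, x.W.toList_toFinset, fun k => ⟨fun _ => 0,
    fun _ => ⟨le_rfl, zero_le_one⟩, ?_⟩⟩
  refine le_of_eq_of_le ?_ (budget_nonneg hK hI)
  unfold cost
  rw [hI.np_zero hnp, hs, blockSq_self, add_zero]
  refine List.sum_eq_zero fun b hb => ?_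
  obtain ⟨G, hG, rfl⟩ := List.mem_map.1 hb
  have hz : ∀ (S : Finset (Fin N)) (i : Fin d), G.lo ≤ i.val ∧ i.val < G.hi →
      vsum v (act v G S) i = 0 := by
    intro S i hi
    refine sum_eq_zero fun w hw => ?_
    by_contra hne
    have h1 := (mem_filter.1 hw).2
    have h2 : v w i ^ 2 ≤ blockSq (v w) G.lo G.hi :=
      single_le_sum (f := fun j => v w j ^ 2) (fun j _ => sq_nonneg _)
        (mem_filter.2 ⟨mem_univ i, hi⟩)
    have h3 : (1 / 2 : ℝ) ^ G.age ≤ (1 / 2 : ℝ) ^ A0 :=
      pow_le_pow_of_le_one (by norm_num) (by norm_num) (hage G hG)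
    have := hA0 w i hne
    linarith
  refine mul_eq_zero_of_right _ ?_
  simp only [devSq, blockSq]
  refine sum_eq_zero fun i hi => ?_
  have := (mem_filter.1 hi).2
  simp [hz _ i this]

lemma rec_one_le_load (hbase : 1 ≤ P.base) (r : ℕ) : 1 ≤ load P v x r := by
  unfold load; omega

/-- With small eigenvalues something retires. -/
lemma retire_pos (hbase : 1 ≤ P.base) {M0 : ℕ} (hM0 : ∀ i, lam i < (2 : ℝ) ^ M0) (hs : x.s < d)
    (hm : M0 ≤ x.m) : 1 ≤ retire P lam v x := by
  classical
  have hr : Ready P lam v x (d - x.s) := by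
    refine ⟨by omega, by omega, ?_⟩
    have h1 : lam ⟨x.s + (d - x.s) - 1, by omega⟩ / 2 ^ x.m < 1 := by
      rw [div_lt_one (by positivity)]
      exact lt_of_lt_of_le (hM0 _) (pow_le_pow_right₀ (by norm_num) hm)
    have h2 : (1 : ℝ) ≤ (load P v x (d - x.s) : ℝ) := by
      exact_mod_cast rec_one_le_load hbase _
    have h3 : (1 : ℝ) ≤ (2 : ℝ) ^ (x.np + extra (load P v x (d - x.s)) + 1) :=
      one_le_pow₀ (by norm_num)
    exact lt_of_lt_of_le h1 (one_le_mul_of_one_le_of_one_le h3 (one_le_pow₀ h2))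
  exact le_trans (by omega) (Nat.le_findGreatest le_rfl hr)

lemma rec_newPend_zero (h : retire P lam v x = 0) : newPend P lam v x = 0 := by
  simp [newPend, h]

/-- Every node satisfying the invariant is good. -/
lemma good_all (hK : K.Ok P Cs A η Cη) (hCs : 0 ≤ Cs) (hbase : 1 ≤ P.base)
    (hv : ∀ w, ∑ i, v w i ^ 2 ≤ 1)
    (hstep : ∀ x : Node d N, Inv P lam v x → ∃ child, StepData P Cs lam v x child)
    {M0 A0 : ℕ} (hM0 : ∀ i, lam i < (2 : ℝ) ^ M0)
    (hA0 : ∀ w i, v w i ≠ 0 → (1 / 2 : ℝ) ^ A0 < v w i ^ 2) :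
    ∀ r (x : Node d N), d - x.s = r → Inv P lam v x → Good K P v x := by
  intro r
  induction r using Nat.strong_induction_on with
  | _ r ih =>
  have hfuel : ∀ j (x : Node d N), d - x.s = r → Inv P lam v x → x.np = 0 → M0 ≤ x.m + j →
      (∀ G ∈ x.dead, A0 ≤ G.age + j) → Good K P v x := by
    intro j
    induction j with
    | zero =>
      intro x hr hI hnp hm hage
      by_cases hs : x.s = d
      · exact good_base hK hI hA0 hs hnp (by simpa using hage)
      · obtain ⟨child, hS⟩ := hstep x hI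
        refine good_step hK hCs hv hI hS fun q hq => ?_
        have := hI.s_le
        have hk := retire_pos (P := P) (v := v) (x := x) hbase hM0 (by omega) (by simpa using hm)
        refine ih _ ?_ _ rfl (hS.inv q hq)
        rw [(hS.shape q hq).2.1]; omega
    | succ j ihj =>
      intro x hr hI hnp hm hage
      obtain ⟨child, hS⟩ := hstep x hI
      refine good_step hK hCs hv hI hS fun q hq => ?_
      obtain ⟨hcm, hcs, -, hcnp, hcdead⟩ := hS.shape q hq
      have hn1 : 1 ≤ halvings P lam v x := halvings_pos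
      have := retire_le (P := P) (lam := lam) (v := v) (x := x)
      by_cases hk : retire P lam v x = 0
      · refine ihj _ (by omega) (hS.inv q hq) (by rw [hcnp, rec_newPend_zero hk]) (by omega) ?_
        intro G hG
        rw [hcdead, childDead, if_pos hnp, List.append_nil, List.mem_map] at hG
        obtain ⟨G0, hG0, rfl⟩ := hG
        have := hage G0 hG0
        simp only
        omega
      · exact ih _ (by omega) _ rfl (hS.inv q hq)
  intro x hr hI
  obtain ⟨child, hS⟩ := hstep x hI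
  refine good_step hK hCs hv hI hS fun q hq => ?_
  obtain ⟨-, hcs, -, hcnp, -⟩ := hS.shape q hq
  have := retire_le (P := P) (lam := lam) (v := v) (x := x)
  by_cases hk : retire P lam v x = 0
  · exact hfuel (M0 + A0) _ (by omega) (hS.inv q hq) (by rw [hcnp, rec_newPend_zero hk]) (by omega)
      fun G _ => by omega
  · exact ih _ (by omega) _ rfl (hS.inv q hq)

lemma excess_zero {F : ℝ} (hF : 0 ≤ F) (s : ℕ) {x : Fin d → ℝ} (hx : ∀ i, x i = 0) :
    excess F s x = 0 := by
  refine le_antisymm (Finset.sup'_le _ _ fun j hj => ?_) (excess_nonneg _ _ _)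
  have h1 : (s : ℝ) ≤ j := by exact_mod_cast (mem_Icc.1 hj).1
  have h2 : blockSq x s j = 0 := sum_eq_zero fun i _ => by simp [hx i]
  have h3 := mul_nonneg hF (show (0 : ℝ) ≤ (j : ℝ) - s by linarith)
  linarith

/-- T2. -/
theorem diagBound (h : StepLemma) : DiagBound := by
  obtain ⟨P, Cs, hCs, hbase, hC0, _hcA, hF0, hstep⟩ := h
  obtain ⟨K, A, η, Cη, hK⟩ := exists_coef P Cs hCs hF0
  refine ⟨K.F1, fun d N lam v hmono hlam hv hgram hsum => ?_⟩
  obtain ⟨M0, hM0⟩ : ∃ M0 : ℕ, ∀ i, lam i < (2 : ℝ) ^ M0 := by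
    obtain ⟨M0, hM0⟩ := pow_unbounded_of_one_lt (∑ i, |lam i|) (show (1 : ℝ) < 2 by norm_num)
    exact ⟨M0, fun i => lt_of_le_of_lt ((le_abs_self _).trans
      (single_le_sum (fun j _ => abs_nonneg (lam j)) (mem_univ i))) hM0⟩
  obtain ⟨A0, hA0⟩ : ∃ A0 : ℕ, ∀ w i, v w i ≠ 0 → (1 / 2 : ℝ) ^ A0 < v w i ^ 2 := by
    have : ∀ p : Fin N × Fin d, ∀ᶠ A0 : ℕ in Filter.atTop,
        v p.1 p.2 ≠ 0 → (1 / 2 : ℝ) ^ A0 < v p.1 p.2 ^ 2 := by
      intro p
      by_cases hp : v p.1 p.2 = 0
      · exact Filter.Eventually.of_forall fun _ h => absurd hp h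
      · filter_upwards [(tendsto_pow_atTop_nhds_zero_of_lt_one (show (0 : ℝ) ≤ 1 / 2 by norm_num)
          (by norm_num)).eventually (gt_mem_nhds (pow_two_pos_of_ne_zero hp))] with A0 hA _
        exact hA
    obtain ⟨A0, hA0⟩ := (Filter.eventually_all.2 this).exists
    exact ⟨A0, fun w i => hA0 (w, i)⟩
  set x : Node d N := ⟨univ, fun _ => 0, 0, 0, 0, 0, []⟩ with hx
  have hI : Inv P lam v x := by
    refine ⟨Nat.zero_le _, le_rfl, fun _ => rfl, fun h => absurd rfl h, ?_, ?_, by simp [hx],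
      List.Pairwise.nil, by simp [hx]⟩
    · intro l m _ _
      simp only [hx, hgram, pow_zero, div_one, sub_self, abs_zero]
      positivity
    · simp [hx, blockSq_self]
  obtain ⟨l, hnd, hlW, hl⟩ := good_all hK hCs hbase hv (fun y hy => hstep d N lam v hmono hlam hv y hy)
    hM0 hA0 d x (by simp [hx]) hI
  have hmem : ∀ w, w ∈ l := fun w => by rw [← List.mem_toFinset, hlW]; simp [hx]
  have hlen : l.length = N := by
    have := List.toFinset_card_of_nodup hnd
    rw [hlW] at this
    simpa [hx] using this.symm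
  let π : Equiv.Perm (Fin N) := (finCongr hlen.symm).trans (List.Nodup.getEquivOfForallMemList l hnd hmem)
  refine ⟨π, fun k => ?_⟩
  obtain ⟨α, -, hc⟩ := hl k
  have hsum' : ∀ i, ∑ j ∈ univ.filter (fun j : Fin N => j.val < k), v (π j) i =
      vsum v (l.take k).toFinset i := by
    intro i
    have e : (univ.filter (fun j : Fin N => j.val < k)).map π.toEmbedding = (l.take k).toFinset := by
      ext w
      simp only [mem_map, mem_filter, mem_univ, true_and, List.mem_toFinset,
        List.mem_take_iff_getElem, Equiv.coe_toEmbedding]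
      constructor
      · rintro ⟨j, hj, rfl⟩
        exact ⟨j.val, by omega, rfl⟩
      · rintro ⟨j, hj, rfl⟩
        exact ⟨⟨j, by omega⟩, by simp only; omega, rfl⟩
    rw [vsum, ← e, sum_map]
    rfl
  simp only [hsum']
  have hb : budget K P v x = K.F1 * d := by
    simp [budget, hx, excess_zero hF0, Node.b, vsum, hsum]
  rw [hb] at hc
  refine le_of_eq_of_le ?_ hc
  simp [cost, hx, blockSq]

end Vale.Agent.P262.S2
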