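import Mathlib
import Vale.Agent.P262.S2.Interface

/-! Diagonalising the second moments. -/

namespace Vale.Agent.P262.S2

open Finset
open scoped RealInnerProductSpace

theorem steinitzBound_of_diagBound (h : DiagBound) : SteinitzBound := by
  obtain ⟨C, hC⟩ := h
  refine ⟨Real.sqrt C, fun d N v hv hsum => ?_⟩
  let T : EuclideanSpace ℝ (Fin d) →ₗ[ℝ] EuclideanSpace ℝ (Fin d) :=
    ∑ w, ((innerₗ (EuclideanSpace ℝ (Fin d))) (v w)).smulRight (v w)
  have hTapp : ∀ x y, ⟪T x, y⟫ = ∑ w, ⟪v w, x⟫ * ⟪v w, y⟫ := by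
    intro x y
    simp [T, LinearMap.sum_apply, sum_inner, real_inner_smul_left]
  have hT : T.IsSymmetric := by
    intro x y
    rw [hTapp, real_inner_comm (T y) x, hTapp]
    exact sum_congr rfl fun w _ => mul_comm _ _
  have hn : Module.finrank ℝ (EuclideanSpace ℝ (Fin d)) = d := finrank_euclideanSpace_fin
  set b := hT.eigenvectorBasis hn with hb
  let lam : Fin d → ℝ := fun i => hT.eigenvalues hn (Fin.rev i)
  let v' : Fin N → Fin d → ℝ := fun w i => ⟪b (Fin.rev i), v w⟫
  have hgram : ∀ l m, gram v' univ l m = if l = m then lam l else 0 := by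
    intro l m
    have : gram v' univ l m = ⟪T (b (Fin.rev l)), b (Fin.rev m)⟫ := by
      rw [hTapp]
      exact sum_congr rfl fun w _ => by simp [v', real_inner_comm]
    rw [this, hb, hT.apply_eigenvectorBasis, inner_smul_left, orthonormal_iff_ite.1 b.orthonormal]
    simp [lam, Fin.rev_inj]
  have hsq : ∀ x : EuclideanSpace ℝ (Fin d), ∑ i, ⟪b (Fin.rev i), x⟫ ^ 2 = ‖x‖ ^ 2 := by
    intro x
    rw [← b.sum_sq_norm_inner_right x, ← Equiv.sum_comp Fin.revPerm (fun i => ‖⟪b i, x⟫‖ ^ 2)]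
    simp
  obtain ⟨π, hπ⟩ := hC d N lam v' (fun i j hij => hT.eigenvalues_antitone hn (Fin.rev_le_rev.2 hij))
    (fun i => by
      have e := hgram i i
      rw [if_pos rfl] at e
      rw [← e]
      exact sum_nonneg fun w _ => mul_self_nonneg _)
    (fun w => by
      rw [hsq]
      exact pow_le_one₀ (norm_nonneg _) (hv w))
    hgram
    (fun i => by simp [v', ← inner_sum, hsum])
  refine ⟨π, fun k => ?_⟩
  have e : ∑ i, (∑ j ∈ univ.filter (fun j : Fin N => j.val < k), v' (π j) i) ^ 2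
      = ‖∑ j ∈ univ.filter (fun j : Fin N => j.val < k), v (π j)‖ ^ 2 := by
    rw [← hsq]
    simp only [v', inner_sum]
  have hk := hπ k
  rw [e] at hk
  rcases Nat.eq_zero_or_pos d with rfl | hd
  · simp [Subsingleton.elim (∑ i ∈ univ.filter (fun i : Fin N => i.val < k), v (π i)) 0]
  have hdR : (0 : ℝ) < d := by exact_mod_cast hd
  have hC0 : 0 ≤ C := by
    by_contra hc
    nlinarith [sq_nonneg ‖∑ j ∈ univ.filter (fun j : Fin N => j.val < k), v (π j)‖]
  rw [← Real.sqrt_mul hC0]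
  exact Real.le_sqrt_of_sq_le hk

end Vale.Agent.P262.S2
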