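import Mathlib
import Vale.Agent.P262.S2.Defs
import Vale.Agent.P347.GaussExp

/-! Coordinate bodies: convexity, compactness and the Gaussian tail. -/

namespace Vale.Agent.P262.S2

open MeasureTheory ProbabilityTheory Finset

variable {ι : Type} [Fintype ι]

/-- The body as a set of points. -/
def Body.set (B : Body ι) : Set (EuclideanSpace ℝ ι) :=
  {z | ∀ j, ∑ i ∈ B.blk j, z i ^ 2 ≤ B.rad j ^ 2}

instance : IsProbabilityMeasure (gauss ι) := by unfold gauss; infer_instance

omit [Fintype ι] in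
lemma Body.isClosed_set (B : Body ι) : IsClosed B.set := by
  simp only [Body.set, Set.ofPred_forall]
  exact isClosed_iInter fun j => isClosed_le (by fun_prop) continuous_const

omit [Fintype ι] in
lemma Body.convex_set (B : Body ι) : Convex ℝ B.set := by
  intro x hx y hy a b ha hb hab j
  calc ∑ i ∈ B.blk j, (a • x + b • y) i ^ 2
      ≤ ∑ i ∈ B.blk j, (a * x i ^ 2 + b * y i ^ 2) := by
        refine sum_le_sum fun i _ => ?_
        simp only [PiLp.add_apply, PiLp.smul_apply, smul_eq_mul]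
        have hb1 : b = 1 - a := by linarith
        subst hb1
        nlinarith [mul_nonneg (mul_nonneg ha hb) (sq_nonneg (x i - y i))]
    _ = a * ∑ i ∈ B.blk j, x i ^ 2 + b * ∑ i ∈ B.blk j, y i ^ 2 := by
        rw [sum_add_distrib, mul_sum, mul_sum]
    _ ≤ a * B.rad j ^ 2 + b * B.rad j ^ 2 :=
        add_le_add (mul_le_mul_of_nonneg_left (hx j) ha) (mul_le_mul_of_nonneg_left (hy j) hb)
    _ = B.rad j ^ 2 := by rw [← add_mul, hab, one_mul]

omit [Fintype ι] in
lemma Body.neg_mem_set (B : Body ι) {z : EuclideanSpace ℝ ι} (hz : z ∈ B.set) : -z ∈ B.set := by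
  intro j; simpa using hz j

/-- The body with one more block: everything, with radius `R`. -/
def Body.bound (B : Body ι) (R : ℝ) : Body ι where
  num := B.num + 1
  blk := Fin.cons Finset.univ B.blk
  rad := Fin.cons R B.rad

lemma Body.bound_subset (B : Body ι) (R : ℝ) : (B.bound R).set ⊆ B.set := by
  intro z hz j
  simpa [Body.bound] using hz j.succ

lemma Body.isCompact_bound (B : Body ι) (R : ℝ) : IsCompact (B.bound R).set := by
  refine Metric.isCompact_of_isClosed_isBounded (Body.isClosed_set _)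
    ((Metric.isBounded_closedBall (x := (0 : EuclideanSpace ℝ ι)) (r := |R|)).subset ?_)
  intro z hz
  have h := hz (0 : Fin (B.num + 1))
  simp only [Body.bound, Fin.cons_zero] at h
  rw [Metric.mem_closedBall, dist_zero_right, ← abs_norm]
  exact sq_le_sq.1 (by rwa [EuclideanSpace.real_norm_sq_eq])

lemma Body.tail_bound (B : Body ι) (R : ℝ) :
    (B.bound R).tail = 2 ^ Fintype.card ι * Real.exp (-R ^ 2 / 4) + B.tail := by
  change ∑ j : Fin (B.num + 1), _ = _
  rw [Fin.sum_univ_succ]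
  simp [Body.bound, Body.tail]

lemma lintegral_exp_block (S : Finset ι) :
    ∫⁻ z, ENNReal.ofReal (Real.exp ((1 / 4) * ∑ i ∈ S, z i ^ 2)) ∂gauss ι
      = ENNReal.ofReal (Real.sqrt 2) ^ S.card := by
  rw [gauss, ← map_pi_eq_stdGaussian, lintegral_map (by fun_prop) (by fun_prop)]
  simp only [Finset.mul_sum, Real.exp_sum,
    ENNReal.ofReal_prod_of_nonneg fun i _ => (Real.exp_pos _).le]
  rw [lintegral_prod_eq_prod_lintegral_of_indepFun S
    (fun i (x : ι → ℝ) => ENNReal.ofReal (Real.exp ((1 / 4) * x i ^ 2)))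
    (iIndepFun_pi (X := fun _ t => ENNReal.ofReal (Real.exp ((1 / 4) * t ^ 2))) fun _ => by fun_prop)
    fun i => by fun_prop]
  have hev : ∀ i : ι, ∫⁻ x, ENNReal.ofReal (Real.exp ((1 / 4) * x i ^ 2))
        ∂(Measure.pi fun _ : ι => gaussianReal 0 1) = ENNReal.ofReal (Real.sqrt 2) := fun i => by
    rw [(measurePreserving_eval (fun _ => gaussianReal 0 1) i).lintegral_comp
      (f := fun t => ENNReal.ofReal (Real.exp ((1 / 4) * t ^ 2))) (by fun_prop),
      Vale.Agent.P347.lintegral_exp_sq_gaussianReal (by norm_num)]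
    congr 1
    rw [← Real.sqrt_inv]
    norm_num
  simp only [hev, Finset.prod_const]

lemma block_tail (S : Finset ι) (r : ℝ) :
    (gauss ι).real {z | r ^ 2 < ∑ i ∈ S, z i ^ 2} ≤ 2 ^ S.card * Real.exp (-r ^ 2 / 4) := by
  have h := mul_meas_ge_le_lintegral₀ (μ := gauss ι)
    (f := fun z => ENNReal.ofReal (Real.exp ((1 / 4) * ∑ i ∈ S, z i ^ 2))) (by fun_prop)
    (ENNReal.ofReal (Real.exp ((1 / 4) * r ^ 2)))
  rw [lintegral_exp_block] at h
  have hsub : {z : EuclideanSpace ℝ ι | r ^ 2 < ∑ i ∈ S, z i ^ 2} ⊆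
      {z | ENNReal.ofReal (Real.exp ((1 / 4) * r ^ 2)) ≤
        ENNReal.ofReal (Real.exp ((1 / 4) * ∑ i ∈ S, z i ^ 2))} := fun z hz =>
    ENNReal.ofReal_le_ofReal (Real.exp_le_exp.2 (by linarith [show r ^ 2 < _ from hz]))
  have h2 := le_trans (mul_le_mul_right (measure_mono hsub) _) h
  have h3 := ENNReal.toReal_mono (by simp) h2
  rw [ENNReal.toReal_mul, ENNReal.toReal_pow, ENNReal.toReal_ofReal (Real.exp_pos _).le,
    ENNReal.toReal_ofReal (Real.sqrt_nonneg _)] at h3
  have h4 : Real.exp ((1 / 4) * r ^ 2) * Real.exp (-r ^ 2 / 4) = 1 := by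
    rw [← Real.exp_add]; ring_nf; simp
  have h5 : Real.sqrt 2 ^ S.card ≤ (2 : ℝ) ^ S.card :=
    pow_le_pow_left₀ (Real.sqrt_nonneg _) (Real.sqrt_le_iff.2 ⟨by norm_num, by norm_num⟩) _
  change (gauss ι _).toReal ≤ _
  have h6 := mul_le_mul_of_nonneg_right (h3.trans h5) (Real.exp_pos (-r ^ 2 / 4)).le
  rwa [mul_right_comm, h4, one_mul] at h6

lemma Body.one_sub_tail_le (B : Body ι) : 1 - B.tail ≤ (gauss ι).real B.set := by
  have hc : (gauss ι).real B.setᶜ ≤ B.tail := by
    have e : B.setᶜ = ⋃ j, {z : EuclideanSpace ℝ ι | B.rad j ^ 2 < ∑ i ∈ B.blk j, z i ^ 2} := by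
      ext z; simp [Body.set]
    rw [e]
    exact (measureReal_iUnion_fintype_le _).trans (sum_le_sum fun j _ => block_tail _ _)
  rw [probReal_compl_eq_one_sub B.isClosed_set.measurableSet] at hc
  linarith

end Vale.Agent.P262.S2
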