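import Mathlib
import Vale.Agent.P262.S2.Interface
import Vale.Agent.P262.S2.Tail

/-! G2: signs with checkpoints, rounding and balanced parts, from the one-step lemma. -/

namespace Vale.Agent.P262.S2

open MeasureTheory Finset

/-- The one-step lemma with fixed constants. -/
def StarAt (δ₀ ε₀ : ℝ) : Prop :=
  ∀ (ι : Type) [Fintype ι] (K : Set (EuclideanSpace ℝ ι)), Convex ℝ K → IsCompact K →
    (∀ p ∈ K, -p ∈ K) → 1 - ε₀ ≤ (gauss ι).real K →
    ∀ u : EuclideanSpace ℝ ι, ‖u‖ ≤ δ₀ →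
      ∃ K' : Set (EuclideanSpace ℝ ι), Convex ℝ K' ∧ IsCompact K' ∧ (∀ p ∈ K', -p ∈ K') ∧
        (gauss ι).real K ≤ (gauss ι).real K' ∧ ∀ p ∈ K', p + u ∈ K ∨ p - u ∈ K

variable {ι : Type} [Fintype ι] {N : ℕ}

lemma back {δ₀ ε₀ : ℝ} (hs : StarAt δ₀ ε₀) (u : Fin N → EuclideanSpace ℝ ι)
    (hu : ∀ w, ‖u w‖ ≤ δ₀) (P : Finset (Fin N)) :
    ∀ K : Set (EuclideanSpace ℝ ι), Convex ℝ K → IsCompact K → (∀ p ∈ K, -p ∈ K) →
      1 - ε₀ ≤ (gauss ι).real K →
      ∃ K' : Set (EuclideanSpace ℝ ι), Convex ℝ K' ∧ IsCompact K' ∧ (∀ p ∈ K', -p ∈ K') ∧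
        (gauss ι).real K ≤ (gauss ι).real K' ∧
        ∀ p ∈ K', ∃ e : Fin N → ℝ, (∀ w, e w = 1 ∨ e w = -1) ∧ p + ∑ w ∈ P, e w • u w ∈ K := by
  induction P using Finset.induction_on with
  | empty =>
      intro K h1 h2 h3 h4
      exact ⟨K, h1, h2, h3, le_rfl, fun p hp => ⟨fun _ => 1, fun _ => Or.inl rfl, by simpa using hp⟩⟩
  | @insert a s ha ih =>
      intro K h1 h2 h3 h4
      obtain ⟨K₁, a1, a2, a3, a4, a5⟩ := hs ι K h1 h2 h3 h4 (u a) (hu a)
      obtain ⟨K', b1, b2, b3, b4, b5⟩ := ih K₁ a1 a2 a3 (h4.trans a4)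
      refine ⟨K', b1, b2, b3, a4.trans b4, fun p hp => ?_⟩
      obtain ⟨e, he, hm⟩ := b5 p hp
      have key : ∀ c : ℝ, p + ∑ w ∈ insert a s, Function.update e a c w • u w
          = (p + ∑ w ∈ s, e w • u w) + c • u a := by
        intro c
        rw [sum_insert ha, Function.update_self]
        have : ∑ w ∈ s, Function.update e a c w • u w = ∑ w ∈ s, e w • u w :=
          sum_congr rfl fun w hw => by
            rw [Function.update_of_ne (ne_of_mem_of_not_mem hw ha)]
        rw [this]; abel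
      have heu : ∀ c : ℝ, (c = 1 ∨ c = -1) → ∀ w, Function.update e a c w = 1 ∨
          Function.update e a c w = -1 := by
        intro c hc w
        rcases eq_or_ne w a with rfl | h
        · simpa using hc
        · simpa [Function.update_of_ne h] using he w
      rcases a5 _ hm with h | h
      · exact ⟨Function.update e a 1, heu 1 (Or.inl rfl), by simpa [key] using h⟩
      · exact ⟨Function.update e a (-1), heu (-1) (Or.inr rfl),
          by simpa [key, sub_eq_add_neg] using h⟩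

lemma checkpoints {δ₀ ε₀ : ℝ} (hs : StarAt δ₀ ε₀) (hε : ε₀ < 1)
    (u : Fin N → EuclideanSpace ℝ ι) (hu : ∀ w, ‖u w‖ ≤ δ₀)
    (S : Set (EuclideanSpace ℝ ι)) (S1 : Convex ℝ S) (S2 : IsCompact S) (S3 : ∀ p ∈ S, -p ∈ S)
    (τ : ℝ) (hτ : 0 ≤ τ) (S4 : 1 - τ ≤ (gauss ι).real S)
    (M : ℕ) (hM : ((M : ℝ) + 1) * τ ≤ ε₀) (f : Fin N → ℕ) (W : Finset (Fin N)) :
    ∃ e : Fin N → ℝ, (∀ w, e w = 1 ∨ e w = -1) ∧
      ∀ q ≤ M, ∑ w ∈ W.filter (fun w => f w < q), e w • u w ∈ S := by
  have claim : ∀ k, k ≤ M → ∃ K : Set (EuclideanSpace ℝ ι), Convex ℝ K ∧ IsCompact K ∧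
      (∀ p ∈ K, -p ∈ K) ∧ 1 - ((k : ℝ) + 1) * τ ≤ (gauss ι).real K ∧
      ∀ p ∈ K, ∃ e : Fin N → ℝ, (∀ w, e w = 1 ∨ e w = -1) ∧ ∀ q ≤ M, M - k ≤ q →
        p + ∑ w ∈ W.filter (fun w => M - k ≤ f w ∧ f w < q), e w • u w ∈ S := by
    intro k
    induction k with
    | zero =>
        intro _
        refine ⟨S, S1, S2, S3, by simpa using S4, fun p hp => ⟨fun _ => 1, fun _ => Or.inl rfl,
          fun q hq hq' => ?_⟩⟩
        have : W.filter (fun w => M - 0 ≤ f w ∧ f w < q) = ∅ := by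
          refine filter_eq_empty_iff.2 fun w _ => ?_
          omega
        rw [this, sum_empty, add_zero]
        exact hp
    | succ k ih =>
        intro hk
        obtain ⟨K, c1, c2, c3, c4, c5⟩ := ih (by omega)
        have hkM : ((k : ℝ) + 1) ≤ (M : ℝ) + 1 := by
          have : (k : ℝ) ≤ M := by exact_mod_cast (show k ≤ M by omega)
          linarith
        have c4' : 1 - ε₀ ≤ (gauss ι).real K := by nlinarith
        obtain ⟨K', b1, b2, b3, b4, b5⟩ :=
          back hs u hu (W.filter fun w => f w = M - (k + 1)) K c1 c2 c3 c4'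
        refine ⟨K' ∩ S, b1.inter S1, b2.inter S2, fun p hp => ⟨b3 p hp.1, S3 p hp.2⟩, ?_,
          fun p hp => ?_⟩
        · have hu1 := measureReal_union_add_inter (μ := gauss ι) (s := K') S2.measurableSet
          have hu2 : (gauss ι).real (K' ∪ S) ≤ 1 := measureReal_le_one
          push_cast
          nlinarith
        obtain ⟨e₁, he₁, hm₁⟩ := b5 p hp.1
        obtain ⟨e₂, he₂, hm₂⟩ := c5 _ hm₁
        refine ⟨fun w => if f w = M - (k + 1) then e₁ w else e₂ w, fun w => ?_, fun q hq hq' => ?_⟩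
        · dsimp only
          split
          · exact he₁ w
          · exact he₂ w
        rcases eq_or_lt_of_le hq' with h | h
        · have : W.filter (fun w => M - (k + 1) ≤ f w ∧ f w < q) = ∅ := by
            refine filter_eq_empty_iff.2 fun w _ => ?_
            omega
          rw [this, sum_empty, add_zero]
          exact hp.2
        · have hsplit : W.filter (fun w => M - (k + 1) ≤ f w ∧ f w < q)
              = (W.filter fun w => f w = M - (k + 1)) ∪
                W.filter (fun w => M - k ≤ f w ∧ f w < q) := by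
            ext w; simp only [mem_filter, mem_union]; constructor
            · rintro ⟨hw, h1, h2⟩
              by_cases h3 : f w = M - (k + 1)
              · exact Or.inl ⟨hw, h3⟩
              · exact Or.inr ⟨hw, by omega, h2⟩
            · rintro (⟨hw, h1⟩ | ⟨hw, h1, h2⟩) <;> exact ⟨hw, by omega, by omega⟩
          have hdisj : Disjoint (W.filter fun w => f w = M - (k + 1))
              (W.filter (fun w => M - k ≤ f w ∧ f w < q)) := by
            rw [disjoint_left]; intro w; simp only [mem_filter]; omega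
          rw [hsplit, sum_union hdisj, ← add_assoc]
          have e1 : ∑ w ∈ W.filter (fun w => f w = M - (k + 1)),
              (if f w = M - (k + 1) then e₁ w else e₂ w) • u w
              = ∑ w ∈ W.filter (fun w => f w = M - (k + 1)), e₁ w • u w :=
            sum_congr rfl fun w hw => by rw [if_pos (mem_filter.1 hw).2]
          have e2 : ∑ w ∈ W.filter (fun w => M - k ≤ f w ∧ f w < q),
              (if f w = M - (k + 1) then e₁ w else e₂ w) • u w
              = ∑ w ∈ W.filter (fun w => M - k ≤ f w ∧ f w < q), e₂ w • u w :=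
            sum_congr rfl fun w hw => by
              rw [if_neg]; have := (mem_filter.1 hw).2; omega
          rw [e1, e2]
          exact hm₂ q hq (by omega)
  obtain ⟨K, c1, c2, c3, c4, c5⟩ := claim M le_rfl
  have hne : K.Nonempty := by
    rcases K.eq_empty_or_nonempty with rfl | h
    · simp at c4; linarith
    · exact h
  obtain ⟨x, hx⟩ := hne
  have h0 : (0 : EuclideanSpace ℝ ι) ∈ K := by
    have := c1 hx (c3 x hx) (show (0 : ℝ) ≤ 1 / 2 by norm_num) (show (0 : ℝ) ≤ 1 / 2 by norm_num)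
      (by norm_num)
    simpa using this
  obtain ⟨e, he, hm⟩ := c5 0 h0
  refine ⟨e, he, fun q hq => ?_⟩
  have := hm q hq (by omega)
  simpa using this

omit [Fintype ι] in
lemma Body.Mem.add {B : Body ι} (hB : B.Pos) {a b : ℝ} (ha : 0 ≤ a) (hb : 0 ≤ b) {y z : ι → ℝ}
    (hy : B.Mem a y) (hz : B.Mem b z) : B.Mem (a + b) (fun i => y i + z i) := by
  intro j
  have hr := (hB j).le
  have h := sum_mul_sq_le_sq_mul_sq (B.blk j) y z
  have h2 : (∑ i ∈ B.blk j, y i * z i) ^ 2 ≤ (a * B.rad j * (b * B.rad j)) ^ 2 := by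
    rw [mul_pow]
    exact h.trans (mul_le_mul (hy j) (hz j) (sum_nonneg fun _ _ => sq_nonneg _) (sq_nonneg _))
  have h3 := (abs_le.1 (abs_le_of_sq_le_sq h2 (by positivity))).2
  have e : ∑ i ∈ B.blk j, (y i + z i) ^ 2
      = ∑ i ∈ B.blk j, y i ^ 2 + ∑ i ∈ B.blk j, z i ^ 2 + 2 * ∑ i ∈ B.blk j, y i * z i := by
    rw [mul_sum, ← sum_add_distrib, ← sum_add_distrib]
    exact sum_congr rfl fun i _ => by ring
  nlinarith [hy j, hz j]

omit [Fintype ι] in
lemma Body.Mem.smul {B : Body ι} {a : ℝ} (c : ℝ) {y : ι → ℝ} (hy : B.Mem a y) :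
    B.Mem (c * a) (fun i => c * y i) := by
  intro j
  simp only [mul_pow, ← mul_sum]
  calc c ^ 2 * ∑ i ∈ B.blk j, y i ^ 2 ≤ c ^ 2 * (a * B.rad j) ^ 2 :=
        mul_le_mul_of_nonneg_left (hy j) (sq_nonneg c)
    _ = c ^ 2 * a ^ 2 * B.rad j ^ 2 := by ring

omit [Fintype ι] in
lemma Body.Mem.mono {B : Body ι} (hB : B.Pos) {a b : ℝ} (ha : 0 ≤ a) (hab : a ≤ b) {y : ι → ℝ}
    (hy : B.Mem a y) : B.Mem b y := fun j =>
  (hy j).trans (pow_le_pow_left₀ (mul_nonneg ha (hB j).le)
    (mul_le_mul_of_nonneg_right hab (hB j).le) 2)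

/-- Signs with checkpoints. -/
lemma signs {δ₀ ε₀ : ℝ} (hs : StarAt δ₀ ε₀) (hδ : 0 < δ₀) (hε : 0 < ε₀) (hε1 : ε₀ < 1)
    (v : Fin N → ι → ℝ) (hv : ∀ w, ∑ i, v w i ^ 2 ≤ 1) (B : Body ι) (M : ℕ)
    (hM : ((M : ℝ) + 1) * B.tail ≤ ε₀ / 2) (f : Fin N → ℕ) (W : Finset (Fin N)) :
    ∃ e : Fin N → ℝ, (∀ w, e w = 1 ∨ e w = -1) ∧
      ∀ q ≤ M, B.Mem δ₀⁻¹ (fun i => ∑ w ∈ W.filter (fun w => f w < q), e w * v w i) := by
  have hT0 : 0 ≤ B.tail := sum_nonneg fun _ _ => mul_nonneg (by positivity) (Real.exp_pos _).le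
  set a : ℝ := ε₀ / (2 * ((M : ℝ) + 1) * 2 ^ Fintype.card ι) with ha
  have ha0 : 0 < a := by positivity
  obtain ⟨R, hR⟩ : ∃ R : ℝ, Real.exp (-R ^ 2 / 4) ≤ a := by
    refine ⟨2 * Real.sqrt |Real.log a|, ?_⟩
    rw [show -(2 * Real.sqrt |Real.log a|) ^ 2 / 4 = -|Real.log a| by
      rw [mul_pow, Real.sq_sqrt (abs_nonneg _)]; ring]
    calc Real.exp (-|Real.log a|) ≤ Real.exp (Real.log a) :=
          Real.exp_le_exp.2 (neg_abs_le _)
      _ = a := Real.exp_log ha0
  have hτ : ((M : ℝ) + 1) * (B.bound R).tail ≤ ε₀ := by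
    rw [Body.tail_bound, mul_add]
    have h2 := mul_le_mul_of_nonneg_left hR (show (0 : ℝ) ≤ ((M : ℝ) + 1) * 2 ^ Fintype.card ι by positivity)
    have h3 : ((M : ℝ) + 1) * 2 ^ Fintype.card ι * a = ε₀ / 2 := by rw [ha]; field_simp
    linarith [h2.trans_eq h3, mul_assoc ((M : ℝ) + 1) (2 ^ Fintype.card ι) (Real.exp (-R ^ 2 / 4))]
  obtain ⟨e, he, hm⟩ := checkpoints hs hε1 (fun w => δ₀ • WithLp.toLp 2 (v w)) (fun w => by
      rw [norm_smul, Real.norm_eq_abs, abs_of_pos hδ]
      refine mul_le_of_le_one_right hδ.le ?_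
      rw [← sq_le_one_iff₀ (norm_nonneg _), EuclideanSpace.real_norm_sq_eq]
      exact hv w)
    (B.bound R).set (Body.convex_set _) (B.isCompact_bound R) (fun _ h => Body.neg_mem_set _ h)
    (B.bound R).tail (sum_nonneg fun _ _ => mul_nonneg (by positivity) (Real.exp_pos _).le)
    (Body.one_sub_tail_le _) M hτ f W
  refine ⟨e, he, fun q hq j => ?_⟩
  have h := B.bound_subset R (hm q hq) j
  simp only [WithLp.ofLp_sum, Finset.sum_apply, PiLp.smul_apply, smul_eq_mul] at h
  have e1 : ∀ i, ∑ w ∈ W.filter (fun w => f w < q), e w * (δ₀ * v w i)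
      = δ₀ * ∑ w ∈ W.filter (fun w => f w < q), e w * v w i := fun i => by
    rw [mul_sum]; exact sum_congr rfl fun w _ => by ring
  simp only [e1, mul_pow, ← mul_sum] at h
  rw [mul_pow, inv_pow, inv_mul_eq_div, le_div_iff₀ (by positivity)]
  linarith

omit [Fintype ι] in
lemma Body.Mem.zero {B : Body ι} {a : ℝ} : B.Mem a (fun _ => (0 : ℝ)) := fun j => by
  simpa using sq_nonneg (a * B.rad j)

section cut

variable {δ₀ ε₀ : ℝ} (hs : StarAt δ₀ ε₀) (hδ : 0 < δ₀) (hε : 0 < ε₀) (hε1 : ε₀ < 1)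
  (v : Fin N → ι → ℝ) (hv : ∀ w, ∑ i, v w i ^ 2 ≤ 1) (B : Body ι) (hB : B.Pos)
  (hT : B.tail ≤ ε₀ / 4) (W : Finset (Fin N))

include hs hδ hε hε1 hv hB hT

lemma cut_dyadic (J : ℕ) : ∀ a : Fin N → ℕ, (∀ w ∈ W, a w ≤ 2 ^ J) →
    ∃ L : Finset (Fin N), L ⊆ W ∧ B.Mem ((1 - ((2 : ℝ) ^ J)⁻¹) * δ₀⁻¹)
      (fun i => ∑ w ∈ L, v w i - ∑ w ∈ W, ((a w : ℝ) / 2 ^ J) * v w i) := by
  induction J with
  | zero =>
      intro a ha
      refine ⟨W.filter (fun w => a w = 1), filter_subset _ _, ?_⟩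
      have : (fun i => ∑ w ∈ W.filter (fun w => a w = 1), v w i -
          ∑ w ∈ W, ((a w : ℝ) / 2 ^ 0) * v w i) = fun _ => (0 : ℝ) := by
        funext i
        rw [sum_filter, ← sum_sub_distrib]
        refine sum_eq_zero fun w hw => ?_
        have : a w = 0 ∨ a w = 1 := by have := ha w hw; simp at this; omega
        rcases this with h | h <;> simp [h]
      rw [this]
      exact Body.Mem.zero
  | succ J ih =>
      intro a ha
      obtain ⟨e, he, hm⟩ := signs hs hδ hε hε1 v hv B 1 (by norm_num; linarith) (fun _ => 0)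
        (W.filter fun w => a w % 2 = 1)
      let a' : Fin N → ℕ := fun w =>
        if a w % 2 = 1 then (if e w = 1 then (a w + 1) / 2 else (a w - 1) / 2) else a w / 2
      obtain ⟨L, hL, hLm⟩ := ih a' (fun w hw => by
        have h1 := ha w hw
        rw [pow_succ] at h1
        simp only [a']
        split <;> [split; skip] <;> omega)
      refine ⟨L, hL, ?_⟩
      have h1 := (hm 1 le_rfl).smul (((2 : ℝ) ^ (J + 1))⁻¹)
      simp only [Nat.lt_one_iff, filter_true_of_mem, implies_true] at h1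
      have key : ∀ i, ∑ w ∈ L, v w i - ∑ w ∈ W, ((a w : ℝ) / 2 ^ (J + 1)) * v w i
          = (∑ w ∈ L, v w i - ∑ w ∈ W, ((a' w : ℝ) / 2 ^ J) * v w i) +
            ((2 : ℝ) ^ (J + 1))⁻¹ * ∑ w ∈ W.filter (fun w => a w % 2 = 1), e w * v w i := by
        intro i
        rw [mul_sum, sum_filter, sub_add, ← sum_sub_distrib]
        congr 1
        refine sum_congr rfl fun w _ => ?_
        simp only [a']
        by_cases h : a w % 2 = 1
        · obtain ⟨k, hk⟩ : ∃ k, a w = 2 * k + 1 := ⟨a w / 2, by omega⟩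
          rcases he w with h' | h'
          · rw [if_pos h, if_pos h', if_pos h, h', hk, show (2 * k + 1 + 1) / 2 = k + 1 by omega]
            push_cast
            field_simp
            ring
          · rw [if_pos h, if_neg (by rw [h']; norm_num), if_pos h, h', hk,
              show (2 * k + 1 - 1) / 2 = k by omega]
            push_cast
            field_simp
            ring
        · obtain ⟨k, hk⟩ : ∃ k, a w = 2 * k := ⟨a w / 2, by omega⟩
          rw [if_neg h, if_neg h, hk, show (2 * k) / 2 = k by omega]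
          push_cast
          field_simp
          ring
      simp only [key]
      have hδi : 0 ≤ δ₀⁻¹ := inv_nonneg.2 hδ.le
      have hp : (0 : ℝ) ≤ 1 - ((2 : ℝ) ^ J)⁻¹ :=
        sub_nonneg.2 (inv_le_one_of_one_le₀ (one_le_pow₀ (by norm_num)))
      convert Body.Mem.add hB (mul_nonneg hp hδi) (mul_nonneg (by positivity) hδi) hLm h1 using 1
      rw [pow_succ, mul_inv]
      ring

lemma cut_real (x : Fin N → ℝ) (hx : ∀ w ∈ W, 0 ≤ x w ∧ x w ≤ 1) :
    ∃ L : Finset (Fin N), L ⊆ W ∧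
      B.Mem (2 * δ₀⁻¹) (fun i => ∑ w ∈ L, v w i - ∑ w ∈ W, x w * v w i) := by
  have hinv : ∀ j, 0 ≤ (B.rad j)⁻¹ := fun j => inv_nonneg.2 (hB j).le
  set r : ℝ := 1 + ∑ j, (B.rad j)⁻¹ with hr
  have hr0 : 0 < r := by have := sum_nonneg (s := univ) fun j (_ : j ∈ univ) => hinv j; linarith
  obtain ⟨J, hJ⟩ := pow_unbounded_of_one_lt ((N : ℝ) * δ₀ * r) (show (1 : ℝ) < 2 by norm_num)
  let a : Fin N → ℕ := fun w => ⌊x w * 2 ^ J⌋₊
  obtain ⟨L, hL, hm⟩ := cut_dyadic hs hδ hε hε1 v hv B hB hT W J a (fun w hw => by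
    refine Nat.floor_le_of_le ?_
    push_cast
    exact mul_le_of_le_one_left (by positivity) (hx w hw).2)
  refine ⟨L, hL, ?_⟩
  have herr : B.Mem δ₀⁻¹ (fun i => ∑ w ∈ W, ((a w : ℝ) / 2 ^ J - x w) * v w i) := by
    intro j
    have hb : ∀ w ∈ W, ((a w : ℝ) / 2 ^ J - x w) ^ 2 ≤ (((2 : ℝ) ^ J)⁻¹) ^ 2 := by
      intro w hw
      have h1 : (a w : ℝ) ≤ x w * 2 ^ J := Nat.floor_le (mul_nonneg (hx w hw).1 (by positivity))
      have h2 : x w * 2 ^ J < a w + 1 := Nat.lt_floor_add_one _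
      rw [div_sub' (by positivity), div_pow, inv_pow, ← one_div]
      gcongr
      nlinarith
    calc ∑ i ∈ B.blk j, (∑ w ∈ W, ((a w : ℝ) / 2 ^ J - x w) * v w i) ^ 2
        ≤ ∑ i ∈ B.blk j, (∑ w ∈ W, ((a w : ℝ) / 2 ^ J - x w) ^ 2) * ∑ w ∈ W, v w i ^ 2 :=
          sum_le_sum fun i _ => sum_mul_sq_le_sq_mul_sq _ _ _
      _ = (∑ w ∈ W, ((a w : ℝ) / 2 ^ J - x w) ^ 2) * ∑ w ∈ W, ∑ i ∈ B.blk j, v w i ^ 2 := by
          rw [← mul_sum, Finset.sum_comm]
      _ ≤ ((N : ℝ) * (((2 : ℝ) ^ J)⁻¹) ^ 2) * N := by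
          have hc : (W.card : ℝ) ≤ N := by exact_mod_cast card_finset_fin_le W
          refine mul_le_mul ((sum_le_sum hb).trans ?_) ((sum_le_sum (g := fun _ => (1 : ℝ)) fun w _ =>
            (sum_le_univ_sum_of_nonneg fun i => sq_nonneg (v w i)).trans (hv w)).trans (by simpa using hc))
            (sum_nonneg fun _ _ => sum_nonneg fun _ _ => sq_nonneg _) (by positivity)
          rw [sum_const, nsmul_eq_mul]
          exact mul_le_mul_of_nonneg_right hc (by positivity)
      _ = ((N : ℝ) * ((2 : ℝ) ^ J)⁻¹) ^ 2 := by ring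
      _ ≤ (δ₀⁻¹ * B.rad j) ^ 2 := by
          refine pow_le_pow_left₀ (by positivity) ?_ 2
          have hj : (B.rad j)⁻¹ ≤ r := by
            have := single_le_sum (s := univ) (fun j' _ => hinv j') (mem_univ j)
            linarith
          rw [← div_eq_mul_inv, div_le_iff₀ (by positivity)]
          have h1 : (1 : ℝ) ≤ r * B.rad j := by
            have := mul_le_mul_of_nonneg_right hj (hB j).le
            rwa [inv_mul_cancel₀ (hB j).ne'] at this
          have h2 : (N : ℝ) * δ₀ ≤ B.rad j * 2 ^ J := by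
            have h3 := mul_le_mul_of_nonneg_left h1 (show (0 : ℝ) ≤ (N : ℝ) * δ₀ by positivity)
            nlinarith [mul_le_mul_of_nonneg_right hJ.le (hB j).le]
          rw [mul_assoc, inv_mul_eq_div, le_div_iff₀ hδ]
          exact h2
  have hδi : 0 ≤ δ₀⁻¹ := inv_nonneg.2 hδ.le
  have hm' := hm.mono hB (mul_nonneg (sub_nonneg.2 (inv_le_one_of_one_le₀ (one_le_pow₀ (by norm_num)))) hδi)
    (mul_le_of_le_one_left hδi (sub_le_self _ (by positivity)))
  convert Body.Mem.add hB hδi hδi hm' herr using 1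
  · ring
  · funext i
    simp only [sub_mul, sum_sub_distrib]
    ring

end cut

/-- The deviation of the first `q` parts. -/
private noncomputable def partDev (v : Fin N → ι → ℝ) (W : Finset (Fin N)) (M : ℕ)
    (f : Fin N → ℕ) (q : ℕ) (i : ι) : ℝ :=
  ∑ w ∈ W.filter (fun w => f w < q), v w i - (q : ℝ) / M * ∑ w ∈ W, v w i

lemma parts_exist {δ₀ ε₀ : ℝ} (hs : StarAt δ₀ ε₀) (hδ : 0 < δ₀) (hε : 0 < ε₀) (hε1 : ε₀ < 1)
    (v : Fin N → ι → ℝ) (hv : ∀ w, ∑ i, v w i ^ 2 ≤ 1) (B : Body ι) (hB : B.Pos)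
    (M : ℕ) (hM0 : 0 < M) (hMe : Even M) (hT : ((M : ℝ) + 1) * B.tail ≤ ε₀ / 2)
    (W : Finset (Fin N)) :
    ∃ f : Fin N → ℕ, (∀ w ∈ W, f w < M) ∧ ∀ q ≤ M, B.Mem δ₀⁻¹ (partDev v W M f q) := by
  classical
  have : NeZero M := ⟨hM0.ne'⟩
  let G : (Fin N → Fin M) → NNReal := fun g =>
    (univ : Finset (Fin (M + 1) × Fin B.num)).sup fun p => Real.toNNReal
      (Real.sqrt (∑ i ∈ B.blk p.2, partDev v W M (fun w => (g w : ℕ)) p.1 i ^ 2) / B.rad p.2)
  have hG : ∀ g (D : ℝ), 0 ≤ D → ((G g : ℝ) ≤ D ↔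
      ∀ q ≤ M, B.Mem D (partDev v W M (fun w => (g w : ℕ)) q)) := by
    intro g D hD
    lift D to NNReal using hD
    rw [NNReal.coe_le_coe, Finset.sup_le_iff]
    simp only [mem_univ, true_implies, Real.toNNReal_le_iff_le_coe]
    constructor
    · intro h q hq j
      have := h (⟨q, by omega⟩, j)
      rw [div_le_iff₀ (hB j), Real.sqrt_le_iff] at this
      exact this.2
    · intro h p
      rw [div_le_iff₀ (hB p.2), Real.sqrt_le_iff]
      exact ⟨mul_nonneg D.2 (hB p.2).le, h p.1 (by omega) p.2⟩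
  obtain ⟨g, -, hmin⟩ := exists_min_image (univ : Finset (Fin N → Fin M)) G univ_nonempty
  refine ⟨fun w => g w, fun w _ => (g w).2, ?_⟩
  rw [← hG g _ (inv_nonneg.2 hδ.le)]
  obtain ⟨e, he, hm⟩ := signs hs hδ hε hε1 v hv B M hT (fun w => (g w : ℕ)) W
  obtain ⟨m, hm2⟩ := hMe
  let h : Fin N → Fin M := fun w =>
    if e w = 1 then ⟨(g w : ℕ) / 2, by have := (g w).2; omega⟩
    else ⟨M - 1 - (g w : ℕ) / 2, by omega⟩
  set D : ℝ := (G g : ℝ) with hD
  have hD0 : 0 ≤ D := (G g).2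
  have hold := (hG g D hD0).1 le_rfl
  have hδi : 0 ≤ δ₀⁻¹ := inv_nonneg.2 hδ.le
  have hnew : (G h : ℝ) ≤ (1 / 2 : ℝ) * (D + δ₀⁻¹) := by
    rw [hG h _ (by positivity)]
    intro q hq
    by_cases hqm : q ≤ m
    · have key : partDev v W M (fun w => (h w : ℕ)) q = fun i => (1 / 2 : ℝ) *
          (partDev v W M (fun w => (g w : ℕ)) (2 * q) i +
            ∑ w ∈ W.filter (fun w => (g w : ℕ) < 2 * q), e w * v w i) := by
        funext i
        simp only [partDev]
        have : ∑ w ∈ W.filter (fun w => (h w : ℕ) < q), v w i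
            = (1 / 2 : ℝ) * (∑ w ∈ W.filter (fun w => (g w : ℕ) < 2 * q), v w i +
              ∑ w ∈ W.filter (fun w => (g w : ℕ) < 2 * q), e w * v w i) := by
          simp only [sum_filter]
          rw [← sum_add_distrib, mul_sum]
          refine sum_congr rfl fun w _ => ?_
          have hgw := (g w).2
          rcases he w with h' | h'
          · have hh : ((h w : ℕ) < q) ↔ (g w : ℕ) < 2 * q := by simp only [h, if_pos h']; omega
            by_cases c : (g w : ℕ) < 2 * q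
            · rw [if_pos (hh.2 c), if_pos c, if_pos c, h']; ring
            · rw [if_neg (mt hh.1 c), if_neg c, if_neg c]; ring
          · have hh : ¬ (h w : ℕ) < q := by
              simp only [h, show ¬ e w = 1 by rw [h']; norm_num, if_false]; omega
            rw [if_neg hh]
            split
            · rw [h']; ring
            · ring
        rw [this]
        push_cast
        ring
      rw [key]
      exact ((hold (2 * q) (by omega)).add hB hD0 hδi (hm (2 * q) (by omega))).smul _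
    · have key : partDev v W M (fun w => (h w : ℕ)) q = fun i => (-(1 / 2) : ℝ) *
          (partDev v W M (fun w => (g w : ℕ)) (2 * (M - q)) i +
            (-1 : ℝ) * ∑ w ∈ W.filter (fun w => (g w : ℕ) < 2 * (M - q)), e w * v w i) := by
        funext i
        simp only [partDev]
        have : ∑ w ∈ W.filter (fun w => (h w : ℕ) < q), v w i
            = ∑ w ∈ W, v w i - (1 / 2 : ℝ) * (∑ w ∈ W.filter (fun w => (g w : ℕ) < 2 * (M - q)), v w i -
              ∑ w ∈ W.filter (fun w => (g w : ℕ) < 2 * (M - q)), e w * v w i) := by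
          simp only [sum_filter]
          rw [← sum_sub_distrib, mul_sum, ← sum_sub_distrib]
          refine sum_congr rfl fun w _ => ?_
          have hgw := (g w).2
          rcases he w with h' | h'
          · have hh : (h w : ℕ) < q := by simp only [h, if_pos h']; omega
            rw [if_pos hh]
            split
            · rw [h']; ring
            · ring
          · have hh : ((h w : ℕ) < q) ↔ ¬ (g w : ℕ) < 2 * (M - q) := by
              simp only [h, show ¬ e w = 1 by rw [h']; norm_num, if_false]; omega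
            by_cases c : (g w : ℕ) < 2 * (M - q)
            · rw [if_neg (fun hc => hh.1 hc c), if_pos c, if_pos c, h']; ring
            · rw [if_pos (hh.2 c), if_neg c, if_neg c]; ring
        rw [this]
        push_cast [Nat.cast_sub hq]
        have hMR : (M : ℝ) ≠ 0 := by exact_mod_cast hM0.ne'
        field_simp
        ring
      rw [key]
      intro j
      have hneg : B.Mem δ₀⁻¹ (fun i => (-1 : ℝ) *
          ∑ w ∈ W.filter (fun w => (g w : ℕ) < 2 * (M - q)), e w * v w i) := fun j' => by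
        simpa using hm (2 * (M - q)) (by omega) j'
      have h5 := ((hold (2 * (M - q)) (by omega)).add hB hD0 hδi hneg).smul (1 / 2) j
      refine le_trans (le_of_eq ?_) h5
      exact sum_congr rfl fun i _ => by ring
  have : D ≤ (G h : ℝ) := NNReal.coe_le_coe.2 (hmin h (mem_univ _))
  linarith

theorem roundTools (hS : StarLemma) : RoundTools := by
  obtain ⟨δ₀, ε₁, hδ, hε₁, hstar⟩ := hS
  set ε₀ := min ε₁ (1 / 2) with hε₀
  have hε : 0 < ε₀ := lt_min hε₁ (by norm_num)
  have hε1 : ε₀ < 1 := lt_of_le_of_lt (min_le_right _ _) (by norm_num)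
  have hs : StarAt δ₀ ε₀ := fun ι _ K a b c d =>
    hstar ι K a b c (le_trans (by linarith [min_le_left ε₁ (1 / 2 : ℝ)]) d)
  refine ⟨2 * δ₀⁻¹, ε₀ / 4, by positivity, by linarith, fun ι _ N v hv B hB => ⟨?_, ?_⟩⟩
  · intro hT W x hx
    exact cut_real hs hδ hε hε1 v hv B hB hT W x hx
  · intro M hM0 hMe hT W
    obtain ⟨f, hf, hm⟩ := parts_exist hs hδ hε hε1 v hv B hB M hM0 hMe (by linarith) W
    exact ⟨f, hf, fun q hq => (hm q hq).mono hB (by positivity) (by linarith [inv_pos.2 hδ])⟩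

end Vale.Agent.P262.S2
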