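import Mathlib
import Vale.Agent.P047.PrekopaLeindler

/-! G1, first part: log-concavity of Gaussian measures of slices of a convex set. -/

namespace Vale.Agent.P262.S2

open MeasureTheory ProbabilityTheory Filter Topology Set

variable {n : ℕ}

/-- The standard Gaussian measure on `Fin n → ℝ`. -/
noncomputable def gn (n : ℕ) : Measure (Fin n → ℝ) := Measure.pi fun _ => gaussianReal 0 1

instance : IsProbabilityMeasure (gn n) := by unfold gn; infer_instance

lemma gn_eq :
    gn n = (volume : Measure (Fin n → ℝ)).withDensity fun x => ∏ i, gaussianPDF 0 1 (x i) := by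
  symm
  refine (Measure.pi_eq fun s hs => ?_).symm
  rw [withDensity_apply _ (MeasurableSet.univ_pi hs)]
  have : ∀ i : Fin n, gaussianReal 0 1 (s i) = ∫⁻ x in s i, gaussianPDF 0 1 x := fun i => by
    rw [gaussianReal_of_var_ne_zero _ one_ne_zero, withDensity_apply _ (hs i)]
  simp_rw [this]
  rw [volume_pi, Measure.restrict_pi_pi]
  simp only [gaussianPDF, ← ENNReal.ofReal_prod_of_nonneg fun i _ => gaussianPDFReal_nonneg 0 1 _]
  have hint : ∀ i : Fin n, Integrable (gaussianPDFReal 0 1) (volume.restrict (s i)) := fun i =>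
    (integrable_gaussianPDFReal 0 1).restrict
  rw [← ofReal_integral_eq_lintegral_ofReal (Integrable.fintype_prod hint)
      (.of_forall fun x => Finset.prod_nonneg fun i _ => gaussianPDFReal_nonneg 0 1 _),
    integral_fintype_prod_eq_prod (fun _ : Fin n => gaussianPDFReal 0 1),
    ENNReal.ofReal_prod_of_nonneg fun i _ => integral_nonneg (gaussianPDFReal_nonneg 0 1)]
  exact Finset.prod_congr rfl fun i _ => ofReal_integral_eq_lintegral_ofReal (hint i)
    (.of_forall (gaussianPDFReal_nonneg 0 1))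

lemma pdf_mid (x y : ℝ) :
    gaussianPDFReal 0 1 x * gaussianPDFReal 0 1 y ≤ gaussianPDFReal 0 1 ((2 : ℝ)⁻¹ * (x + y)) ^ 2 := by
  simp only [gaussianPDFReal_def, NNReal.coe_one, mul_one, sub_zero]
  set c := (√(2 * Real.pi))⁻¹ with hc
  rw [mul_mul_mul_comm, mul_pow, ← sq c, sq (Real.exp _), ← Real.exp_add, ← Real.exp_add]
  refine mul_le_mul_of_nonneg_left (Real.exp_le_exp.2 ?_) (sq_nonneg c)
  nlinarith [sq_nonneg (x - y)]

/-- Midpoint Prékopa–Leindler for the Gaussian measure of sets. -/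
lemma pl_gn {A B C : Set (Fin n → ℝ)} (hA : MeasurableSet A) (hB : MeasurableSet B)
    (hC : MeasurableSet C) (h : ∀ x ∈ A, ∀ y ∈ B, (2 : ℝ)⁻¹ • (x + y) ∈ C) :
    (gn n).real A * (gn n).real B ≤ (gn n).real C ^ 2 := by
  have hm : Measurable fun x : Fin n → ℝ => ∏ i, gaussianPDF 0 1 (x i) := by fun_prop
  have e : ∀ {X : Set (Fin n → ℝ)}, MeasurableSet X →
      gn n X = ∫⁻ x, X.indicator (fun x => ∏ i, gaussianPDF 0 1 (x i)) x := fun {X} hX => by
    rw [gn_eq, withDensity_apply _ hX, lintegral_indicator hX]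
  have key := Vale.Agent.P047.pl_midpoint (hm.indicator hA) (hm.indicator hB) (hm.indicator hC)
    (fun x y => ?_)
  · rw [← e hA, ← e hB, ← e hC] at key
    have := ENNReal.toReal_mono (by simp) key
    simpa [measureReal_def] using this
  · by_cases hx : x ∈ A <;> by_cases hy : y ∈ B <;> simp [hx, hy]
    rw [indicator_of_mem (by simpa using h x hx y hy), ← Finset.prod_mul_distrib, ← Finset.prod_pow]
    refine Finset.prod_le_prod' fun i _ => ?_
    simp only [gaussianPDF, Pi.smul_apply, Pi.add_apply, smul_eq_mul]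
    rw [← ENNReal.ofReal_mul (gaussianPDFReal_nonneg 0 1 _),
      ← ENNReal.ofReal_pow (gaussianPDFReal_nonneg 0 1 _)]
    exact ENNReal.ofReal_le_ofReal ((pdf_mid _ _).trans_eq (by rw [mul_add]))

/-- The slice at height `t`. -/
def sl (X : Set ((Fin n → ℝ) × ℝ)) (t : ℝ) : Set (Fin n → ℝ) := {y | (y, t) ∈ X}

lemma measurableSet_sl {X : Set ((Fin n → ℝ) × ℝ)} (h : MeasurableSet X) (t : ℝ) :
    MeasurableSet (sl X t) := h.preimage (by fun_prop)

lemma lc_dyadic {Z : Set ((Fin n → ℝ) × ℝ)} (hZc : Convex ℝ Z) (hZ : IsClosed Z) :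
    ∀ (j k : ℕ), k ≤ 2 ^ j → (gn n).real (sl Z 0) ^ (1 - (k : ℝ) / 2 ^ j) *
      (gn n).real (sl Z 1) ^ ((k : ℝ) / 2 ^ j) ≤ (gn n).real (sl Z ((k : ℝ) / 2 ^ j)) := by
  intro j
  induction j with
  | zero =>
    intro k hk
    interval_cases k <;> simp
  | succ j ih =>
    intro k hk
    rcases Nat.even_or_odd' k with ⟨i, rfl | rfl⟩
    · have := ih i (by rw [pow_succ] at hk; omega)
      have e : ((2 * i : ℕ) : ℝ) / 2 ^ (j + 1) = (i : ℝ) / 2 ^ j := by
        push_cast; rw [pow_succ]; field_simp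
      rw [e]; exact this
    · rw [pow_succ] at hk
      have h1 := ih i (by omega)
      have h2 := ih (i + 1) (by omega)
      push_cast at h2
      set a : ℝ := (i : ℝ) / 2 ^ j with ha
      set b : ℝ := ((i : ℝ) + 1) / 2 ^ j with hb
      have et : ((2 * i + 1 : ℕ) : ℝ) / 2 ^ (j + 1) = (2 : ℝ)⁻¹ * (a + b) := by
        rw [ha, hb, pow_succ]; push_cast; field_simp; ring
      rw [et]
      have hb1 : b ≤ 1 := by
        rw [hb, div_le_one (by positivity)]
        exact_mod_cast (show i + 1 ≤ 2 ^ j by omega)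
      have ha0 : 0 ≤ a := by positivity
      have hab : a ≤ b := by rw [ha, hb]; gcongr; linarith
      have hpl := pl_gn (measurableSet_sl hZ.measurableSet a) (measurableSet_sl hZ.measurableSet b)
        (measurableSet_sl hZ.measurableSet ((2 : ℝ)⁻¹ * (a + b))) (fun x hx y hy => by
          have := hZc hx hy (by norm_num : (0 : ℝ) ≤ 2⁻¹) (by norm_num : (0 : ℝ) ≤ 2⁻¹) (by norm_num)
          simp only [Prod.smul_mk, Prod.mk_add_mk, smul_eq_mul, ← mul_add, ← smul_add] at this
          exact this)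
      set g0 := (gn n).real (sl Z 0) with hg0
      set g1 := (gn n).real (sl Z 1) with hg1
      have n0 : 0 ≤ g0 := measureReal_nonneg
      have n1 : 0 ≤ g1 := measureReal_nonneg
      refine (pow_le_pow_iff_left₀ (mul_nonneg (Real.rpow_nonneg n0 _) (Real.rpow_nonneg n1 _))
        measureReal_nonneg two_ne_zero).1 (le_trans ?_ hpl)
      refine le_trans (le_of_eq ?_) (mul_le_mul h1 h2 (mul_nonneg (Real.rpow_nonneg n0 _)
        (Real.rpow_nonneg n1 _)) measureReal_nonneg)
      rw [mul_pow, mul_mul_mul_comm, ← Real.rpow_add_of_nonneg n0 (by linarith) (by linarith),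
        ← Real.rpow_add_of_nonneg n1 ha0 (by linarith), ← Real.rpow_natCast _ 2,
        ← Real.rpow_mul n0, ← Real.rpow_natCast _ 2, ← Real.rpow_mul n1]
      congr 2 <;> push_cast <;> ring

/-- Log-concavity of the measure of the slices of a closed convex set. -/
lemma lc {Z : Set ((Fin n → ℝ) × ℝ)} (hZc : Convex ℝ Z) (hZ : IsClosed Z) {θ : ℝ}
    (h0 : 0 ≤ θ) (h1 : θ ≤ 1) :
    (gn n).real (sl Z 0) ^ (1 - θ) * (gn n).real (sl Z 1) ^ θ ≤ (gn n).real (sl Z θ) := by
  rcases eq_or_lt_of_le h0 with rfl | h0'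
  · simp
  rcases eq_or_lt_of_le h1 with rfl | h1'
  · simp
  set g0 := (gn n).real (sl Z 0) with hg0
  set g1 := (gn n).real (sl Z 1) with hg1
  rcases eq_or_lt_of_le (measureReal_nonneg (μ := gn n) (s := sl Z 0)) with h | h
  · rw [← hg0] at h
    rw [← h, Real.zero_rpow (by linarith), zero_mul]; exact measureReal_nonneg
  rcases eq_or_lt_of_le (measureReal_nonneg (μ := gn n) (s := sl Z 1)) with h' | h'
  · rw [← hg1] at h'
    rw [← h', Real.zero_rpow h0'.ne', mul_zero]; exact measureReal_nonneg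
  set k : ℕ → ℕ := fun j => ⌊θ * (2 : ℝ) ^ j⌋₊ with hk
  set t : ℕ → ℝ := fun j => (k j : ℝ) / 2 ^ j with ht
  have htt : Tendsto t atTop (𝓝 θ) :=
    (tendsto_nat_floor_mul_div_atTop h0).comp (tendsto_pow_atTop_atTop_of_one_lt (by norm_num))
  have hb : ∀ j, g0 ^ (1 - t j) * g1 ^ (t j) ≤ (gn n).real (sl Z (t j)) := fun j => by
    refine lc_dyadic hZc hZ j (k j) (Nat.floor_le_of_le ?_)
    push_cast
    exact mul_le_of_le_one_left (by positivity) h1
  set U : ℕ → Set (Fin n → ℝ) := fun j => ⋃ (i) (_ : j ≤ i), sl Z (t i) with hU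
  have hUm : ∀ j, MeasurableSet (U j) := fun j =>
    MeasurableSet.iUnion fun i => MeasurableSet.iUnion fun _ => measurableSet_sl hZ.measurableSet _
  have hUa : Antitone U := fun a b hab => iUnion₂_subset fun i hi =>
    subset_iUnion₂_of_subset i (hab.trans hi) subset_rfl
  have hlim : Tendsto (fun j => (gn n).real (U j)) atTop (𝓝 ((gn n).real (⋂ j, U j))) :=
    (ENNReal.tendsto_toReal (measure_ne_top _ _)).comp
      (tendsto_measure_iInter_atTop (fun j => (hUm j).nullMeasurableSet) hUa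
        ⟨0, measure_ne_top _ _⟩)
  have hsub : (⋂ j, U j) ⊆ sl Z θ := by
    intro y hy
    have hf : ∃ᶠ i in atTop, (y, t i) ∈ Z := frequently_atTop.2 fun j => by
      have := mem_iInter.1 hy j
      simp only [hU, mem_iUnion] at this
      obtain ⟨i, hi, hyi⟩ := this
      exact ⟨i, hi, hyi⟩
    exact hZ.mem_of_frequently_of_tendsto hf (tendsto_const_nhds.prodMk_nhds htt)
  have hcont : Tendsto (fun j => g0 ^ (1 - t j) * g1 ^ (t j)) atTop (𝓝 (g0 ^ (1 - θ) * g1 ^ θ)) :=
    ((Real.continuous_const_rpow h.ne').continuousAt.tendsto.comp (htt.const_sub 1)).mul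
      ((Real.continuous_const_rpow h'.ne').continuousAt.tendsto.comp htt)
  refine le_trans (le_of_tendsto_of_tendsto' hcont hlim fun j => (hb j).trans ?_)
    (measureReal_mono hsub)
  exact measureReal_mono (subset_iUnion₂ (s := fun i (_ : j ≤ i) => sl Z (t i)) j le_rfl)
    (measure_ne_top _ _)

end Vale.Agent.P262.S2
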