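import Mathlib
import Vale.Agent.P262.S2.StarLC

/-! G1, second part: the one-step lemma for a convex body in `(Fin n → ℝ) × ℝ`, moving along the
last coordinate. -/

namespace Vale.Agent.P262.S2

open MeasureTheory ProbabilityTheory Filter Topology Set

variable {n : ℕ}

/-- The unnormalised Gaussian density. -/
noncomputable def phi (s : ℝ) : ℝ := Real.exp (-s ^ 2 / 2)

lemma phi_pos (s : ℝ) : 0 < phi s := Real.exp_pos _

lemma phi_le_one (s : ℝ) : phi s ≤ 1 := Real.exp_le_one_iff.2 (by nlinarith [sq_nonneg s])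

lemma phi_neg (s : ℝ) : phi (-s) = phi s := by simp [phi]

lemma phi_anti {s t : ℝ} (h : |s| ≤ |t|) : phi t ≤ phi s := by
  have := sq_le_sq.2 h
  exact Real.exp_le_exp.2 (by linarith)

lemma integrable_phi : Integrable phi := by
  have e : phi = fun s => Real.exp (-(1 / 2) * s ^ 2) := funext fun s => by rw [phi]; ring_nf
  rw [e]
  exact integrable_exp_neg_mul_sq (by norm_num)

lemma intg {f : ℝ → ℝ} (hf : Measurable f) (h : ∀ s, |f s| ≤ 1) :
    Integrable fun s => f s * phi s :=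
  integrable_phi.bdd_mul hf.aestronglyMeasurable (.of_forall fun s => by simpa using h s)

lemma gn_neg {A : Set (Fin n → ℝ)} (hA : MeasurableSet A) :
    (gn n).real {y | -y ∈ A} = (gn n).real A := by
  have h : MeasurePreserving (fun (y : Fin n → ℝ) i => -(y i)) (gn n) (gn n) :=
    measurePreserving_pi (fun _ : Fin n => gaussianReal 0 1) (fun _ => gaussianReal 0 1)
      fun _ => ⟨measurable_neg, by rw [gaussianReal_map_neg, neg_zero]⟩
  exact congrArg ENNReal.toReal (h.measure_preimage hA.nullMeasurableSet)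

lemma measurable_slice {X : Set ((Fin n → ℝ) × ℝ)} (hX : MeasurableSet X) :
    Measurable fun s => (gn n).real (sl X s) :=
  (measurable_measure_prodMk_right hX).ennreal_toReal

lemma lc_drop {a b g θ : ℝ} (hb : 1 / 2 ≤ b) (hba : b ≤ a) (ha : a ≤ 1) (hθ : 0 ≤ θ)
    (h : a ^ (1 - θ) * b ^ θ ≤ g) : a - g ≤ 2 * θ * (a - b) := by
  have a0 : 0 < a := by linarith
  have b0 : 0 < b := by linarith
  have e : a ^ (1 - θ) * b ^ θ = a * Real.exp (θ * Real.log (b / a)) := by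
    rw [Real.rpow_sub a0, Real.rpow_one, Real.log_div b0.ne' a0.ne', mul_sub, Real.exp_sub,
      Real.rpow_def_of_pos b0, Real.rpow_def_of_pos a0]
    simp only [mul_comm θ]
    ring
  have h1 := Real.add_one_le_exp (θ * Real.log (b / a))
  have h2 := Real.log_le_sub_one_of_pos (div_pos a0 b0)
  rw [Real.log_div a0.ne' b0.ne'] at h2
  rw [Real.log_div b0.ne' a0.ne'] at h1 e
  have h3 : a / b - 1 ≤ 2 * (a - b) := by
    rw [sub_le_iff_le_add, div_le_iff₀ b0]; nlinarith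
  have h4 : a * (θ * (Real.log a - Real.log b)) ≤ θ * (2 * (a - b)) :=
    (mul_le_mul_of_nonneg_left (mul_le_mul_of_nonneg_left (h2.trans h3) hθ) a0.le).trans
      (mul_le_of_le_one_left (mul_nonneg hθ (by linarith)) ha)
  nlinarith [mul_le_mul_of_nonneg_left h1 a0.le]

/-- A symmetric convex compact set and the length of the step along the last coordinate. -/
structure Cyl (n : ℕ) where
  K : Set ((Fin n → ℝ) × ℝ)
  conv : Convex ℝ K
  cpt : IsCompact K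
  symm : ∀ p ∈ K, -p ∈ K
  δ : ℝ
  δpos : 0 < δ

namespace Cyl

variable (c : Cyl n)

/-- Midpoints of segments of length `2δ` in the fibres. -/
def AB : Set ((Fin n → ℝ) × ℝ) := {p | (p.1, p.2 + c.δ) ∈ c.K ∧ (p.1, p.2 - c.δ) ∈ c.K}

/-- The base points of long fibres. -/
def Long : Set (Fin n → ℝ) := Prod.fst '' c.AB

/-- The new body. -/
def K' : Set ((Fin n → ℝ) × ℝ) := {p | ∃ m, (p.1, m) ∈ c.AB ∧ |p.2 - m| ≤ 2 * c.δ}

/-- Fibres lying strictly below `t`. -/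
def below (t : ℝ) : Set (Fin n → ℝ) := {y | ∀ s, t ≤ s → (y, s) ∉ c.K}

/-- Fibres containing `a` and `b`. -/
noncomputable def G (a b : ℝ) : ℝ := (gn n).real (sl c.K a ∩ sl c.K b)

/-- Long fibres over `A` that lie below `t`. -/
noncomputable def Phi (A : Set (Fin n → ℝ)) (t : ℝ) : ℝ := (gn n).real (A ∩ c.Long ∩ c.below t)

/-- Loss at height `s`. -/
noncomputable def ls (s : ℝ) : ℝ := (gn n).real (sl c.K s \ c.Long)

/-- Gain at height `s`. -/
noncomputable def gs (s : ℝ) : ℝ := (gn n).real (sl c.K' s \ sl c.K s)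

lemma seg {y : Fin n → ℝ} {a b t : ℝ} (ha : (y, a) ∈ c.K) (hb : (y, b) ∈ c.K) (h1 : a ≤ t)
    (h2 : t ≤ b) : (y, t) ∈ c.K := by
  have h : Convex ℝ {s : ℝ | (y, s) ∈ c.K} := fun s hs r hr u v hu hv huv => by
    have := c.conv hs hr hu hv huv
    simpa [← add_smul, huv] using this
  exact h.ordConnected.out ha hb ⟨h1, h2⟩

lemma sl_meas (s : ℝ) : MeasurableSet (sl c.K s) := measurableSet_sl c.cpt.measurableSet s

lemma AB_cpt : IsCompact c.AB := by
  have h : c.AB = (fun p => p + (0, -c.δ)) '' c.K ∩ (fun p => p + (0, c.δ)) '' c.K := by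
    ext ⟨y, s⟩
    simp [AB, sub_eq_add_neg]
  rw [h]
  exact (c.cpt.image (by fun_prop)).inter (c.cpt.image (by fun_prop))

lemma AB_conv : Convex ℝ c.AB := by
  rintro ⟨y, s⟩ ⟨h1, h2⟩ ⟨z, r⟩ ⟨h3, h4⟩ u v hu hv huv
  have e1 := c.conv h1 h3 hu hv huv
  have e2 := c.conv h2 h4 hu hv huv
  simp only [Prod.smul_mk, Prod.mk_add_mk, smul_eq_mul] at e1 e2
  refine ⟨?_, ?_⟩
  · show (u • y + v • z, u * s + v * r + c.δ) ∈ c.K
    rwa [show u * s + v * r + c.δ = u * (s + c.δ) + v * (r + c.δ) by linear_combination -c.δ * huv]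
  · show (u • y + v • z, u * s + v * r - c.δ) ∈ c.K
    rwa [show u * s + v * r - c.δ = u * (s - c.δ) + v * (r - c.δ) by linear_combination c.δ * huv]

lemma Long_meas : MeasurableSet c.Long := (c.AB_cpt.image continuous_fst).measurableSet

lemma below_meas (t : ℝ) : MeasurableSet (c.below t) := by
  have h : c.below t = (Prod.fst '' (c.K ∩ univ ×ˢ Ici t))ᶜ := by
    ext y
    simp only [below, mem_ofPred_eq, mem_compl_iff, mem_image, mem_inter_iff, mem_prod, mem_univ,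
      true_and, mem_Ici, Prod.exists]
    constructor
    · rintro h ⟨z, s, ⟨hs, ht⟩, rfl⟩; exact h s ht hs
    · intro h s ht hs; exact h ⟨y, s, ⟨hs, ht⟩, rfl⟩
  rw [h]
  exact ((c.cpt.inter_right (isClosed_univ.prod isClosed_Ici)).image continuous_fst).measurableSet.compl

lemma K'_cpt : IsCompact c.K' := by
  have h : c.K' = (fun q : ((Fin n → ℝ) × ℝ) × ℝ => (q.1.1, q.1.2 + q.2)) ''
      (c.AB ×ˢ Icc (-(2 * c.δ)) (2 * c.δ)) := by
    ext ⟨y, s⟩
    simp only [K', mem_ofPred_eq, mem_image, mem_prod, mem_Icc, Prod.exists, Prod.mk.injEq]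
    constructor
    · rintro ⟨m, hm, hd⟩
      exact ⟨y, m, s - m, ⟨hm, abs_le.1 hd⟩, rfl, by ring⟩
    · rintro ⟨z, m, r, ⟨hm, hr⟩, rfl, rfl⟩
      exact ⟨m, hm, by rw [add_sub_cancel_left]; exact abs_le.2 hr⟩
  rw [h]
  exact (c.AB_cpt.prod isCompact_Icc).image (by fun_prop)

lemma K'_conv : Convex ℝ c.K' := by
  rintro ⟨y, s⟩ ⟨m, hm, hd⟩ ⟨z, r⟩ ⟨m', hm', hd'⟩ u v hu hv huv
  refine ⟨u * m + v * m', c.AB_conv hm hm' hu hv huv, ?_⟩
  simp only [Prod.smul_mk, Prod.mk_add_mk, smul_eq_mul]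
  calc |u * s + v * r - (u * m + v * m')| = |u * (s - m) + v * (r - m')| := by ring_nf
    _ ≤ u * |s - m| + v * |r - m'| := by
        refine (abs_add_le _ _).trans_eq ?_
        rw [abs_mul, abs_mul, abs_of_nonneg hu, abs_of_nonneg hv]
    _ ≤ u * (2 * c.δ) + v * (2 * c.δ) := by gcongr
    _ = 2 * c.δ := by rw [← add_mul, huv, one_mul]

lemma K'_symm : ∀ p ∈ c.K', -p ∈ c.K' := by
  rintro ⟨y, s⟩ ⟨m, ⟨h1, h2⟩, hd⟩
  refine ⟨-m, ⟨?_, ?_⟩, ?_⟩
  · simpa [neg_add_eq_sub] using c.symm _ h2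
  · simpa [sub_eq_add_neg, add_comm] using c.symm _ h1
  · show |-s - -m| ≤ 2 * c.δ
    rwa [show -s - -m = -(s - m) by ring, abs_neg]

lemma K'_step {p : (Fin n → ℝ) × ℝ} (hp : p ∈ c.K') :
    (p.1, p.2 + c.δ) ∈ c.K ∨ (p.1, p.2 - c.δ) ∈ c.K := by
  obtain ⟨m, ⟨h1, h2⟩, hd⟩ := hp
  obtain ⟨l, r⟩ := abs_le.1 hd
  rcases le_total m p.2 with h | h
  · exact Or.inr (c.seg h2 h1 (by linarith) (by linarith))
  · exact Or.inl (c.seg h2 h1 (by linarith) (by linarith))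

lemma long_inter {s : ℝ} {y : Fin n → ℝ} :
    (y ∈ sl c.K' s ∧ y ∈ sl c.K s) ↔ y ∈ sl c.K s ∧ y ∈ c.Long := by
  constructor
  · rintro ⟨⟨m, hm, -⟩, hk⟩
    exact ⟨hk, (y, m), hm, rfl⟩
  rintro ⟨hk, ⟨z, m⟩, ⟨h1, h2⟩, rfl⟩
  refine ⟨?_, hk⟩
  have hk' : (z, s) ∈ c.K := hk
  rcases le_or_gt |s - m| (2 * c.δ) with h | h
  · exact ⟨m, ⟨h1, h2⟩, h⟩
  rcases lt_abs.1 h with h | h
  · refine ⟨s - c.δ, ⟨by simpa using hk', c.seg h2 hk' ?_ ?_⟩, ?_⟩
    · simp only; linarith [c.δpos]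
    · simp only; linarith [c.δpos]
    · simp only
      rw [sub_sub_cancel, abs_of_pos c.δpos]; linarith [c.δpos]
  · refine ⟨s + c.δ, ⟨c.seg hk' h1 ?_ ?_, by simpa using hk'⟩, ?_⟩
    · simp only; linarith [c.δpos]
    · simp only; linarith [c.δpos]
    · simp only
      rw [sub_add_cancel_left, abs_neg, abs_of_pos c.δpos]; linarith [c.δpos]

lemma slice_balance (s : ℝ) :
    (gn n).real (sl c.K' s) + c.ls s = (gn n).real (sl c.K s) + c.gs s := by
  have h1 := measureReal_inter_add_sdiff (μ := gn n) (s := sl c.K' s) (c.sl_meas s)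
  have h2 := measureReal_inter_add_sdiff (μ := gn n) (s := sl c.K s) c.Long_meas
  have e : sl c.K' s ∩ sl c.K s = sl c.K s ∩ c.Long := Set.ext fun y => c.long_inter
  simp only [ls, gs]
  rw [e] at h1
  linarith

lemma ls_nonneg (s : ℝ) : 0 ≤ c.ls s := measureReal_nonneg
lemma gs_nonneg (s : ℝ) : 0 ≤ c.gs s := measureReal_nonneg

lemma meas_ls : Measurable c.ls :=
  measurable_slice (X := c.K \ Prod.fst ⁻¹' c.Long)
    (c.cpt.measurableSet.diff (c.Long_meas.preimage measurable_fst))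

lemma meas_gs : Measurable c.gs :=
  measurable_slice (X := c.K' \ c.K) (c.K'_cpt.measurableSet.diff c.cpt.measurableSet)

lemma int_ls : Integrable fun s => c.ls s * phi s :=
  intg c.meas_ls fun s => by rw [abs_of_nonneg (c.ls_nonneg s)]; exact measureReal_le_one

lemma int_gs : Integrable fun s => c.gs s * phi s :=
  intg c.meas_gs fun s => by rw [abs_of_nonneg (c.gs_nonneg s)]; exact measureReal_le_one

lemma neg_mem {y : Fin n → ℝ} {s : ℝ} : (-y, s) ∈ c.K ↔ (y, -s) ∈ c.K := by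
  constructor <;> intro h <;> simpa using c.symm _ h

lemma neg_long {y : Fin n → ℝ} : -y ∈ c.Long ↔ y ∈ c.Long := by
  have key : ∀ z, z ∈ c.Long → -z ∈ c.Long := by
    rintro z ⟨⟨w, m⟩, ⟨h1, h2⟩, rfl⟩
    refine ⟨(-w, -m), ⟨?_, ?_⟩, rfl⟩
    · rw [c.neg_mem]; simpa [sub_eq_add_neg, add_comm] using h2
    · rw [c.neg_mem]; simpa [sub_eq_add_neg, add_comm] using h1
  exact ⟨fun h => by simpa using key _ h, key y⟩

lemma ls_neg (s : ℝ) : c.ls (-s) = c.ls s := by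
  rw [ls, ls, ← gn_neg ((c.sl_meas s).diff c.Long_meas)]
  congr 1
  ext y
  simp [sl, c.neg_mem, c.neg_long]

lemma mu_neg (s : ℝ) : (gn n).real (sl c.K (-s)) = (gn n).real (sl c.K s) := by
  rw [← gn_neg (c.sl_meas s)]
  congr 1
  ext y
  simp [sl, c.neg_mem]

lemma G_self (s : ℝ) : c.G s s = (gn n).real (sl c.K s) := by rw [G, inter_self]

lemma lc_line (a₀ b₀ a₁ b₁ : ℝ) {θ : ℝ} (h0 : 0 ≤ θ) (h1 : θ ≤ 1) :
    c.G a₀ b₀ ^ (1 - θ) * c.G a₁ b₁ ^ θ ≤
      c.G ((1 - θ) * a₀ + θ * a₁) ((1 - θ) * b₀ + θ * b₁) := by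
  set Z : Set ((Fin n → ℝ) × ℝ) := {p | (p.1, (1 - p.2) * a₀ + p.2 * a₁) ∈ c.K ∧
    (p.1, (1 - p.2) * b₀ + p.2 * b₁) ∈ c.K} with hZ
  have hcl : IsClosed Z := (c.cpt.isClosed.preimage (by fun_prop)).inter
    (c.cpt.isClosed.preimage (by fun_prop))
  have hcv : Convex ℝ Z := by
    rintro ⟨y, s⟩ ⟨p1, p2⟩ ⟨z, r⟩ ⟨q1, q2⟩ u v hu hv huv
    have e1 := c.conv p1 q1 hu hv huv
    have e2 := c.conv p2 q2 hu hv huv
    simp only [Prod.smul_mk, Prod.mk_add_mk, smul_eq_mul] at e1 e2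
    have hv' : v = 1 - u := by linarith
    subst hv'
    refine ⟨?_, ?_⟩
    · show (u • y + (1 - u) • z, (1 - (u * s + (1 - u) * r)) * a₀ + (u * s + (1 - u) * r) * a₁) ∈ c.K
      rwa [show (1 - (u * s + (1 - u) * r)) * a₀ + (u * s + (1 - u) * r) * a₁ =
        u * ((1 - s) * a₀ + s * a₁) + (1 - u) * ((1 - r) * a₀ + r * a₁) by ring]
    · show (u • y + (1 - u) • z, (1 - (u * s + (1 - u) * r)) * b₀ + (u * s + (1 - u) * r) * b₁) ∈ c.K
      rwa [show (1 - (u * s + (1 - u) * r)) * b₀ + (u * s + (1 - u) * r) * b₁ =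
        u * ((1 - s) * b₀ + s * b₁) + (1 - u) * ((1 - r) * b₀ + r * b₁) by ring]
  have e : ∀ t, sl Z t =
      sl c.K ((1 - t) * a₀ + t * a₁) ∩ sl c.K ((1 - t) * b₀ + t * b₁) := fun t => rfl
  have := lc hcv hcl h0 h1
  rw [e, e, e] at this
  simpa [G] using this

lemma mu_le_zero (s : ℝ) : (gn n).real (sl c.K s) ≤ (gn n).real (sl c.K 0) := by
  have h := c.lc_line s s (-s) (-s) (θ := 1 / 2) (by norm_num) (by norm_num)
  have e1 : (1 - (1 / 2 : ℝ)) * s + 1 / 2 * -s = 0 := by ring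
  rw [e1, G_self, G_self, G_self, mu_neg, ← Real.rpow_add_of_nonneg measureReal_nonneg
    (by norm_num) (by norm_num)] at h
  simpa using h

lemma G_mono {a b a' b' : ℝ} (ha : a ≤ a') (hab : a' ≤ b) (ha' : a ≤ b') (hb : b' ≤ b) :
    c.G a b ≤ c.G a' b' :=
  measureReal_mono fun _ hy => ⟨c.seg hy.1 hy.2 ha hab, c.seg hy.1 hy.2 ha' hb⟩

lemma Phi_mono (A : Set (Fin n → ℝ)) : Monotone (c.Phi A) := fun _ _ hst =>
  measureReal_mono fun _ hy => ⟨hy.1, fun r hr => hy.2 r (hst.trans hr)⟩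

lemma Phi_abs (A : Set (Fin n → ℝ)) (t : ℝ) : |c.Phi A t| ≤ 1 := by
  rw [Phi, abs_of_nonneg measureReal_nonneg]; exact measureReal_le_one

lemma gain {A : Set (Fin n → ℝ)} (hA : MeasurableSet A) (t : ℝ) :
    c.Phi A t - c.Phi A (t - c.δ) ≤ c.gs t := by
  have hsub : A ∩ c.Long ∩ c.below (t - c.δ) ⊆ A ∩ c.Long ∩ c.below t := fun y hy =>
    ⟨hy.1, fun r hr => hy.2 r (by linarith [c.δpos])⟩
  rw [Phi, Phi, ← measureReal_sdiff hsub ((hA.inter c.Long_meas).inter (c.below_meas _))]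
  refine measureReal_mono ?_
  rintro y ⟨⟨⟨hyA, hyL⟩, hb⟩, hn⟩
  have hn' : ∃ r, t - c.δ ≤ r ∧ (y, r) ∈ c.K := by
    by_contra hcon
    exact hn ⟨⟨hyA, hyL⟩, fun r hr hr' => hcon ⟨r, hr, hr'⟩⟩
  obtain ⟨r, hr, hrK⟩ := hn'
  obtain ⟨⟨z, m⟩, ⟨h1, h2⟩, rfl⟩ := hyL
  refine ⟨?_, fun h => hb t le_rfl h⟩
  have htr : r < t := lt_of_not_ge fun h => hb r h hrK
  have htm : m + c.δ < t := lt_of_not_ge fun h => hb _ h h1
  rcases le_or_gt r (m + c.δ) with h | h
  · exact ⟨m, ⟨h1, h2⟩, abs_le.2 ⟨by simp only; linarith [c.δpos], by simp only; linarith⟩⟩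
  · refine ⟨r - c.δ, ⟨by simpa using hrK, c.seg h2 hrK ?_ ?_⟩,
      abs_le.2 ⟨by simp only; linarith, by simp only; linarith⟩⟩
    · simp only; linarith
    · simp only; linarith [c.δpos]

end Cyl

end Vale.Agent.P262.S2
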