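import Mathlib
import Vale.Agent.P262.S2.StarCyl

/-! G1, third part: the gain of the extended fibres beats the loss of the short fibres. -/

namespace Vale.Agent.P262.S2

open MeasureTheory ProbabilityTheory Filter Topology Set

variable {n : ℕ}

/-- The central window. -/
noncomputable def S₀ : ℝ := 200

/-- The step size allowed by the one-step lemma. -/
noncomputable def δ₁ : ℝ := phi (S₀ + 2) / 40000

lemma int_phi_Ioi {R : ℝ} (hR : 0 < R) : ∫ s in Ioi R, phi s ≤ phi R / R := by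
  have h : ∀ s, phi s ≤ Real.exp (R ^ 2 / 2) * Real.exp (-R * s) := fun s => by
    rw [phi, ← Real.exp_add]
    exact Real.exp_le_exp.2 (by nlinarith [sq_nonneg (s - R)])
  refine (setIntegral_mono integrable_phi.integrableOn
    ((integrableOn_exp_mul_Ioi (by linarith) R).const_mul _) h).trans_eq ?_
  rw [integral_const_mul, integral_exp_mul_Ioi (by linarith) R, neg_div_neg_eq, mul_div_assoc', phi,
    ← Real.exp_add]
  congr 2
  ring

namespace Cyl

variable (c : Cyl n)

/-- The mass of short fibres meeting the window. -/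
noncomputable def P : ℝ :=
  (gn n).real (Prod.fst '' (c.K ∩ univ ×ˢ Icc (-S₀) S₀) \ c.Long)

/-- The long fibres with an upper end in the window. -/
noncomputable def B : ℝ := c.Phi univ (S₀ + 1) - c.Phi univ (-S₀)

lemma P_nonneg : 0 ≤ c.P := measureReal_nonneg

lemma B_nonneg : 0 ≤ c.B := sub_nonneg.2 (c.Phi_mono univ (by norm_num [S₀]))

lemma B_le_one : c.B ≤ 1 := by
  have h1 : c.Phi univ (S₀ + 1) ≤ 1 := (le_abs_self _).trans (c.Phi_abs _ _)
  have h2 : 0 ≤ c.Phi univ (-S₀) := measureReal_nonneg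
  rw [B]; linarith

lemma int_phi_mul {A : Set (Fin n → ℝ)} (a : ℝ) :
    Integrable fun t => c.Phi A (t + a) * phi t :=
  intg ((c.Phi_mono A).measurable.comp (measurable_add_const a)) fun _ => c.Phi_abs _ _

lemma window (hd : c.δ ≤ 1) : c.δ * phi (S₀ + 2) * c.B ≤ ∫ s, c.gs s * phi s := by
  have hδ := c.δpos
  set T : ℝ := S₀ + 2 with hT
  have hT0 : (0 : ℝ) ≤ T := by norm_num [hT, S₀]
  set F := c.Phi univ with hF
  have mF := c.Phi_mono univ
  have iF : ∀ a b, IntervalIntegrable F volume a b := fun a b => mF.intervalIntegrable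
  have h1 : ∫ t in (-T)..T, (F t - F (t - c.δ)) * phi T ≤ ∫ t in (-T)..T, c.gs t * phi t := by
    refine intervalIntegral.integral_mono_on (by linarith) ?_ c.int_gs.intervalIntegrable ?_
    · exact ((iF _ _).sub ((mF.comp fun _ _ h => sub_le_sub_right h c.δ).intervalIntegrable)).mul_const _
    intro t ht
    exact mul_le_mul (c.gain MeasurableSet.univ t)
      (phi_anti (by rw [abs_of_nonneg hT0]; exact abs_le.2 ht)) (phi_pos _).le (c.gs_nonneg t)
  have h2 : ∫ t in (-T)..T, c.gs t * phi t ≤ ∫ s, c.gs s * phi s := by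
    rw [intervalIntegral.integral_of_le (by linarith)]
    exact setIntegral_le_integral c.int_gs
      (.of_forall fun t => mul_nonneg (c.gs_nonneg t) (phi_pos t).le)
  have iS : IntervalIntegrable (fun t => F (t - c.δ)) volume (-T) T :=
    (mF.comp fun _ _ h => sub_le_sub_right h c.δ).intervalIntegrable
  have h3 : ∫ t in (-T)..T, (F t - F (t - c.δ)) =
      (∫ t in (T - c.δ)..T, F t) - ∫ t in (-T - c.δ)..(-T), F t := by
    rw [intervalIntegral.integral_sub (iF _ _) iS,
      intervalIntegral.integral_comp_sub_right F c.δ,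
      intervalIntegral.integral_interval_sub_interval_comm' (iF _ _) (iF _ _) (iF _ _)]
  have h4 : c.δ * F (T - c.δ) ≤ ∫ t in (T - c.δ)..T, F t := by
    have := intervalIntegral.integral_mono_on (by linarith : T - c.δ ≤ T)
      (intervalIntegrable_const (c := F (T - c.δ))) (iF _ _) fun t ht => mF ht.1
    simpa using this
  have h5 : ∫ t in (-T - c.δ)..(-T), F t ≤ c.δ * F (-T) := by
    have := intervalIntegral.integral_mono_on (by linarith : -T - c.δ ≤ -T)
      (iF _ _) (intervalIntegrable_const (c := F (-T))) fun t ht => mF ht.2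
    simpa using this
  rw [intervalIntegral.integral_mul_const, h3] at h1
  have h7 : F (-T) ≤ F (-S₀) := mF (by rw [hT]; linarith)
  have h6 : F (S₀ + 1) ≤ F (T - c.δ) := mF (by rw [hT]; linarith)
  have key : c.δ * c.B ≤ (∫ t in (T - c.δ)..T, F t) - ∫ t in (-T - c.δ)..(-T), F t := by
    rw [B, ← hF]
    nlinarith
  calc c.δ * phi T * c.B = c.δ * c.B * phi T := by ring
    _ ≤ _ := mul_le_mul_of_nonneg_right key (phi_pos T).le
    _ ≤ _ := h1.trans h2

lemma gain_far : (1 / 2) * ∫ t in Ioi 0, c.Phi (sl c.K 0) t * phi t * min (c.δ * t) 1 ≤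
    ∫ s, c.gs s * phi s := by
  have hδ := c.δpos
  set F := c.Phi (sl c.K 0) with hF
  have hzero : ∀ t, t ≤ 0 → F t = 0 := fun t ht => by
    have e : sl c.K 0 ∩ c.Long ∩ c.below t = ∅ :=
      eq_empty_of_forall_notMem fun y hy => hy.2 0 ht hy.1.1
    rw [hF, Phi, e, measureReal_empty]
  have i0 : Integrable fun t => F t * phi t := by simpa using c.int_phi_mul (A := sl c.K 0) 0
  have i1 : Integrable fun t => F (t - c.δ) * phi t := by
    simpa [sub_eq_add_neg] using c.int_phi_mul (A := sl c.K 0) (-c.δ)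
  have i2 : Integrable fun t => F t * phi (t + c.δ) := by
    simpa using i1.comp_add_right c.δ
  have h1 : ∫ t, (F t * phi t - F (t - c.δ) * phi t) ≤ ∫ s, c.gs s * phi s :=
    integral_mono (i0.sub i1) c.int_gs fun t => by
      simp only [← sub_mul]
      exact mul_le_mul_of_nonneg_right (c.gain (c.sl_meas 0) t) (phi_pos t).le
  have h2 : ∫ t, (F t * phi t - F (t - c.δ) * phi t) = ∫ t, (F t * phi t - F t * phi (t + c.δ)) := by
    rw [integral_sub i0 i1, integral_sub i0 i2,
      ← integral_add_right_eq_self (fun t => F (t - c.δ) * phi t) c.δ]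
    simp
  have hn : ∀ t, 0 < t → F t * phi t * min (c.δ * t) 1 ≤ 2 * (F t * phi t - F t * phi (t + c.δ)) := by
    intro t ht
    have hF0 : 0 ≤ F t := measureReal_nonneg
    have hx : phi (t + c.δ) ≤ phi t * Real.exp (-(c.δ * t)) := by
      rw [phi, phi, ← Real.exp_add]; exact Real.exp_le_exp.2 (by nlinarith)
    have key : min (c.δ * t) 1 ≤ 2 * (1 - Real.exp (-(c.δ * t))) := by
      set x := c.δ * t with hxd
      have hx0 : 0 ≤ x := by positivity
      have h := Real.add_one_le_exp x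
      have e : Real.exp (-x) ≤ 1 / (1 + x) := by
        rw [Real.exp_neg, ← one_div]; exact one_div_le_one_div_of_le (by linarith) (by linarith)
      rcases le_total x 1 with hx1 | hx1
      · rw [min_eq_left hx1]
        have : 1 / (1 + x) ≤ 1 - x / 2 := by rw [div_le_iff₀ (by linarith)]; nlinarith
        linarith
      · rw [min_eq_right hx1]
        have : 1 / (1 + x) ≤ 1 / 2 := by gcongr; linarith
        linarith
    have := mul_le_mul_of_nonneg_left key (mul_nonneg hF0 (phi_pos t).le)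
    nlinarith [mul_le_mul_of_nonneg_left hx hF0]
  have hpos : ∀ t, 0 ≤ F t * phi t - F t * phi (t + c.δ) := fun t => by
    rcases le_or_gt t 0 with ht | ht
    · simp [hzero t ht]
    · have := hn t ht
      have h0 : 0 ≤ F t * phi t * min (c.δ * t) 1 :=
        mul_nonneg (mul_nonneg measureReal_nonneg (phi_pos t).le) (le_min (by positivity) zero_le_one)
      linarith
  have iH : IntegrableOn (fun t => F t * phi t * min (c.δ * t) 1) (Ioi 0) := by
    refine Integrable.mono' i0.integrableOn (by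
      exact (i0.aestronglyMeasurable.mul (by fun_prop)).restrict) ?_
    refine (ae_restrict_mem measurableSet_Ioi).mono fun t ht => ?_
    have hm : 0 ≤ min (c.δ * t) 1 := le_min (mul_nonneg hδ.le (le_of_lt ht)) zero_le_one
    have h0 : 0 ≤ F t * phi t := mul_nonneg measureReal_nonneg (phi_pos t).le
    rw [Real.norm_of_nonneg (mul_nonneg h0 hm)]
    exact mul_le_of_le_one_right h0 (min_le_right _ _)
  have h3 : ∫ t in Ioi 0, F t * phi t * min (c.δ * t) 1 ≤
      2 * ∫ t, (F t * phi t - F t * phi (t + c.δ)) := by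
    rw [← integral_const_mul]
    refine (setIntegral_mono_on iH ((i0.sub i2).const_mul 2).integrableOn measurableSet_Ioi hn).trans ?_
    exact setIntegral_le_integral ((i0.sub i2).const_mul 2)
      (.of_forall fun t => by have := hpos t; positivity)
  linarith

lemma P_le (hG : 3 / 4 ≤ c.G (-S₀) S₀) (hδ1 : c.δ ≤ 1 / 200) : c.P ≤ 8 * c.δ * c.B := by
  have hδ := c.δpos
  set T : Set (((Fin n → ℝ) × ℝ) × ℝ) := {q | (q.1.1, q.1.2 - q.2) ∈ c.K ∧
    (q.1.1, q.1.2 + q.2) ∈ c.K ∧ q.1.2 ∈ Icc (-S₀) S₀ ∧ q.2 ∈ Icc (0 : ℝ) 1} with hT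
  have hTc : IsCompact T := by
    refine ((((c.cpt.image continuous_fst).prod (isCompact_Icc (a := -S₀) (b := S₀))).prod
      (isCompact_Icc (a := (0 : ℝ)) (b := 1)))).of_isClosed_subset ?_ ?_
    · exact (c.cpt.isClosed.preimage (by fun_prop)).inter ((c.cpt.isClosed.preimage (by fun_prop)).inter
        ((isClosed_Icc.preimage (by fun_prop)).inter (isClosed_Icc.preimage (by fun_prop))))
    · rintro ⟨⟨y, m⟩, h⟩ ⟨h1, -, h3, h4⟩
      exact ⟨⟨⟨_, h1, rfl⟩, h3⟩, h4⟩
  set W : Set ((Fin n → ℝ) × ℝ) := (fun q => (q.1.1, q.2)) '' T with hW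
  have hWcl : IsClosed W := (hTc.image (by fun_prop)).isClosed
  have hTcv : Convex ℝ T := by
    rintro ⟨⟨y, m⟩, h⟩ ⟨a1, a2, a3, a4⟩ ⟨⟨z, m'⟩, h'⟩ ⟨b1, b2, b3, b4⟩ u v hu hv huv
    refine ⟨?_, ?_, (convex_Icc _ _) a3 b3 hu hv huv, (convex_Icc _ _) a4 b4 hu hv huv⟩
    · show (u • y + v • z, u * m + v * m' - (u * h + v * h')) ∈ c.K
      rw [show u * m + v * m' - (u * h + v * h') = u * (m - h) + v * (m' - h') by ring]
      exact c.conv a1 b1 hu hv huv
    · show (u • y + v • z, u * m + v * m' + (u * h + v * h')) ∈ c.K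
      rw [show u * m + v * m' + (u * h + v * h') = u * (m + h) + v * (m' + h') by ring]
      exact c.conv a2 b2 hu hv huv
  have hWcv : Convex ℝ W :=
    hTcv.linear_image ((LinearMap.fst ℝ (Fin n → ℝ) ℝ).comp (LinearMap.fst ℝ _ ℝ) |>.prod
      (LinearMap.snd ℝ _ ℝ))
  have hsl : ∀ h, sl W h = {y | ∃ m, (y, m - h) ∈ c.K ∧ (y, m + h) ∈ c.K ∧
      m ∈ Icc (-S₀) S₀ ∧ h ∈ Icc (0 : ℝ) 1} := fun h => by
    ext y
    simp only [sl, hW, hT, mem_ofPred_eq, mem_image, Prod.exists, Prod.mk.injEq]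
    constructor
    · rintro ⟨z, m, r, hm, rfl, rfl⟩; exact ⟨m, hm⟩
    · rintro ⟨m, hm⟩; exact ⟨y, m, h, hm, rfl, rfl⟩
  set w : ℝ → ℝ := fun h => (gn n).real (sl W h) with hw
  have hlc : w 0 ^ (1 - c.δ) * w 1 ^ c.δ ≤ w c.δ := lc hWcv hWcl hδ.le (by linarith)
  have hS : (0 : ℝ) ≤ S₀ := by norm_num [S₀]
  set M : Set (Fin n → ℝ) := Prod.fst '' (c.K ∩ univ ×ˢ Icc (-S₀) S₀) with hM
  have hMm : MeasurableSet M :=
    ((c.cpt.inter_right (isClosed_univ.prod isClosed_Icc)).image continuous_fst).measurableSet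
  have e0 : sl W 0 = M := by
    rw [hsl]; ext y
    simp only [hM, mem_ofPred_eq, mem_image, mem_inter_iff, mem_prod, mem_univ, true_and,
      Prod.exists, sub_zero, add_zero, left_mem_Icc, zero_le_one, and_true]
    constructor
    · rintro ⟨m, h1, -, h3⟩; exact ⟨y, m, ⟨h1, h3⟩, rfl⟩
    · rintro ⟨z, m, ⟨h1, h3⟩, rfl⟩; exact ⟨m, h1, h1, h3⟩
  have hd : sl W c.δ ⊆ c.Long := by
    rw [hsl]; rintro y ⟨m, h1, h2, -⟩; exact ⟨(y, m), ⟨h2, h1⟩, rfl⟩
  have hd0 : sl W c.δ ⊆ M := by
    rw [hsl]; rintro y ⟨m, h1, h2, h3, h4⟩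
    exact ⟨(y, m), ⟨c.seg h1 h2 (by linarith) (by linarith), trivial, h3⟩, rfl⟩
  have h10 : sl W 1 ⊆ M := by
    rw [hsl]; rintro y ⟨m, h1, h2, h3, -⟩
    exact ⟨(y, m), ⟨c.seg h1 h2 (by linarith) (by linarith), trivial, h3⟩, rfl⟩
  have hG1 : c.G (-S₀) S₀ ≤ w 1 := by
    refine measureReal_mono ?_
    rw [hsl]; rintro y ⟨h1, h2⟩
    exact ⟨0, c.seg h1 h2 (by norm_num [S₀]) (by norm_num [S₀]),
      c.seg h1 h2 (by norm_num [S₀]) (by norm_num [S₀]), ⟨by linarith, hS⟩, by norm_num⟩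
  have w10 : w 1 ≤ w 0 := by simp only [hw, e0]; exact measureReal_mono h10
  have step1 : w 0 - w c.δ ≤ 2 * c.δ * (w 0 - w 1) :=
    lc_drop (by linarith) w10 measureReal_le_one hδ.le hlc
  have hP : c.P ≤ w 0 - w c.δ := by
    simp only [hw, e0]
    rw [← measureReal_sdiff hd0 (measurableSet_sl hWcl.measurableSet _)]
    exact measureReal_mono fun y hy => ⟨hy.1, fun h => hy.2 (hd h)⟩
  set A : Set (Fin n → ℝ) := (c.Long ∩ c.below (S₀ + 1)) \ c.below (-S₀) with hA
  have hAm : MeasurableSet A := (c.Long_meas.inter (c.below_meas _)).diff (c.below_meas _)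
  have hAB : (gn n).real A ≤ c.B := by
    rw [B, Phi, Phi, univ_inter]
    have hs : c.Long ∩ c.below (-S₀) ⊆ c.Long ∩ c.below (S₀ + 1) := fun y hy =>
      ⟨hy.1, fun r hr => hy.2 r (by linarith)⟩
    rw [← measureReal_sdiff hs (c.Long_meas.inter (c.below_meas _))]
    exact measureReal_mono fun y hy => ⟨hy.1, fun h => hy.2 h.2⟩
  have hcov : M \ sl W 1 ⊆ (M \ c.Long) ∪ (A ∪ {y | -y ∈ A}) := by
    rintro y ⟨hyM, hy1⟩
    by_cases hL : y ∈ c.Long
    swap
    · exact Or.inl ⟨hyM, hL⟩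
    right
    obtain ⟨⟨z, m⟩, ⟨hzK, -, hm⟩, rfl⟩ := hyM
    simp only at hm hy1 hL ⊢
    by_cases hp : (z, S₀ + 1) ∈ c.K
    · right
      refine ⟨⟨c.neg_long.2 hL, fun r hr hrK => hy1 ?_⟩, fun hb => hb (-m) (by linarith [hm.2]) ?_⟩
      · rw [c.neg_mem] at hrK
        rw [hsl]
        exact ⟨0, c.seg hrK hp (by linarith) (by linarith), by
          simpa using c.seg hrK hp (by linarith : -r ≤ 1) (by linarith), ⟨by linarith, hS⟩, by norm_num⟩
      · rw [c.neg_mem, neg_neg]; exact hzK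
    · left
      exact ⟨⟨hL, fun r hr hrK => hp (c.seg hzK hrK (by linarith [hm.2]) hr)⟩,
        fun hb => hb m hm.1 hzK⟩
  have step2 : w 0 - w 1 ≤ c.P + 2 * c.B := by
    simp only [hw, e0]
    rw [← measureReal_sdiff h10 (measurableSet_sl hWcl.measurableSet _)]
    refine (measureReal_mono hcov).trans ((measureReal_union_le _ _).trans ?_)
    refine add_le_add le_rfl ((measureReal_union_le _ _).trans ?_)
    rw [gn_neg hAm]; linarith
  have := c.P_nonneg
  have := c.B_nonneg
  nlinarith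

end Cyl

end Vale.Agent.P262.S2
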