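import Mathlib
import Vale.Agent.P262.S2.StarCore

/-! G1, fourth part: the loss of the short fibres, near, middle and far. -/

namespace Vale.Agent.P262.S2

open MeasureTheory ProbabilityTheory Filter Topology Set

variable {n : ℕ}

namespace Cyl

variable (c : Cyl n)

lemma loss_near : ∫ s in Icc (-S₀) S₀, c.ls s * phi s ≤ 2 * c.δ * c.P := by
  have hδ := c.δpos
  refine (setIntegral_mono_on c.int_ls.integrableOn (Integrable.mono' (integrable_const 1)
    c.meas_ls.aestronglyMeasurable (.of_forall fun s => by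
      rw [Real.norm_of_nonneg (c.ls_nonneg s)]; exact measureReal_le_one))
    measurableSet_Icc fun s _ => mul_le_of_le_one_right (c.ls_nonneg s) (phi_le_one s)).trans ?_
  set M : Set (Fin n → ℝ) := Prod.fst '' (c.K ∩ univ ×ˢ Icc (-S₀) S₀) with hM
  set X : Set ((Fin n → ℝ) × ℝ) := (c.K ∩ univ ×ˢ Icc (-S₀) S₀) \ Prod.fst ⁻¹' c.Long with hX
  have hXm : MeasurableSet X := ((c.cpt.inter_right (isClosed_univ.prod isClosed_Icc)).measurableSet).diff
    (c.Long_meas.preimage measurable_fst)
  have hMm : MeasurableSet (M \ c.Long) :=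
    (((c.cpt.inter_right (isClosed_univ.prod isClosed_Icc)).image continuous_fst).measurableSet).diff
      c.Long_meas
  have e1 : ((gn n).prod volume) X = ∫⁻ s in Icc (-S₀) S₀, gn n (sl c.K s \ c.Long) := by
    rw [Measure.prod_apply_symm hXm, ← lintegral_indicator measurableSet_Icc]
    refine lintegral_congr fun s => ?_
    by_cases hs : s ∈ Icc (-S₀) S₀
    · rw [indicator_of_mem hs]
      congr 1
      ext y
      simp [hX, sl, mem_Icc.1 hs]
    · rw [indicator_of_notMem hs]
      refine measure_mono_null (fun y hy => ?_) (measure_empty (μ := gn n))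
      exact absurd hy.1.2.2 hs
  have e2 : ((gn n).prod volume) X ≤ ENNReal.ofReal (2 * c.δ) * gn n (M \ c.Long) := by
    rw [Measure.prod_apply hXm, ← setLIntegral_const, ← lintegral_indicator hMm]
    refine lintegral_mono fun y => ?_
    by_cases hy : y ∈ M \ c.Long
    · rw [indicator_of_mem hy]
      refine (Real.volume_le_diam _).trans (Metric.ediam_le fun a ha b hb => ?_)
      rw [edist_dist, Real.dist_eq]
      refine ENNReal.ofReal_le_ofReal (le_of_not_gt fun hab => ?_)
      have key : ∀ a b, (y, a) ∈ c.K → (y, b) ∈ c.K → 2 * c.δ < b - a → False := fun a b ha hb h =>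
        hy.2 ⟨(y, a + c.δ), ⟨c.seg ha hb (by simp only; linarith) (by simp only; linarith),
          by simpa using ha⟩, rfl⟩
      rcases lt_abs.1 hab with h | h
      · exact key b a hb.1.1 ha.1.1 h
      · exact key a b ha.1.1 hb.1.1 (by linarith)
    · rw [indicator_of_notMem hy]
      refine le_of_eq (measure_mono_null (fun s hs => ?_) (measure_empty (μ := volume)))
      exact absurd ⟨⟨(y, s), hs.1, rfl⟩, hs.2⟩ hy
  rw [e1] at e2
  have e3 : ∫ s in Icc (-S₀) S₀, c.ls s =
      (∫⁻ s in Icc (-S₀) S₀, gn n (sl c.K s \ c.Long)).toReal := by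
    refine integral_toReal ?_ (.of_forall fun s => measure_lt_top _ _)
    exact (measurable_measure_prodMk_right (μ := gn n)
      (c.cpt.measurableSet.diff (c.Long_meas.preimage measurable_fst))).aemeasurable
  rw [e3]
  refine (ENNReal.toReal_mono (ENNReal.mul_ne_top ENNReal.ofReal_ne_top (measure_ne_top _ _)) e2).trans_eq ?_
  rw [ENNReal.toReal_mul, ENNReal.toReal_ofReal (by linarith)]
  rfl

lemma loss_mid {R : ℝ} (hd : c.δ ≤ 1) (hR : 1 / 2 ≤ c.G (-R) R) :
    ∫ s in Ioc S₀ R, c.ls s * phi s ≤ 2 * c.δ * c.P +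
      4 * (1 / S₀ ^ 2 + c.δ / S₀) * ∫ t in Ioi 0, c.Phi (sl c.K 0) t * phi t * min (c.δ * t) 1 := by
  have hδ := c.δpos
  have hS : (1 : ℝ) ≤ S₀ := by norm_num [S₀]
  set η := 1 / S₀ ^ 2 + c.δ / S₀ with hη
  set F := c.Phi (sl c.K 0) with hF
  set H := fun t => F t * phi t * min (c.δ * t) 1 with hH
  have i0 : Integrable fun t => F t * phi t := by simpa using c.int_phi_mul (A := sl c.K 0) 0
  have hH0 : ∀ t, 0 ≤ t → 0 ≤ H t := fun t ht =>
    mul_nonneg (mul_nonneg measureReal_nonneg (phi_pos t).le) (le_min (by positivity) zero_le_one)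
  have iH : IntegrableOn H (Ioi 0) := by
    refine Integrable.mono' i0.integrableOn
      ((i0.aestronglyMeasurable.mul (by fun_prop)).restrict) ?_
    refine (ae_restrict_mem measurableSet_Ioi).mono fun t ht => ?_
    rw [Real.norm_of_nonneg (hH0 t (le_of_lt ht))]
    exact mul_le_of_le_one_right (mul_nonneg measureReal_nonneg (phi_pos t).le) (min_le_right _ _)
  have hsub : Ioc S₀ R ⊆ Ioi 0 := fun t ht => by have := ht.1; simp only [mem_Ioi]; linarith
  have pw : ∀ s ∈ Ioc S₀ R, c.ls s * phi s ≤ 2 * c.δ * c.P * phi s + 4 * η * H s := by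
    intro s ⟨hs1, hs2⟩
    have hs0 : 0 < s := by linarith
    have hGs : 1 / 2 ≤ c.G (-s) s := hR.trans (c.G_mono (by linarith) (by linarith) (by linarith) hs2)
    set μ := (gn n).real (sl c.K s) with hμ
    have hGle : c.G (-s) s ≤ μ := measureReal_mono fun y hy => hy.2
    have hl : c.ls s ≤ μ - c.G (s - 2 * c.δ) s := by
      have h1 := measureReal_inter_add_sdiff (μ := gn n) (s := sl c.K s) c.Long_meas
      have h2 : c.G (s - 2 * c.δ) s ≤ (gn n).real (sl c.K s ∩ c.Long) :=
        measureReal_mono fun y hy => ⟨hy.2, (y, s - c.δ), ⟨by show (y, s - c.δ + c.δ) ∈ c.K; rw [sub_add_cancel]; exact hy.2, by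
          rw [show s - c.δ - c.δ = s - 2 * c.δ by ring]; exact hy.1⟩, rfl⟩
      rw [ls]; linarith
    have hθ : c.ls s ≤ 2 * (c.δ / s) * (μ - c.G (-s) s) := by
      have hle : c.δ / s ≤ 1 := by rw [div_le_one hs0]; linarith
      refine hl.trans (lc_drop hGs hGle measureReal_le_one (by positivity) ?_)
      have := c.lc_line s s (-s) s (θ := c.δ / s) (by positivity) hle
      rw [G_self] at this
      convert this using 2
      · field_simp; ring
      · ring
    have hQ : μ - c.G (-s) s ≤ c.P + 2 * F s := by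
      have hsub : sl c.K (-s) ∩ sl c.K s ⊆ sl c.K 0 := fun y hy =>
        c.seg hy.1 hy.2 (by linarith) (by linarith)
      have hcov : sl c.K 0 \ (sl c.K (-s) ∩ sl c.K s) ⊆ (sl c.K 0 \ c.Long) ∪
          ((sl c.K 0 ∩ c.Long ∩ c.below s) ∪ {y | -y ∈ sl c.K 0 ∩ c.Long ∩ c.below s}) := by
        rintro y ⟨hy0, hy⟩
        by_cases hL : y ∈ c.Long
        swap
        · exact Or.inl ⟨hy0, hL⟩
        right
        by_cases hp : (y, s) ∈ c.K
        · right
          refine ⟨⟨?_, c.neg_long.2 hL⟩, fun r hr hrK => hy ⟨?_, hp⟩⟩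
          · show (-y, 0) ∈ c.K
            rw [c.neg_mem, neg_zero]; exact hy0
          · rw [c.neg_mem] at hrK
            exact c.seg hrK hy0 (by linarith) (by linarith)
        · left
          exact ⟨⟨hy0, hL⟩, fun r hr hrK => hp (c.seg hy0 hrK hs0.le hr)⟩
      have h1 : (gn n).real (sl c.K 0) - c.G (-s) s ≤ c.P + 2 * F s := by
        rw [Cyl.G, ← measureReal_sdiff hsub ((c.sl_meas _).inter (c.sl_meas _))]
        refine (measureReal_mono hcov).trans ((measureReal_union_le _ _).trans (add_le_add ?_
          ((measureReal_union_le _ _).trans ?_)))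
        · exact measureReal_mono fun y hy =>
            ⟨⟨(y, 0), ⟨hy.1, trivial, by linarith, by linarith⟩, rfl⟩, hy.2⟩
        · rw [gn_neg (((c.sl_meas 0).inter c.Long_meas).inter (c.below_meas _)), hF, Phi]; linarith
      linarith [c.mu_le_zero s]
    have hr : c.δ / s ≤ η * min (c.δ * s) 1 := by
      rw [hη]
      rcases le_total (c.δ * s) 1 with h | h
      · rw [min_eq_left h]
        have : c.δ / s = c.δ * s * (1 / s ^ 2) := by field_simp
        rw [this, mul_comm _ (c.δ * s)]
        refine mul_le_mul_of_nonneg_left ?_ (by positivity)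
        have : 1 / s ^ 2 ≤ 1 / S₀ ^ 2 := by gcongr
        have : 0 ≤ c.δ / S₀ := by positivity
        linarith
      · rw [min_eq_right h, mul_one]
        have : c.δ / s ≤ c.δ / S₀ := by gcongr
        have : (0 : ℝ) ≤ 1 / S₀ ^ 2 := by positivity
        linarith
    have hds : c.δ / s ≤ c.δ := by rw [div_le_iff₀ hs0]; nlinarith
    have hF0 : 0 ≤ F s := measureReal_nonneg
    have := c.P_nonneg
    calc c.ls s * phi s ≤ 2 * (c.δ / s) * (c.P + 2 * F s) * phi s := by
          refine mul_le_mul_of_nonneg_right (hθ.trans ?_) (phi_pos s).le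
          exact mul_le_mul_of_nonneg_left hQ (by positivity)
      _ = 2 * (c.δ / s) * c.P * phi s + 4 * ((c.δ / s) * F s) * phi s := by ring
      _ ≤ 2 * c.δ * c.P * phi s + 4 * (η * min (c.δ * s) 1 * F s) * phi s := by
          gcongr <;> exact (phi_pos s).le
      _ = _ := by simp only [hH]; ring
  refine (setIntegral_mono_on c.int_ls.integrableOn
    ((integrable_phi.integrableOn.const_mul _).add ((iH.mono_set hsub).const_mul _))
    measurableSet_Ioc pw).trans ?_
  simp only [Pi.add_apply]
  rw [integral_add (integrable_phi.integrableOn.const_mul _) ((iH.mono_set hsub).const_mul _),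
    integral_const_mul, integral_const_mul]
  refine add_le_add (mul_le_of_le_one_right (by have := c.P_nonneg; positivity) ?_)
    (mul_le_mul_of_nonneg_left ?_ (by positivity))
  · refine (setIntegral_mono_set integrable_phi.integrableOn (.of_forall fun t => (phi_pos t).le)
      (LE.le.eventuallyLE Ioc_subset_Ioi_self)).trans
      ((int_phi_Ioi (by linarith)).trans ?_)
    rw [div_le_one (by linarith)]; linarith [phi_le_one S₀]
  · exact setIntegral_mono_set iH
      ((ae_restrict_mem measurableSet_Ioi).mono fun t ht => hH0 t (le_of_lt ht))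
      (LE.le.eventuallyLE hsub)

lemma loss_far {R : ℝ} (hR0 : 0 < R) (hd : c.δ ≤ R) (hR : 1 / 2 ≤ c.G (-R) R) :
    ∫ s in Ioi R, c.ls s * phi s ≤ 2 * (c.δ / R) * (phi R / R) := by
  have hδ := c.δpos
  set θ := c.δ / R with hθ
  have hθ0 : 0 < θ := by positivity
  have hθ1 : θ ≤ 1 := (div_le_one hR0).2 hd
  set μ := fun s => (gn n).real (sl c.K s) with hμ
  have mμ : Measurable μ := measurable_slice c.cpt.measurableSet
  have iμ : Integrable fun s => μ s * phi s := intg mμ fun s => by
    rw [abs_of_nonneg measureReal_nonneg]; exact measureReal_le_one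
  have il : Integrable fun s => (μ s - c.ls s) * phi s :=
    (iμ.sub c.int_ls).congr (.of_forall fun s => (sub_mul _ _ _).symm)
  set f := fun v => (μ v - c.ls v) * phi v with hf
  have hlong : ∀ v, μ v - c.ls v = (gn n).real (sl c.K v ∩ c.Long) := fun v => by
    have h1 := measureReal_inter_add_sdiff (μ := gn n) (s := sl c.K v) c.Long_meas
    simp only [hμ, ls]; linarith
  rcases eq_or_lt_of_le hθ1 with he | hlt
  · have h1 : ∫ s in Ioi R, c.ls s * phi s ≤ ∫ s in Ioi R, phi s :=
      setIntegral_mono_on c.int_ls.integrableOn integrable_phi.integrableOn measurableSet_Ioi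
        fun s _ => mul_le_of_le_one_left (phi_pos s).le measureReal_le_one
    refine h1.trans ((int_phi_Ioi hR0).trans ?_)
    rw [he]; have := (phi_pos R); have : 0 ≤ phi R / R := by positivity
    linarith
  set l := 1 - θ with hl
  have hl0 : 0 < l := by linarith
  have hRl : l * R + c.δ = R := by rw [hl, hθ]; field_simp; ring
  have pw : ∀ s ∈ Ioi R, l * (μ s * phi s) ≤ f (l * s + c.δ) := by
    intro s hs
    have hs' : R < s := hs
    have hG := c.lc_line s s (-R) R (θ := θ) hθ0.le hθ1
    rw [G_self] at hG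
    have e1 : (1 - θ) * s + θ * -R = l * s - c.δ := by rw [hl, hθ]; field_simp; ring
    have e2 : (1 - θ) * s + θ * R = l * s + c.δ := by rw [hl, hθ]; field_simp
    rw [e1, e2] at hG
    have h3 : c.G (l * s - c.δ) (l * s + c.δ) ≤ μ (l * s + c.δ) - c.ls (l * s + c.δ) := by
      rw [hlong]
      exact measureReal_mono fun y hy => ⟨hy.2, (y, l * s), ⟨hy.2, hy.1⟩, rfl⟩
    have h4 : l * μ s ≤ μ (l * s + c.δ) - c.ls (l * s + c.δ) := by
      refine le_trans ?_ (hG.trans h3)
      rcases eq_or_lt_of_le (measureReal_nonneg (μ := gn n) (s := sl c.K s)) with h0 | h0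
      · simp only [hμ, ← h0, mul_zero]
        exact mul_nonneg (Real.rpow_nonneg le_rfl _) (Real.rpow_nonneg measureReal_nonneg _)
      have a1 : μ s ≤ μ s ^ (1 - θ) :=
        Real.self_le_rpow_of_le_one measureReal_nonneg measureReal_le_one (by linarith)
      have a2 : l ≤ c.G (-R) R ^ θ := by
        refine le_trans ?_ (Real.rpow_le_rpow (by norm_num) hR hθ0.le)
        rw [Real.rpow_def_of_pos (by norm_num)]
        refine le_trans ?_ (Real.add_one_le_exp _)
        rw [one_div, Real.log_inv]
        have h2 := Real.log_two_lt_d9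
        rw [hl]; nlinarith
      rw [mul_comm]
      exact mul_le_mul a1 a2 hl0.le (Real.rpow_nonneg measureReal_nonneg _)
    have hv : l * s + c.δ ≤ s := by
      rw [hl]; have : θ * R = c.δ := by rw [hθ]; field_simp
      nlinarith
    have hp : phi s ≤ phi (l * s + c.δ) := phi_anti (by
      rw [abs_of_nonneg (by nlinarith), abs_of_pos (by linarith)]; exact hv)
    simp only [hf]
    calc l * (μ s * phi s) = l * μ s * phi s := by ring
      _ ≤ _ := mul_le_mul h4 hp (phi_pos s).le (by rw [hlong]; exact measureReal_nonneg)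
  have hsub : ∫ s in Ioi R, f (l * s + c.δ) = l⁻¹ * ∫ v in Ioi R, f v := by
    rw [integral_comp_mul_left_Ioi (fun u => f (u + c.δ)) R hl0, smul_eq_mul]
    congr 1
    rw [← integral_indicator measurableSet_Ioi, ← integral_indicator measurableSet_Ioi,
      ← integral_add_right_eq_self (fun v => (Ioi R).indicator f v) c.δ]
    refine integral_congr_ae (.of_forall fun u => ?_)
    simp only [indicator, mem_Ioi]
    by_cases h : l * R < u
    · rw [if_pos h, if_pos (by linarith)]
    · rw [if_neg h, if_neg (by linarith)]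
  have i1 : IntegrableOn (fun s => f (l * s + c.δ)) (Ioi R) :=
    (((il.comp_add_right c.δ).comp_mul_left' hl0.ne')).integrableOn
  have h1 := setIntegral_mono_on (iμ.integrableOn.const_mul l) i1 measurableSet_Ioi pw
  rw [integral_const_mul, hsub] at h1
  have h2 : l * l * ∫ s in Ioi R, μ s * phi s ≤ ∫ v in Ioi R, f v := by
    have := mul_le_mul_of_nonneg_left h1 hl0.le
    rwa [← mul_assoc, ← mul_assoc, mul_inv_cancel₀ hl0.ne', one_mul] at this
  have h3 : ∫ s in Ioi R, c.ls s * phi s = (∫ s in Ioi R, μ s * phi s) - ∫ v in Ioi R, f v := by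
    rw [← integral_sub iμ.integrableOn il.integrableOn]
    refine setIntegral_congr_fun measurableSet_Ioi fun s _ => ?_
    simp only [hf]; ring
  have h4 : ∫ s in Ioi R, μ s * phi s ≤ phi R / R :=
    (setIntegral_mono_on iμ.integrableOn integrable_phi.integrableOn measurableSet_Ioi
      fun s _ => mul_le_of_le_one_left (phi_pos s).le measureReal_le_one).trans (int_phi_Ioi hR0)
  have h5 : 0 ≤ ∫ s in Ioi R, μ s * phi s :=
    setIntegral_nonneg measurableSet_Ioi fun s _ => mul_nonneg measureReal_nonneg (phi_pos s).le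
  rw [h3]
  have h6 := mul_le_mul_of_nonneg_left h4 (by positivity : 0 ≤ 2 * θ)
  rw [hl] at h2
  nlinarith [mul_nonneg (sq_nonneg θ) h5]

end Cyl

end Vale.Agent.P262.S2
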