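import Mathlib
import Vale.Agent.P262.S2.Interface
import Vale.Agent.P262.S2.StarLoss

/-! G1: the one-step lemma. -/

namespace Vale.Agent.P262.S2

open MeasureTheory ProbabilityTheory Filter Topology Set

variable {n : ℕ}

/-- The normalising constant of the Gaussian density. -/
noncomputable def gc : ℝ := (√(2 * Real.pi))⁻¹

lemma gc_pos : 0 < gc := inv_pos.2 (Real.sqrt_pos.2 (by positivity))

/-- The measure deficit allowed by the one-step lemma. -/
noncomputable def ε₁ : ℝ := gc * phi (S₀ + 1) / 16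

lemma real_prod_eq {X : Set ((Fin n → ℝ) × ℝ)} (hX : MeasurableSet X) :
    ((gn n).prod (gaussianReal 0 1)).real X = gc * ∫ s, (gn n).real (sl X s) * phi s := by
  have h1 : ((gn n).prod (gaussianReal 0 1)).real X =
      ∫ s, (gn n).real (sl X s) ∂gaussianReal 0 1 := by
    rw [measureReal_def, Measure.prod_apply_symm hX]
    exact (integral_toReal (measurable_measure_prodMk_right (μ := gn n) hX).aemeasurable
      (.of_forall fun s => measure_lt_top _ _)).symm
  rw [h1, integral_gaussianReal_eq_integral_smul one_ne_zero, ← integral_const_mul]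
  refine integral_congr_ae (.of_forall fun s => ?_)
  simp only [gaussianPDFReal_def, smul_eq_mul, NNReal.coe_one, mul_one, sub_zero, phi, gc]
  ring

lemma gc_int_phi : gc * ∫ s, phi s = 1 := by
  have h := real_prod_eq (n := 0) (X := univ) MeasurableSet.univ
  simpa [sl] using h.symm

namespace Cyl

variable (c : Cyl n)

lemma central (h : 1 - ε₁ ≤ ((gn n).prod (gaussianReal 0 1)).real c.K) :
    3 / 4 ≤ c.G (-S₀) S₀ := by
  have hS : (0 : ℝ) ≤ S₀ := by norm_num [S₀]
  have hex : ∃ s ∈ Icc S₀ (S₀ + 1), 7 / 8 ≤ (gn n).real (sl c.K s) := by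
    by_contra hcon
    push Not at hcon
    rw [real_prod_eq c.cpt.measurableSet] at h
    have iμ : Integrable fun s => (gn n).real (sl c.K s) * phi s :=
      intg (measurable_slice c.cpt.measurableSet) fun s => by
        rw [abs_of_nonneg measureReal_nonneg]; exact measureReal_le_one
    have h1 : phi (S₀ + 1) / 8 ≤ ∫ s, (phi s - (gn n).real (sl c.K s) * phi s) := by
      refine le_trans ?_ (setIntegral_le_integral (s := Icc S₀ (S₀ + 1)) (integrable_phi.sub iμ)
        (.of_forall fun s => sub_nonneg.2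
          (mul_le_of_le_one_left (phi_pos s).le measureReal_le_one)))
      have hb : ∀ s ∈ Icc S₀ (S₀ + 1),
          phi (S₀ + 1) / 8 ≤ phi s - (gn n).real (sl c.K s) * phi s := fun s hs => by
        have := phi_anti (s := s) (t := S₀ + 1)
          (by rw [abs_of_nonneg (by linarith [hs.1]), abs_of_nonneg (by linarith)]; exact hs.2)
        nlinarith [hcon s hs, phi_pos s]
      have := setIntegral_mono_on (μ := volume) (integrableOn_const (by simp))
        (integrable_phi.sub iμ).integrableOn measurableSet_Icc hb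
      simpa using this
    rw [integral_sub integrable_phi iμ] at h1
    have h2 := mul_le_mul_of_nonneg_left h1 gc_pos.le
    rw [mul_sub, gc_int_phi] at h2
    have := mul_pos gc_pos (phi_pos (S₀ + 1))
    rw [ε₁] at h
    linarith
  obtain ⟨s, hs, hμ⟩ := hex
  refine le_trans ?_ (c.G_mono (a := -s) (b := s) (by linarith [hs.1]) (by linarith [hs.1])
    (by linarith [hs.1]) hs.1)
  have h1 : (gn n).real (sl c.K (-s) ∪ sl c.K s) ≤ 1 := measureReal_le_one
  have h2 := measureReal_union_add_inter (μ := gn n) (s := sl c.K (-s)) (c.sl_meas s)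
  rw [c.mu_neg] at h2
  rw [G]; linarith

/-- The radius up to which half of the fibres contain both ends. -/
lemma radius (hd : c.δ ≤ 1 / 40000) (hG : 3 / 4 ≤ c.G (-S₀) S₀) :
    ∃ R, S₀ ≤ R ∧ 1 / 2 ≤ c.G (-R) R ∧ 1 / 10 ≤ c.Phi (sl c.K 0) (R + 1 / R) := by
  have hδ := c.δpos
  have hS : (0 : ℝ) < S₀ := by norm_num [S₀]
  have hd' : c.δ ≤ 1 / 40000 := hd
  obtain ⟨b, hb⟩ := c.cpt.isBounded.exists_norm_le
  set Rs : Set ℝ := {r | 0 ≤ r ∧ 1 / 2 ≤ c.G (-r) r} with hRs
  have hne : S₀ ∈ Rs := ⟨hS.le, by linarith⟩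
  have hbdd : BddAbove Rs := ⟨b, fun r hr => by
    have hne' : (sl c.K (-r) ∩ sl c.K r).Nonempty := nonempty_of_measureReal_ne_zero
      (μ := gn n) (by have := hr.2; rw [Cyl.G] at this; linarith)
    obtain ⟨y, -, hy⟩ := hne'
    exact (le_abs_self r).trans ((norm_snd_le (y, r)).trans (hb _ hy))⟩
  have hR1 : S₀ ≤ sSup Rs := le_csSup hbdd hne
  obtain ⟨r, hr, hr1⟩ := exists_lt_of_lt_csSup ⟨_, hne⟩
    (sub_lt_self (sSup Rs) (one_div_pos.2 (hS.trans_le hR1)))
  set R := max r S₀ with hR
  have hRm : R ∈ Rs := by rcases max_choice r S₀ with h | h <;> rw [hR, h] <;> assumption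
  have hSR : S₀ ≤ R := le_max_right _ _
  have hR0 : 0 < R := hS.trans_le hSR
  have hRle : R ≤ sSup Rs := le_csSup hbdd hRm
  have hout : c.G (-(R + 1 / R)) (R + 1 / R) < 1 / 2 := by
    by_contra hcon
    have h1 : R + 1 / R ≤ sSup Rs := le_csSup hbdd ⟨by positivity, not_lt.1 hcon⟩
    have h2 : 1 / sSup Rs ≤ 1 / R := one_div_le_one_div_of_le hR0 hRle
    linarith [le_max_left r S₀]
  set F := c.Phi (sl c.K 0) with hF
  have hP := c.P_le hG (hd'.trans (by norm_num))
  have hB0 := c.B_nonneg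
  have hB1 := c.B_le_one
  have hP0 := c.P_nonneg
  have hF1 : 1 / 10 ≤ F (R + 1 / R) := by
    set t := R + 1 / R with ht
    have ht0 : 0 < t := by positivity
    have hsub : sl c.K (-t) ∩ sl c.K t ⊆ sl c.K 0 := fun y hy =>
      c.seg hy.1 hy.2 (by linarith) (by linarith)
    have h0 : 3 / 4 ≤ (gn n).real (sl c.K 0) := hG.trans (measureReal_mono fun y hy =>
      c.seg hy.1 hy.2 (by linarith) (by linarith))
    have hcov : sl c.K 0 \ (sl c.K (-t) ∩ sl c.K t) ⊆ (sl c.K 0 \ c.Long) ∪
        ((sl c.K 0 ∩ c.Long ∩ c.below t) ∪ {y | -y ∈ sl c.K 0 ∩ c.Long ∩ c.below t}) := by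
      rintro y ⟨hy0, hy⟩
      by_cases hL : y ∈ c.Long
      swap
      · exact Or.inl ⟨hy0, hL⟩
      right
      by_cases hp : (y, t) ∈ c.K
      · right
        refine ⟨⟨?_, c.neg_long.2 hL⟩, fun q hq hqK => hy ⟨?_, hp⟩⟩
        · show (-y, 0) ∈ c.K
          rw [c.neg_mem, neg_zero]; exact hy0
        · rw [c.neg_mem] at hqK
          exact c.seg hqK hy0 (by linarith) (by linarith)
      · left
        exact ⟨⟨hy0, hL⟩, fun q hq hqK => hp (c.seg hy0 hqK ht0.le hq)⟩
    have h1 : (gn n).real (sl c.K 0) - c.G (-t) t ≤ c.P + 2 * F t := by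
      rw [Cyl.G, ← measureReal_sdiff hsub ((c.sl_meas _).inter (c.sl_meas _))]
      refine (measureReal_mono hcov).trans ((measureReal_union_le _ _).trans (add_le_add ?_
        ((measureReal_union_le _ _).trans ?_)))
      · exact measureReal_mono fun y hy =>
          ⟨⟨(y, 0), ⟨hy.1, trivial, by linarith, hS.le⟩, rfl⟩, hy.2⟩
      · rw [gn_neg (((c.sl_meas 0).inter c.Long_meas).inter (c.below_meas _)), hF, Phi]; linarith
    have : 8 * c.δ * c.B ≤ 1 / 5000 := by nlinarith
    linarith
  exact ⟨R, hSR, hRm.2, hF1⟩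

lemma gain_radius {R : ℝ} (hSR : S₀ ≤ R) (hF1 : 1 / 10 ≤ c.Phi (sl c.K 0) (R + 1 / R)) :
    min (c.δ * R) 1 * phi R / R / 560 ≤
      ∫ t in Ioi 0, c.Phi (sl c.K 0) t * phi t * min (c.δ * t) 1 := by
  have hδ := c.δpos
  have hS1 : (1 : ℝ) ≤ S₀ := by norm_num [S₀]
  have hR0 : 0 < R := by linarith
  set F := c.Phi (sl c.K 0) with hF
  set I := ∫ t in Ioi 0, F t * phi t * min (c.δ * t) 1 with hI
  have iH : IntegrableOn (fun t => F t * phi t * min (c.δ * t) 1) (Ioi 0) := by
    have i0 : Integrable fun t => F t * phi t := by simpa using c.int_phi_mul (A := sl c.K 0) 0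
    refine Integrable.mono' i0.integrableOn
      ((i0.aestronglyMeasurable.mul (by fun_prop)).restrict) ?_
    refine (ae_restrict_mem measurableSet_Ioi).mono fun t ht => ?_
    have ht' : (0 : ℝ) < t := ht
    have h0 : 0 ≤ F t * phi t := mul_nonneg measureReal_nonneg (phi_pos t).le
    have hm : 0 ≤ min (c.δ * t) 1 := le_min (by positivity) zero_le_one
    rw [Real.norm_of_nonneg (mul_nonneg h0 hm)]
    exact mul_le_of_le_one_right h0 (min_le_right _ _)
  have hinv : 1 / R ≤ 1 := by rw [div_le_one hR0]; linarith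
  have hb : ∀ t ∈ Ioc (R + 1 / R) (R + 2 / R),
      1 / 10 * (phi R / 56) * min (c.δ * R) 1 ≤ F t * phi t * min (c.δ * t) 1 := by
    intro t ⟨ht1, ht2⟩
    have hFt : 1 / 10 ≤ F t := hF1.trans (c.Phi_mono _ ht1.le)
    have htR : R ≤ t := le_trans (le_add_of_nonneg_right (by positivity)) ht1.le
    have hpt : phi R / 56 ≤ phi t := by
      have e : phi R * Real.exp (-4) ≤ phi t := by
        rw [phi, phi, ← Real.exp_add]
        refine Real.exp_le_exp.2 ?_
        have h2 : t * t ≤ (R + 2 / R) * (R + 2 / R) :=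
          mul_self_le_mul_self (hR0.le.trans htR) ht2
        have h3 : (R + 2 / R) * (R + 2 / R) = R * R + 4 + 4 * (1 / R) * (1 / R) := by
          field_simp; ring
        nlinarith [one_div_pos.2 hR0]
      have h56 : Real.exp 4 ≤ 56 := by
        have h1 := Real.exp_one_lt_d9
        have : Real.exp 4 = Real.exp 1 ^ 4 := by rw [← Real.exp_nat_mul]; norm_num
        rw [this]
        calc Real.exp 1 ^ 4 ≤ (2.72 : ℝ) ^ 4 :=
              pow_le_pow_left₀ (Real.exp_pos 1).le (by linarith) 4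
          _ ≤ 56 := by norm_num
      refine le_trans ?_ e
      rw [Real.exp_neg, ← div_eq_mul_inv]
      exact div_le_div_of_nonneg_left (phi_pos R).le (Real.exp_pos _) h56
    refine mul_le_mul (mul_le_mul hFt hpt (by have := phi_pos R; positivity) measureReal_nonneg)
      (min_le_min (by gcongr) le_rfl) (le_min (by positivity) zero_le_one)
      (mul_nonneg measureReal_nonneg (phi_pos t).le)
  have hsub : Ioc (R + 1 / R) (R + 2 / R) ⊆ Ioi 0 := fun t ht =>
    lt_trans (by positivity : (0 : ℝ) < R + 1 / R) ht.1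
  have h1 := setIntegral_mono_on (μ := volume) (integrableOn_const (by simp))
    (iH.mono_set hsub) measurableSet_Ioc hb
  have h2 : ∫ t in Ioc (R + 1 / R) (R + 2 / R), F t * phi t * min (c.δ * t) 1 ≤ I :=
    setIntegral_mono_set iH ((ae_restrict_mem measurableSet_Ioi).mono fun t ht => by
      have ht' : (0 : ℝ) < t := ht
      exact mul_nonneg (mul_nonneg measureReal_nonneg (phi_pos t).le)
        (le_min (by positivity) zero_le_one)) (LE.le.eventuallyLE hsub)
  rw [setIntegral_const, Real.volume_real_Ioc_of_le (by gcongr; norm_num), smul_eq_mul] at h1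
  refine le_trans (le_of_eq ?_) (h1.trans h2)
  field_simp; ring

/-- The loss is at most the gain. -/
lemma loss_le_gain (hd : c.δ ≤ δ₁) (hG : 3 / 4 ≤ c.G (-S₀) S₀) :
    ∫ s, c.ls s * phi s ≤ ∫ s, c.gs s * phi s := by
  have hδ := c.δpos
  have hS : (0 : ℝ) < S₀ := by norm_num [S₀]
  have hS1 : (1 : ℝ) ≤ S₀ := by norm_num [S₀]
  have hd' : c.δ ≤ 1 / 40000 := hd.trans (by rw [δ₁]; linarith [phi_le_one (S₀ + 2)])
  have hd1 : c.δ ≤ 1 := hd'.trans (by norm_num)
  obtain ⟨R, hSR, hRG, hF1⟩ := c.radius hd' hG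
  have hR0 : 0 < R := hS.trans_le hSR
  have hP := c.P_le hG (hd'.trans (by norm_num))
  have hB0 := c.B_nonneg
  have hP0 := c.P_nonneg
  have hgain := c.gain_far
  have hX1 := c.gain_radius hSR hF1
  set F := c.Phi (sl c.K 0) with hF
  set I := ∫ t in Ioi 0, F t * phi t * min (c.δ * t) 1 with hI
  set X := min (c.δ * R) 1 * phi R / R with hX
  set GG := ∫ s, c.gs s * phi s with hGG
  have hw := c.window hd1
  rw [← hGG] at hw
  have hGG0 : 0 ≤ GG := integral_nonneg fun s => mul_nonneg (c.gs_nonneg s) (phi_pos s).le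
  have hB48 : c.δ * (48 * c.δ * c.B) ≤ c.δ * (phi (S₀ + 2) * c.B / 800) := by
    refine mul_le_mul_of_nonneg_left ?_ hδ.le
    rw [δ₁] at hd
    nlinarith [mul_le_mul_of_nonneg_right hd hB0]
  set η := 1 / S₀ ^ 2 + c.δ / S₀ with hη
  have hη0 : 0 ≤ η := by positivity
  have hη1 : η ≤ 1 / 39000 := by rw [hη]; norm_num [S₀]; linarith
  have hfar : c.δ / R * (phi R / R) ≤ η * X := by
    have hXe : X = min (c.δ * R) 1 * (phi R / R) := by rw [hX]; ring
    rw [hXe, ← mul_assoc]
    refine mul_le_mul_of_nonneg_right ?_ (by have := phi_pos R; positivity)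
    rw [hη]
    rcases le_total (c.δ * R) 1 with h | h
    · rw [min_eq_left h]
      have e : c.δ / R = c.δ * R * (1 / R ^ 2) := by field_simp
      rw [e, mul_comm _ (c.δ * R)]
      refine mul_le_mul_of_nonneg_left ?_ (by positivity)
      have : 1 / R ^ 2 ≤ 1 / S₀ ^ 2 := by gcongr
      have : 0 ≤ c.δ / S₀ := by positivity
      linarith
    · rw [min_eq_right h, mul_one]
      have : c.δ / R ≤ c.δ / S₀ := by gcongr
      have : (0 : ℝ) ≤ 1 / S₀ ^ 2 := by positivity
      linarith
  have h1 := c.loss_near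
  have h2 := c.loss_mid hd1 hRG
  have h3 := c.loss_far hR0 (by linarith) hRG
  set La := ∫ s in Icc (-S₀) S₀, c.ls s * phi s with hLa
  set Lb := ∫ s in Ioc S₀ R, c.ls s * phi s with hLb
  set Lc := ∫ s in Ioi R, c.ls s * phi s with hLc
  have hsplit : ∫ s, c.ls s * phi s = La + 2 * (Lb + Lc) := by
    have e1 : ∫ s in Ioi S₀, c.ls s * phi s = Lb + Lc := by
      rw [← Ioc_union_Ioi_eq_Ioi hSR, setIntegral_union Ioc_disjoint_Ioi_same measurableSet_Ioi
        c.int_ls.integrableOn c.int_ls.integrableOn]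
    have e2 : ∫ s in Iio (-S₀), c.ls s * phi s = Lb + Lc := by
      rw [← e1, ← integral_Iic_eq_integral_Iio, ← integral_comp_neg_Ioi]
      simp only [c.ls_neg, phi_neg]
    have e3 : ∫ s in Iic S₀, c.ls s * phi s = (Lb + Lc) + La := by
      have hdj : Disjoint (Iio (-S₀)) (Icc (-S₀) S₀) :=
        Set.disjoint_left.2 fun s (h : s < -S₀) h' => not_le.2 h h'.1
      rw [← e2, ← Iio_union_Icc_eq_Iic (by linarith : -S₀ ≤ S₀),
        setIntegral_union hdj measurableSet_Icc c.int_ls.integrableOn c.int_ls.integrableOn]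
    rw [← intervalIntegral.integral_Iic_add_Ioi c.int_ls.integrableOn c.int_ls.integrableOn (b := S₀),
      e1, e3]
    ring
  rw [hsplit]
  have hηI : η * I ≤ (2 * GG) / 39000 := by nlinarith
  have hηX : η * X ≤ 1120 * GG / 39000 := by
    have hX0 : 0 ≤ X := by rw [hX]; have := phi_pos R; positivity
    nlinarith
  have h4 : c.δ * c.P ≤ c.δ * (8 * c.δ * c.B) := mul_le_mul_of_nonneg_left hP hδ.le
  nlinarith

end Cyl

/-- G1: the one-step lemma. -/
theorem starLemma : StarLemma := by
  refine ⟨δ₁, ε₁, by unfold δ₁; have := phi_pos (S₀ + 2); positivity,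
    by unfold ε₁; have := phi_pos (S₀ + 1); have := gc_pos; positivity, ?_⟩
  intro ι _ K hconv hcpt hsym hK u hu
  by_cases hu0 : u = 0
  · exact ⟨K, hconv, hcpt, hsym, le_rfl, fun p hp => Or.inl (by simpa [hu0] using hp)⟩
  classical
  obtain ⟨m, hm⟩ : ∃ m, Fintype.card ι = m + 1 := by
    refine Nat.exists_eq_succ_of_ne_zero fun h => hu0 ?_
    have := Fintype.card_eq_zero_iff.1 h
    exact Subsingleton.elim _ _
  set e : EuclideanSpace ℝ ι := ‖u‖⁻¹ • u with he
  have hne : ‖e‖ = 1 := norm_smul_inv_norm hu0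
  have hfin : Module.finrank ℝ (EuclideanSpace ℝ ι) = Fintype.card (Fin (m + 1)) := by simp [hm]
  have horth : Orthonormal ℝ (({0} : Set (Fin (m + 1))).domRestrict fun _ => e) :=
    ⟨fun _ => hne, fun i j hij => absurd (Subsingleton.elim i j) hij⟩
  obtain ⟨b, hb⟩ := horth.exists_orthonormalBasis_extension_of_card_eq hfin
  have hb0 : b 0 = e := hb 0 rfl
  set M : (Fin m → ℝ) × ℝ → EuclideanSpace ℝ ι :=
    fun p => ∑ i, (Fin.cons p.2 p.1 : Fin (m + 1) → ℝ) i • b i with hM
  have hMc : Continuous M := by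
    simp only [hM, Fin.sum_univ_succ, Fin.cons_zero, Fin.cons_succ]
    fun_prop
  have hMa : ∀ (x y : (Fin m → ℝ) × ℝ) (a a' : ℝ), M (a • x + a' • y) = a • M x + a' • M y := by
    intro x y a a'
    simp only [hM, Fin.sum_univ_succ, Fin.cons_zero, Fin.cons_succ, Prod.smul_fst, Prod.smul_snd,
      Prod.fst_add, Prod.snd_add, Pi.smul_apply, Pi.add_apply, smul_eq_mul, add_smul, mul_smul,
      Finset.sum_add_distrib, smul_add, Finset.smul_sum]
    abel
  set N : EuclideanSpace ℝ ι → (Fin m → ℝ) × ℝ :=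
    fun z => (fun i => b.repr z i.succ, b.repr z 0) with hN
  have hNM : ∀ z, M (N z) = z := fun z => by
    have hc : (Fin.cons (N z).2 (N z).1 : Fin (m + 1) → ℝ) = fun i => b.repr z i :=
      Fin.cons_self_tail _
    simp only [hM, hc]
    exact b.sum_repr z
  have hMN : ∀ p, N (M p) = p := fun p => by
    have hr : ∀ i, b.repr (M p) i = (Fin.cons p.2 p.1 : Fin (m + 1) → ℝ) i := fun i => by
      simp [hM, Pi.single_apply]
    refine Prod.ext (funext fun i => ?_) ?_ <;> simp only [hN, hr, Fin.cons_zero, Fin.cons_succ]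
  have hmp : MeasurePreserving M ((gn m).prod (gaussianReal 0 1)) (gauss ι) := by
    have h1 := ((measurePreserving_piFinSuccAbove
      (fun _ : Fin (m + 1) => gaussianReal 0 1) 0).symm _).comp
      (Measure.measurePreserving_swap (μ := gn m) (ν := gaussianReal 0 1))
    have h2 : MeasurePreserving (fun x : Fin (m + 1) → ℝ => ∑ i, x i • b i)
        (Measure.pi fun _ => gaussianReal 0 1) (gauss ι) :=
      ⟨by fun_prop, (stdGaussian_eq_map_pi_orthonormalBasis b).symm⟩
    have h3 := h2.comp h1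
    convert h3 using 1
    funext p
    simp [hM, Function.comp_def]
  have hreal : ∀ A : Set (EuclideanSpace ℝ ι), MeasurableSet A →
      (gauss ι).real A = ((gn m).prod (gaussianReal 0 1)).real (M ⁻¹' A) := fun A hA =>
    congrArg ENNReal.toReal (hmp.measure_preimage hA.nullMeasurableSet).symm
  let c : Cyl m :=
    { K := M ⁻¹' K
      conv := fun x hx y hy a a' ha ha' h => by
        show M (a • x + a' • y) ∈ K
        rw [hMa]; exact hconv hx hy ha ha' h
      cpt := by
        have : M ⁻¹' K = N '' K := by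
          ext p
          exact ⟨fun h => ⟨M p, h, hMN p⟩, by rintro ⟨z, hz, rfl⟩; simpa [hNM] using hz⟩
        rw [this]
        exact hcpt.image (by fun_prop)
      symm := fun p hp => by
        show M (-p) ∈ K
        have := hMa p p (-1) 0
        simp only [neg_smul, one_smul, zero_smul, add_zero] at this
        rw [this]; exact hsym _ hp
      δ := ‖u‖
      δpos := norm_pos_iff.2 hu0 }
  have hK' : M '' c.K' = N ⁻¹' c.K' := by
    ext z
    exact ⟨by rintro ⟨p, hp, rfl⟩; simpa [hMN] using hp, fun h => ⟨N z, h, hNM z⟩⟩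
  refine ⟨M '' c.K', ?_, c.K'_cpt.image hMc, ?_, ?_, ?_⟩
  · rintro _ ⟨x, hx, rfl⟩ _ ⟨y, hy, rfl⟩ a a' ha ha' h
    exact ⟨_, c.K'_conv hx hy ha ha' h, hMa _ _ _ _⟩
  · rintro _ ⟨x, hx, rfl⟩
    refine ⟨-x, c.K'_symm x hx, ?_⟩
    have := hMa x x (-1) 0
    simpa using this
  · have hpre : M ⁻¹' (M '' c.K') = c.K' := by
      rw [hK', ← preimage_comp, show N ∘ M = id from funext hMN, preimage_id]
    rw [hreal K hcpt.measurableSet, hreal _ (c.K'_cpt.image hMc).measurableSet, hpre]
    change ((gn m).prod (gaussianReal 0 1)).real c.K ≤ _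
    have hG := c.central (by
      show 1 - ε₁ ≤ _
      rw [← hreal K hcpt.measurableSet]; exact hK)
    rw [real_prod_eq c.cpt.measurableSet, real_prod_eq c.K'_cpt.measurableSet]
    refine mul_le_mul_of_nonneg_left ?_ gc_pos.le
    have iK : Integrable fun s => (gn m).real (sl c.K s) * phi s :=
      intg (measurable_slice c.cpt.measurableSet) fun s => by
        rw [abs_of_nonneg measureReal_nonneg]; exact measureReal_le_one
    have iK' : Integrable fun s => (gn m).real (sl c.K' s) * phi s :=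
      intg (measurable_slice c.K'_cpt.measurableSet) fun s => by
        rw [abs_of_nonneg measureReal_nonneg]; exact measureReal_le_one
    have hbal : ∫ s, ((gn m).real (sl c.K' s) * phi s + c.ls s * phi s) =
        ∫ s, ((gn m).real (sl c.K s) * phi s + c.gs s * phi s) :=
      integral_congr_ae (.of_forall fun s => by
        simp only [← add_mul, c.slice_balance s])
    rw [integral_add iK' c.int_ls, integral_add iK c.int_gs] at hbal
    linarith [c.loss_le_gain hu hG]
  · rintro _ ⟨p, hp, rfl⟩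
    have hue : M (0, ‖u‖) = u := by
      simp only [hM, Fin.sum_univ_succ, Fin.cons_zero, Fin.cons_succ, Pi.zero_apply, zero_smul,
        Finset.sum_const_zero, add_zero, hb0, he, smul_smul]
      rw [mul_inv_cancel₀ (norm_ne_zero_iff.2 hu0), one_smul]
    rcases c.K'_step hp with h | h
    · left
      have := hMa p (0, ‖u‖) 1 1
      simp only [one_smul] at this
      rw [← hue, ← this]
      show p + (0, ‖u‖) ∈ c.K
      rw [show p + (0, ‖u‖) = (p.1, p.2 + ‖u‖) from Prod.ext (by simp) rfl]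
      exact h
    · right
      have := hMa p (0, ‖u‖) 1 (-1)
      simp only [one_smul, neg_smul, ← sub_eq_add_neg] at this
      rw [← hue, ← this]
      show p - (0, ‖u‖) ∈ c.K
      rw [show p - (0, ‖u‖) = (p.1, p.2 - ‖u‖) from Prod.ext (by simp) rfl]
      exact h

end Vale.Agent.P262.S2
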