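import Vale.Agent.P262.S2.Call

/-!
T1-D: a deviation on a retired block is, up to the error of one call, the deviation inside the
child. With `M = 2 ^ n`, `α = (q + α') / M`; the items small at age `j` are those small at age
`j + n` and the lump, whose mass in a child is controlled by its own coordinate of the lift.
-/

namespace Vale.Agent.P262.S2

open Finset

namespace TransferStep

/-! ### The norm on a set of coordinates -/

/-- The Euclidean norm on the coordinates in `T`. -/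
noncomputable def nrm {ι : Type} (T : Finset ι) (f : ι → ℝ) : ℝ := Real.sqrt (∑ i ∈ T, f i ^ 2)

theorem nrm_nonneg {ι : Type} (T : Finset ι) (f : ι → ℝ) : 0 ≤ nrm T f := Real.sqrt_nonneg _

theorem nrm_add {ι : Type} (T : Finset ι) (f g : ι → ℝ) :
    nrm T (fun i => f i + g i) ≤ nrm T f + nrm T g := by
  refine (Real.sqrt_le_left (add_nonneg (nrm_nonneg T f) (nrm_nonneg T g))).2 ?_
  have h := Real.sum_mul_le_sqrt_mul_sqrt T f g
  have hf : nrm T f ^ 2 = ∑ i ∈ T, f i ^ 2 := Real.sq_sqrt (sum_nonneg fun _ _ => sq_nonneg _)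
  have hg : nrm T g ^ 2 = ∑ i ∈ T, g i ^ 2 := Real.sq_sqrt (sum_nonneg fun _ _ => sq_nonneg _)
  simp only [add_sq, sum_add_distrib, mul_assoc, ← mul_sum]
  rw [hf, hg]
  unfold nrm
  linarith

theorem nrm_zero {ι : Type} (T : Finset ι) : nrm T (fun _ => 0) = 0 := by
  simp [nrm]

theorem nrm_smul {ι : Type} (T : Finset ι) (c : ℝ) (f : ι → ℝ) :
    nrm T (fun i => c * f i) = |c| * nrm T f := by
  rw [nrm, nrm, ← Real.sqrt_sq_eq_abs, ← Real.sqrt_mul (sq_nonneg c), mul_sum]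
  simp only [mul_pow]

theorem nrm_sum {ι κ : Type} (T : Finset ι) (S : Finset κ) (c : κ → ℝ) (f : κ → ι → ℝ) :
    nrm T (fun i => ∑ w ∈ S, c w * f w i) ≤ ∑ w ∈ S, |c w| * nrm T (f w) := by
  classical
  induction S using Finset.induction_on with
  | empty => simp [nrm_zero]
  | insert a S ha ih =>
    simp only [sum_insert ha]
    refine (nrm_add T _ _).trans (add_le_add (le_of_eq (nrm_smul T _ _)) ih)

theorem body_mem {ι κ : Type} [Fintype κ] {blk : κ → Finset ι} {rad : κ → ℝ} {C : ℝ} {z : ι → ℝ}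
    (h : (Body.ofFintype blk rad).Mem C z) (b : κ) : ∑ i ∈ blk b, z i ^ 2 ≤ (C * rad b) ^ 2 := by
  have h' := h (Fintype.equivFin κ b)
  simpa [Body.ofFintype] using h'

/-- The polynomial factor is absorbed by `(9/5) ^ j`. -/
theorem cube_le (j : ℕ) : (1 + (j : ℝ)) ^ 3 ≤ 125 * (9 / 5 : ℝ) ^ j := by
  have h1 : 1 + (j : ℝ) ≤ 5 * (6 / 5 : ℝ) ^ j := by
    have := one_add_mul_le_pow (show (-2 : ℝ) ≤ 1 / 5 by norm_num) j
    rw [show (6 / 5 : ℝ) = 1 + 1 / 5 by norm_num]
    linarith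
  refine (pow_le_pow_left₀ (by positivity) h1 3).trans ?_
  rw [mul_pow, ← pow_mul, mul_comm j 3, pow_mul]
  refine mul_le_mul (by norm_num) (pow_le_pow_left₀ (by norm_num) (by norm_num) _)
    (by positivity) (by norm_num)

theorem sqrt_two_pow_sq (j : ℕ) : (Real.sqrt 2 ^ j) ^ 2 = (2 : ℝ) ^ j := by
  rw [← pow_mul, mul_comm, pow_mul, Real.sq_sqrt (by norm_num : (0 : ℝ) ≤ 2)]

/-! ### The summands -/

variable {d N : ℕ}

/-- The coordinates of a retired block. -/
def blockSet (d : ℕ) (G : Dead) : Finset (Fin d) :=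
  univ.filter fun i : Fin d => G.lo ≤ i.val ∧ i.val < G.hi

/-- The norm of an item on a block. -/
noncomputable def rW (G : Dead) (u : Fin d → ℝ) : ℝ := Real.sqrt (blockSq u G.lo G.hi)

/-- An item if it is small at age `j`. -/
noncomputable def fW (G : Dead) (j : ℕ) (u : Fin d → ℝ) (i : Fin d) : ℝ :=
  if smallAt u G j then u i else 0

/-- The norm of an item if it is small at age `j`. -/
noncomputable def sW (G : Dead) (j : ℕ) (u : Fin d → ℝ) : ℝ :=
  if smallAt u G j then rW G u else 0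

/-- The norm of an item if it leaves the small ones between the ages `j` and `j + n`. -/
noncomputable def lW (G : Dead) (j n : ℕ) (u : Fin d → ℝ) : ℝ :=
  if smallAt u G j ∧ ¬ smallAt u G (j + n) then rW G u else 0

theorem rW_nonneg (G : Dead) (u : Fin d → ℝ) : 0 ≤ rW G u := Real.sqrt_nonneg _

theorem rW_sq (G : Dead) (u : Fin d → ℝ) : rW G u ^ 2 = blockSq u G.lo G.hi :=
  Real.sq_sqrt (sum_nonneg fun _ _ => sq_nonneg _)

theorem sW_nonneg (G : Dead) (j : ℕ) (u : Fin d → ℝ) : 0 ≤ sW G j u := by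
  unfold sW; split_ifs
  · exact rW_nonneg G u
  · exact le_rfl

theorem lW_nonneg (G : Dead) (j n : ℕ) (u : Fin d → ℝ) : 0 ≤ lW G j n u := by
  unfold lW; split_ifs
  · exact rW_nonneg G u
  · exact le_rfl

theorem lW_le_sW (G : Dead) (j n : ℕ) (u : Fin d → ℝ) : lW G j n u ≤ sW G j u := by
  unfold lW
  split_ifs with h
  · rw [sW, if_pos h.1]
  · exact sW_nonneg G j u

theorem nrm_fW (G : Dead) (j : ℕ) (u : Fin d → ℝ) :
    nrm (blockSet d G) (fW G j u) = sW G j u := by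
  by_cases h : smallAt u G j
  · rw [sW, if_pos h, show fW G j u = u from funext fun i => if_pos h]
    rfl
  · rw [sW, if_neg h, show fW G j u = fun _ => (0 : ℝ) from funext fun i => if_neg h, nrm_zero]

theorem small_mono (G : Dead) (j n : ℕ) (u : Fin d → ℝ) (h : smallAt u G (j + n)) :
    smallAt u G j :=
  h.trans (pow_le_pow_of_le_one (by norm_num) (by norm_num) (Nat.le_add_right j n))

theorem nrm_lump (G : Dead) (j n : ℕ) (u : Fin d → ℝ) :
    nrm (blockSet d G) (fun i => fW G j u i - fW G (j + n) u i) = lW G j n u := by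
  by_cases h' : smallAt u G (j + n)
  · have h := small_mono G j n u h'
    have e : (fun i => fW G j u i - fW G (j + n) u i) = fun _ => (0 : ℝ) := funext fun i => by
      rw [fW, fW, if_pos h, if_pos h', sub_self]
    rw [e, nrm_zero, lW, if_neg fun h2 => h2.2 h']
  · by_cases h : smallAt u G j
    · have e : (fun i => fW G j u i - fW G (j + n) u i) = u := funext fun i => by
        rw [fW, fW, if_pos h, if_neg h', sub_zero]
      rw [e, lW, if_pos ⟨h, h'⟩]
      rfl
    · have e : (fun i => fW G j u i - fW G (j + n) u i) = fun _ => (0 : ℝ) := funext fun i => by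
        rw [fW, fW, if_neg h, if_neg h', sub_self]
      rw [e, nrm_zero, lW, if_neg fun h2 => h h2.1]

theorem lW_le (G : Dead) (j n : ℕ) (u : Fin d → ℝ) :
    lW G j n u ≤ Real.sqrt 2 ^ (j + n) * sW G j u ^ 2 := by
  by_cases h : smallAt u G j ∧ ¬ smallAt u G (j + n)
  · rw [lW, if_pos h, sW, if_pos h.1]
    have hbig := not_le.1 h.2
    rw [← rW_sq, one_div_pow, div_lt_iff₀ (by positivity)] at hbig
    have hr := rW_nonneg G u
    have h1 : (1 : ℝ) ≤ Real.sqrt 2 ^ (j + n) * rW G u := by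
      refine (pow_le_pow_iff_left₀ zero_le_one (by positivity) two_ne_zero).1 ?_
      rw [mul_pow, sqrt_two_pow_sq, one_pow]
      linarith
    calc rW G u = 1 * rW G u := (one_mul _).symm
      _ ≤ Real.sqrt 2 ^ (j + n) * rW G u * rW G u := by gcongr
      _ = _ := by ring
  · rw [lW, if_neg h]
    positivity

/-! ### The bounds on one block -/

/-- The scale of the error on a block. -/
noncomputable def scale (G : Dead) (U : ℕ) : ℝ :=
  1 + ((G.hi : ℝ) - G.lo) + G.n0 + U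

theorem one_le_scale {G : Dead} (h : G.lo < G.hi) (U : ℕ) : 1 ≤ scale G U := by
  have : (G.lo : ℝ) ≤ G.hi := by exact_mod_cast h.le
  have : (0 : ℝ) ≤ G.n0 := Nat.cast_nonneg _
  have : (0 : ℝ) ≤ U := Nat.cast_nonneg _
  unfold scale
  linarith

/-- The error size on a block. -/
noncomputable def errSize (G : Dead) (U : ℕ) : ℝ :=
  Real.sqrt ((9 / 10 : ℝ) ^ G.age * scale G U)

theorem rad_le {Cr Cc : ℝ} (hr : 1 ≤ Cr) (hc : 1 ≤ Cc) {G : Dead} (h : G.lo < G.hi) (U : ℕ)
    {X z : ℝ} (hX0 : 0 ≤ X) (hX : X ≤ (1 + (G.age : ℝ)) * scale G U)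
    (hz : 1 / (1 + (G.age : ℝ)) * Real.sqrt 2 ^ G.age * z ≤ Cc * Real.sqrt (Cr * X)) :
    z ≤ Cc * Real.sqrt (125 * Cr) * errSize G U := by
  have hs := one_le_scale h U
  set j := G.age
  set c : ℝ := 1 / (1 + (j : ℝ)) * Real.sqrt 2 ^ j with hcdef
  have hc0 : 0 < c := by positivity
  have hz' : z * c ≤ Cc * Real.sqrt (Cr * X) := le_of_eq_of_le (mul_comm z c) hz
  refine le_of_mul_le_mul_right (hz'.trans ?_) hc0
  rw [mul_assoc Cc, mul_assoc Cc]
  refine mul_le_mul_of_nonneg_left ?_ (by linarith)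
  have hR0 : 0 ≤ errSize G U := Real.sqrt_nonneg _
  have hR2 : errSize G U ^ 2 = (9 / 10 : ℝ) ^ j * scale G U := Real.sq_sqrt (by positivity)
  rw [Real.sqrt_le_left (by positivity), mul_pow, mul_pow, Real.sq_sqrt (by positivity), hR2,
    hcdef, mul_pow, sqrt_two_pow_sq, one_div_pow]
  rw [show 125 * Cr * ((9 / 10 : ℝ) ^ j * scale G U) * (1 / (1 + (j : ℝ)) ^ 2 * 2 ^ j) =
    125 * Cr * ((9 / 10 : ℝ) ^ j * scale G U) * 2 ^ j / (1 + (j : ℝ)) ^ 2 by ring,
    le_div_iff₀ (by positivity)]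
  calc Cr * X * (1 + (j : ℝ)) ^ 2
      ≤ Cr * ((1 + (j : ℝ)) * scale G U) * (1 + (j : ℝ)) ^ 2 := by gcongr
    _ = Cr * scale G U * (1 + (j : ℝ)) ^ 3 := by ring
    _ ≤ Cr * scale G U * (125 * (9 / 5 : ℝ) ^ j) := by gcongr; exact cube_le j
    _ = _ := by
      rw [show (9 / 5 : ℝ) = 9 / 10 * 2 by norm_num, mul_pow]
      ring

theorem sqrt_energy_le {cA : ℝ} (hA : 0 ≤ cA) {G : Dead} (h : G.lo < G.hi) (U : ℕ) :
    Real.sqrt (cA * (1 + Real.sqrt G.n0) * (3 / 5 : ℝ) ^ G.age) ≤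
      Real.sqrt (2 * cA) * errSize G U := by
  have hs := one_le_scale h U
  rw [errSize, ← Real.sqrt_mul (by positivity)]
  refine Real.sqrt_le_sqrt ?_
  have hn0 : Real.sqrt (G.n0 : ℝ) ≤ 1 + (G.n0 : ℝ) := by
    rw [Real.sqrt_le_left (by positivity)]
    nlinarith [(Nat.cast_nonneg G.n0 : (0 : ℝ) ≤ G.n0)]
  have hn1 : 1 + Real.sqrt (G.n0 : ℝ) ≤ 2 * scale G U := by
    have h1 : (G.lo : ℝ) ≤ G.hi := by exact_mod_cast h.le
    have h2 : (0 : ℝ) ≤ U := Nat.cast_nonneg _
    unfold scale at hs ⊢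
    linarith
  calc cA * (1 + Real.sqrt G.n0) * (3 / 5 : ℝ) ^ G.age
      ≤ cA * (2 * scale G U) * (9 / 10 : ℝ) ^ G.age :=
        mul_le_mul (mul_le_mul_of_nonneg_left hn1 hA)
          (pow_le_pow_left₀ (by norm_num) (by norm_num) _) (by positivity)
          (mul_nonneg hA (by linarith))
    _ = _ := by ring

theorem pow_energy_le {cA : ℝ} (hA : 0 ≤ cA) {G : Dead} (h : G.lo < G.hi) (U : ℕ) :
    Real.sqrt 2 ^ G.age * (cA * (1 + Real.sqrt G.n0) * (3 / 5 : ℝ) ^ G.age) ≤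
      Real.sqrt 2 * cA * errSize G U := by
  have hs := one_le_scale h U
  have hR2 : errSize G U ^ 2 = (9 / 10 : ℝ) ^ G.age * scale G U := Real.sq_sqrt (by positivity)
  have hR0 : 0 ≤ errSize G U := Real.sqrt_nonneg _
  refine (pow_le_pow_iff_left₀ (by positivity) (by positivity) two_ne_zero).1 ?_
  have h2 : (1 + Real.sqrt (G.n0 : ℝ)) ^ 2 ≤ 2 * scale G U := by
    have h0 := Real.sq_sqrt (Nat.cast_nonneg G.n0 : (0 : ℝ) ≤ G.n0)
    have h1 : (G.lo : ℝ) ≤ G.hi := by exact_mod_cast h.le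
    have h3 : (0 : ℝ) ≤ U := Nat.cast_nonneg _
    unfold scale
    nlinarith [sq_nonneg (Real.sqrt (G.n0 : ℝ) - 1)]
  have h3 : (2 : ℝ) ^ G.age * ((3 / 5 : ℝ) ^ G.age) ^ 2 ≤ (9 / 10 : ℝ) ^ G.age := by
    rw [← pow_mul, mul_comm G.age 2, pow_mul, ← mul_pow]
    gcongr
    norm_num
  calc (Real.sqrt 2 ^ G.age * (cA * (1 + Real.sqrt G.n0) * (3 / 5 : ℝ) ^ G.age)) ^ 2
      = cA ^ 2 * (1 + Real.sqrt (G.n0 : ℝ)) ^ 2 *
          ((2 : ℝ) ^ G.age * ((3 / 5 : ℝ) ^ G.age) ^ 2) := by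
        rw [mul_pow, sqrt_two_pow_sq]; ring
    _ ≤ cA ^ 2 * (2 * scale G U) * (9 / 10 : ℝ) ^ G.age := by gcongr
    _ = (Real.sqrt 2 * cA * errSize G U) ^ 2 := by
        rw [mul_pow, mul_pow, Real.sq_sqrt (by norm_num : (0 : ℝ) ≤ 2), hR2]; ring

variable {P : Par} {Cr Cc cA : ℝ} {lam : Fin d → ℝ} {v : Fin N → Fin d → ℝ} {x : Node d N}
  {part : ℕ → Finset (Fin N)} {δ : ℕ → Fin N → ℝ}

theorem energy_sW (hx : Inv P lam v x) (hP : P.cA = cA) {G : Dead} (hG : G ∈ x.dead) :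
    ∑ w ∈ x.W, sW G G.age (v w) ^ 2 ≤
      cA * (1 + Real.sqrt G.n0) * (3 / 5 : ℝ) ^ G.age := by
  have h := hx.energy G hG
  rw [act, sum_filter, hP] at h
  refine le_trans (le_of_eq (sum_congr rfl fun w _ => ?_)) h
  by_cases h' : smallAt (v w) G G.age
  · rw [sW, if_pos h', if_pos h', rW_sq]
  · rw [sW, if_neg h', if_neg h', zero_pow two_ne_zero]

theorem tilt_le (hA : 0 ≤ cA) (hx : Inv P lam v x) (hP : P.cA = cA)
    (hd : CallData P Cr Cc lam v x part δ) {G : Dead} (hG : G ∈ x.dead)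
    {p : ℕ} (hp : p ≤ 2 ^ halvings P lam v x) (t : Fin N → ℝ) (ht : ∀ w, 0 ≤ t w)
    (hts : ∀ w, t w ≤ sW G G.age (v w)) :
    ∑ w ∈ x.W, |δ p w| * t w ≤
      Real.sqrt (2 * cA) * errSize G (slack (halvings P lam v x)) := by
  refine le_trans ?_ (sqrt_energy_le hA (hx.dead_lt G hG) _)
  refine (Real.sum_mul_le_sqrt_mul_sqrt _ _ _).trans ?_
  refine le_trans (mul_le_mul ?_ (Real.sqrt_le_sqrt ?_) (Real.sqrt_nonneg _) zero_le_one)
    (le_of_eq (one_mul _))
  · rw [Real.sqrt_le_one]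
    simp only [sq_abs]
    exact (hd.small p hp).trans
      (by rw [div_le_one (by positivity)]; exact one_le_pow₀ (by norm_num))
  · exact (sum_le_sum fun w _ => pow_le_pow_left₀ (ht w) (hts w) 2).trans (energy_sW hx hP hG)

theorem err_vec (hr : 1 ≤ Cr) (hc : 1 ≤ Cc) (hx : Inv P lam v x)
    (hd : CallData P Cr Cc lam v x part δ) (g : Fin x.dead.length) {p : ℕ}
    (hp : p ≤ 2 ^ halvings P lam v x) :
    nrm (blockSet d (x.dead.get g)) (fun i =>
      ∑ q' ∈ range p, ∑ w ∈ part q', fW (x.dead.get g) (x.dead.get g).age (v w) i -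
        ∑ w ∈ x.W, ((p : ℝ) / (2 : ℝ) ^ halvings P lam v x + δ p w) *
          fW (x.dead.get g) (x.dead.get g).age (v w) i) ≤
      Cc * Real.sqrt (125 * Cr) * errSize (x.dead.get g) (slack (halvings P lam v x)) := by
  set G := x.dead.get g with hG
  set k := retire P lam v x
  set n := halvings P lam v x
  have hlt := hx.dead_lt G (List.get_mem _ _)
  have hb := body_mem (hd.err p hp) (Sum.inr (Sum.inr (Sum.inr (g, (0 : Fin 3)))))
  simp only [callBlk, if_true, callRad] at hb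
  rw [sum_image (fun z _ z' _ h => by simpa using h)] at hb
  have hlift : ∀ i ∈ blockSet d G, ∀ w : Fin N,
      lift (v w) x k n (.inr (.inr (.inr (g, .inl i)))) =
        1 / (1 + (G.age : ℝ)) * Real.sqrt 2 ^ G.age * fW G G.age (v w) i := by
    intro i hi w
    simp only [blockSet, mem_filter, mem_univ, true_and] at hi
    show 1 / (1 + (G.age : ℝ)) *
        (if smallAt (v w) G G.age ∧ G.lo ≤ i.val ∧ i.val < G.hi then
          Real.sqrt 2 ^ G.age * v w i else 0) = _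
    by_cases h : smallAt (v w) G G.age
    · rw [if_pos ⟨h, hi⟩, fW, if_pos h]; ring
    · rw [if_neg fun h2 => h h2.1, fW, if_neg h]; ring
  refine rad_le hr hc hlt _ (X := ((G.hi - G.lo : ℕ) : ℝ) + 1 + G.age + slack n) (by positivity) ?_ ?_
  · rw [Nat.cast_sub hlt.le, scale]
    have : (G.lo : ℝ) ≤ G.hi := by exact_mod_cast hlt.le
    have hj0 : (0 : ℝ) ≤ G.age := Nat.cast_nonneg _
    have hs0' : (0 : ℝ) ≤ slack n := Nat.cast_nonneg _
    have hg0 : (0 : ℝ) ≤ G.n0 := Nat.cast_nonneg _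
    nlinarith [mul_nonneg hj0 (add_nonneg (add_nonneg (sub_nonneg.2 this) hg0) hs0')]
  · rw [← abs_of_pos (show (0 : ℝ) < 1 / (1 + (G.age : ℝ)) * Real.sqrt 2 ^ G.age by positivity),
      ← nrm_smul]
    refine (Real.sqrt_le_left (by positivity)).2 (le_trans (le_of_eq ?_) hb)
    refine sum_congr rfl fun i hi => ?_
    have hi' := hlift i hi
    simp only [hG, n, k] at hi' ⊢
    simp only [hi', mul_sub, mul_sum]
    congr 2
    exact sum_congr rfl fun w _ => by ring

theorem err_lump (hr : 1 ≤ Cr) (hc : 1 ≤ Cc) (hx : Inv P lam v x)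
    (hd : CallData P Cr Cc lam v x part δ) (g : Fin x.dead.length) {p : ℕ}
    (hp : p ≤ 2 ^ halvings P lam v x) :
    |∑ q' ∈ range p, ∑ w ∈ part q',
        lW (x.dead.get g) (x.dead.get g).age (halvings P lam v x) (v w) -
      ∑ w ∈ x.W, ((p : ℝ) / (2 : ℝ) ^ halvings P lam v x + δ p w) *
        lW (x.dead.get g) (x.dead.get g).age (halvings P lam v x) (v w)| ≤
      Cc * Real.sqrt (125 * Cr) * errSize (x.dead.get g) (slack (halvings P lam v x)) := by
  set G := x.dead.get g with hG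
  set k := retire P lam v x
  set n := halvings P lam v x
  have hlt := hx.dead_lt G (List.get_mem _ _)
  have hb := body_mem (hd.err p hp) (Sum.inr (Sum.inr (Sum.inr (g, (1 : Fin 3)))))
  simp only [callBlk, callRad, show (1 : Fin 3) ≠ 0 by decide, if_false, if_true,
    sum_singleton] at hb
  have hlift : ∀ w : Fin N,
      lift (v w) x k n (.inr (.inr (.inr (g, .inr (0 : Fin 2))))) =
        1 / (1 + (G.age : ℝ)) * Real.sqrt 2 ^ G.age * lW G G.age n (v w) := by
    intro w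
    show 1 / (1 + (G.age : ℝ)) *
        (if smallAt (v w) G G.age ∧ ¬ smallAt (v w) G (G.age + n) then
          Real.sqrt 2 ^ G.age * Real.sqrt (blockSq (v w) G.lo G.hi) else 0) = _
    by_cases h : smallAt (v w) G G.age ∧ ¬ smallAt (v w) G (G.age + n)
    · rw [if_pos h, lW, if_pos h, rW]; ring
    · rw [if_neg h, lW, if_neg h]; ring
  refine rad_le hr hc hlt _ (X := 0 + 1 + (G.age : ℝ) + slack n) (by positivity) ?_ ?_
  · rw [scale]
    have : (G.lo : ℝ) ≤ G.hi := by exact_mod_cast hlt.le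
    have hj0 : (0 : ℝ) ≤ G.age := Nat.cast_nonneg _
    have hs0' : (0 : ℝ) ≤ slack n := Nat.cast_nonneg _
    have hg0 : (0 : ℝ) ≤ G.n0 := Nat.cast_nonneg _
    nlinarith [mul_nonneg hj0 (add_nonneg (add_nonneg (sub_nonneg.2 this) hg0) hs0')]
  · rw [← abs_of_pos (show (0 : ℝ) < 1 / (1 + (G.age : ℝ)) * Real.sqrt 2 ^ G.age by positivity),
      ← abs_mul]
    refine abs_le_of_sq_le_sq (le_trans (le_of_eq ?_) hb) (by positivity)
    simp only [hG, n, k] at hlift ⊢
    simp only [hlift, mul_sub, mul_sum]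
    congr 2
    exact sum_congr rfl fun w _ => by ring

theorem lump_mass (hA : 0 ≤ cA) (hx : Inv P lam v x) (hP : P.cA = cA) {G : Dead}
    (hG : G ∈ x.dead) (n U : ℕ) :
    1 / (2 : ℝ) ^ n * ∑ w ∈ x.W, lW G G.age n (v w) ≤ Real.sqrt 2 * cA * errSize G U := by
  refine le_trans ?_ (pow_energy_le hA (hx.dead_lt G hG) U)
  set E := cA * (1 + Real.sqrt G.n0) * (3 / 5 : ℝ) ^ G.age
  have hE0 : 0 ≤ E := by positivity
  calc 1 / (2 : ℝ) ^ n * ∑ w ∈ x.W, lW G G.age n (v w)
      ≤ 1 / (2 : ℝ) ^ n * (Real.sqrt 2 ^ (G.age + n) * E) := by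
        refine mul_le_mul_of_nonneg_left
          ((sum_le_sum fun w _ => lW_le G G.age n (v w)).trans ?_) (by positivity)
        rw [← mul_sum]
        exact mul_le_mul_of_nonneg_left (energy_sW hx hP hG) (by positivity)
    _ = Real.sqrt 2 ^ n / (2 : ℝ) ^ n * (Real.sqrt 2 ^ G.age * E) := by rw [pow_add]; ring
    _ ≤ 1 * (Real.sqrt 2 ^ G.age * E) := by
        gcongr
        rw [div_le_one (by positivity)]
        gcongr
        exact (Real.sqrt_le_left (by norm_num)).2 (by norm_num)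
    _ = _ := one_mul _

theorem lump_part (hr : 1 ≤ Cr) (hc : 1 ≤ Cc) (hA : 0 ≤ cA) (hx : Inv P lam v x) (hP : P.cA = cA)
    (hd : CallData P Cr Cc lam v x part δ) (g : Fin x.dead.length) {q : ℕ}
    (hq : q < 2 ^ halvings P lam v x) :
    ∑ w ∈ part q, lW (x.dead.get g) (x.dead.get g).age (halvings P lam v x) (v w) ≤
      (Real.sqrt 2 * cA + 2 * Real.sqrt (2 * cA) + 2 * (Cc * Real.sqrt (125 * Cr))) *
        errSize (x.dead.get g) (slack (halvings P lam v x)) := by
  have hG := List.get_mem x.dead g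
  set G := x.dead.get g
  set n := halvings P lam v x
  set R := errSize G (slack n)
  set l : Fin N → ℝ := fun w => lW G G.age n (v w) with hl
  have hl0 : ∀ w, 0 ≤ l w := fun w => lW_nonneg _ _ _ _
  have hls : ∀ w, l w ≤ sW G G.age (v w) := fun w => lW_le_sW _ _ _ _
  have e1 := abs_le.1 (err_lump hr hc hx hd g (p := q + 1) hq)
  have e0 := abs_le.1 (err_lump hr hc hx hd g hq.le)
  have t1 : ∑ w ∈ x.W, δ (q + 1) w * l w ≤ Real.sqrt (2 * cA) * R :=
    (sum_le_sum fun w _ => mul_le_mul_of_nonneg_right (le_abs_self _) (hl0 w)).trans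
      (tilt_le hA hx hP hd hG hq l hl0 hls)
  have t0 : -∑ w ∈ x.W, δ q w * l w ≤ Real.sqrt (2 * cA) * R := by
    rw [← sum_neg_distrib]
    exact (sum_le_sum fun w _ => by
      rw [← neg_mul]; exact mul_le_mul_of_nonneg_right (neg_le_abs _) (hl0 w)).trans
      (tilt_le hA hx hP hd hG hq.le l hl0 hls)
  have hW := lump_mass hA hx hP hG n (slack n)
  simp only [sum_range_succ, add_mul, sum_add_distrib, ← mul_sum] at e1 e0
  push_cast at e1
  simp only [add_div, add_mul] at e1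
  simp only [add_mul, hl] at *
  linarith [e1.1, e1.2, e0.1, e0.2]

theorem side_le (hr : 1 ≤ Cr) (hc : 1 ≤ Cc) (hA : 0 ≤ cA) (hx : Inv P lam v x) (hP : P.cA = cA)
    (hd : CallData P Cr Cc lam v x part δ) (g : Fin x.dead.length) {p : ℕ}
    (hp : p ≤ 2 ^ halvings P lam v x) {t : ℝ} (ht : 0 ≤ t) :
    nrm (blockSet d (x.dead.get g)) (fun i =>
      t * (∑ w ∈ x.W, δ p w * fW (x.dead.get g) (x.dead.get g).age (v w) i +
        (∑ q' ∈ range p, ∑ w ∈ part q', fW (x.dead.get g) (x.dead.get g).age (v w) i -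
          ∑ w ∈ x.W, ((p : ℝ) / (2 : ℝ) ^ halvings P lam v x + δ p w) *
            fW (x.dead.get g) (x.dead.get g).age (v w) i))) ≤
      t * ((Real.sqrt (2 * cA) + Cc * Real.sqrt (125 * Cr)) *
        errSize (x.dead.get g) (slack (halvings P lam v x))) := by
  rw [nrm_smul, abs_of_nonneg ht, add_mul]
  refine mul_le_mul_of_nonneg_left
    ((nrm_add _ _ _).trans (add_le_add ?_ (err_vec hr hc hx hd g hp))) ht
  refine (nrm_sum _ _ _ _).trans ?_
  simp only [nrm_fW]
  exact tilt_le hA hx hP hd (List.get_mem x.dead g) hp _ (fun w => sW_nonneg _ _ _) fun _ => le_rfl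

/-- Algebra of the decomposition. -/
theorem split_identity (Sq PQ PQ' Pp Pp' Sw Dq Dq1 Lam Lam1 q M a : ℝ)
    (hLam : Lam = q / M * Sw + Dq) (hLam1 : Lam1 = (q + 1) / M * Sw + Dq1) :
    Sq + PQ - (q + a) / M * Sw =
      (PQ' - a * Pp') + ((1 - a) * (Dq + (Sq - Lam)) + (a * (Dq1 + (Sq + Pp - Lam1)) +
        ((PQ - PQ') + (-a) * (Pp - Pp')))) := by
  subst hLam hLam1
  ring

end TransferStep

open TransferStep

/-- T1-D. -/
theorem transferLemma : TransferLemma := by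
  intro Cr Cc cA hr hc hA
  set a : ℝ := Cc * Real.sqrt (125 * Cr) with ha
  set κ : ℝ := Real.sqrt (2 * cA) + a +
    2 * (Real.sqrt 2 * cA + 2 * Real.sqrt (2 * cA) + 2 * a) with hκ
  refine ⟨κ ^ 2, sq_nonneg _, ?_⟩
  intro P hP d N lam v H x hx part δ hd q hq Q hQ G hG α' h0 h1
  have hM : (0 : ℝ) < (2 : ℝ) ^ halvings P lam v x := by positivity
  refine ⟨((q : ℝ) + α') / (2 : ℝ) ^ halvings P lam v x, by positivity, ?_, ?_⟩
  · rw [div_le_one hM]
    have : ((q : ℝ) + 1) ≤ (2 : ℝ) ^ halvings P lam v x := by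
      exact_mod_cast (hq : q + 1 ≤ 2 ^ halvings P lam v x)
    linarith
  obtain ⟨g, rfl⟩ := List.mem_iff_get.1 hG
  have hdisj : Disjoint ((range q).biUnion part) Q := by
    rw [Finset.disjoint_left]
    intro w hw hwQ
    obtain ⟨q', hq', hw'⟩ := mem_biUnion.1 hw
    have hlt := mem_range.1 hq'
    exact absurd (hd.disj q' q w (hlt.trans hq) hq hw' (hQ hwQ)) hlt.ne
  have hpd : (↑(range q) : Set ℕ).PairwiseDisjoint part := by
    intro i hi i' hi' hne
    simp only [coe_range, Set.mem_Iio] at hi hi'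
    rw [Function.onFun, Finset.disjoint_left]
    intro w hw hw'
    exact hne (hd.disj i i' w (hi.trans hq) (hi'.trans hq) hw hw')
  set G := x.dead.get g with hGdef
  set n := halvings P lam v x with hn
  set T := blockSet d G
  have hact : ∀ (S : Finset (Fin N)) i, vsum v (act v G S) i = ∑ w ∈ S, fW G G.age (v w) i :=
    fun S i => by
      simp only [vsum, act, sum_filter]
      exact sum_congr rfl fun w _ => rfl
  have hact' : ∀ (S : Finset (Fin N)) i,
      vsum v (act v ⟨G.lo, G.hi, G.age + n, G.n0⟩ S) i = ∑ w ∈ S, fW G (G.age + n) (v w) i :=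
    fun S i => by
      simp only [vsum, act, sum_filter]
      exact sum_congr rfl fun w _ => rfl
  show nrm T (fun i => vsum v (act v G ((range q).biUnion part ∪ Q)) i -
      ((q : ℝ) + α') / (2 : ℝ) ^ n * vsum v (act v G x.W) i) ≤
    nrm T (fun i => vsum v (act v ⟨G.lo, G.hi, G.age + n, G.n0⟩ Q) i -
      α' * vsum v (act v ⟨G.lo, G.hi, G.age + n, G.n0⟩ (part q)) i) +
    Real.sqrt (κ ^ 2 * (9 / 10 : ℝ) ^ G.age * scale G (slack n))
  simp only [hact, hact', sum_union hdisj, sum_biUnion hpd]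
  have hdec : (fun i => ∑ q' ∈ range q, ∑ w ∈ part q', fW G G.age (v w) i +
      ∑ w ∈ Q, fW G G.age (v w) i -
      ((q : ℝ) + α') / (2 : ℝ) ^ n * ∑ w ∈ x.W, fW G G.age (v w) i) = fun i =>
      (∑ w ∈ Q, fW G (G.age + n) (v w) i - α' * ∑ w ∈ part q, fW G (G.age + n) (v w) i) +
      ((1 - α') * (∑ w ∈ x.W, δ q w * fW G G.age (v w) i +
          (∑ q' ∈ range q, ∑ w ∈ part q', fW G G.age (v w) i -
            ∑ w ∈ x.W, ((q : ℝ) / (2 : ℝ) ^ n + δ q w) * fW G G.age (v w) i)) +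
        (α' * (∑ w ∈ x.W, δ (q + 1) w * fW G G.age (v w) i +
          (∑ q' ∈ range (q + 1), ∑ w ∈ part q', fW G G.age (v w) i -
            ∑ w ∈ x.W, (((q + 1 : ℕ) : ℝ) / (2 : ℝ) ^ n + δ (q + 1) w) * fW G G.age (v w) i)) +
          (∑ w ∈ Q, 1 * (fW G G.age (v w) i - fW G (G.age + n) (v w) i) +
            ∑ w ∈ part q, (-α') * (fW G G.age (v w) i - fW G (G.age + n) (v w) i)))) := by
    funext i
    rw [sum_range_succ, ← mul_sum (part q), ← mul_sum Q, one_mul, sum_sub_distrib, sum_sub_distrib]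
    refine split_identity _ _ _ _ _ _ _ _ _ _ _ _ _ ?_ ?_
    · simp only [add_mul, sum_add_distrib, ← mul_sum]
    · simp only [add_mul, sum_add_distrib, ← mul_sum, Nat.cast_add, Nat.cast_one]
  rw [hdec]
  refine (nrm_add T _ _).trans (add_le_add le_rfl ?_)
  have hQl : nrm T (fun i => ∑ w ∈ Q, 1 * (fW G G.age (v w) i - fW G (G.age + n) (v w) i)) ≤
      ∑ w ∈ part q, lW G G.age n (v w) := by
    refine (nrm_sum T _ _ _).trans ?_
    simp only [T, nrm_lump, abs_one, one_mul]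
    exact sum_le_sum_of_subset_of_nonneg hQ fun w _ _ => lW_nonneg _ _ _ _
  have hPl : nrm T (fun i => ∑ w ∈ part q,
      (-α') * (fW G G.age (v w) i - fW G (G.age + n) (v w) i)) ≤
        ∑ w ∈ part q, lW G G.age n (v w) := by
    refine (nrm_sum T _ _ _).trans ?_
    simp only [T, nrm_lump, abs_neg, abs_of_nonneg h0, ← mul_sum]
    exact mul_le_of_le_one_left (sum_nonneg fun w _ => lW_nonneg _ _ _ _) h1
  have hA1 := side_le hr hc hA hx hP hd g hq.le (t := 1 - α') (by linarith)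
  have hA2 := side_le hr hc hA hx hP hd g (p := q + 1) hq (t := α') h0
  refine (nrm_add T _ _).trans ?_
  refine (add_le_add hA1 ((nrm_add T _ _).trans
    (add_le_add hA2 ((nrm_add T _ _).trans (add_le_add hQl hPl))))).trans ?_
  have hL := lump_part hr hc hA hx hP hd g hq
  have hκ0 : 0 ≤ κ := by positivity
  rw [mul_assoc (κ ^ 2), Real.sqrt_mul (sq_nonneg κ), Real.sqrt_sq hκ0, ← errSize, hκ, ha]
  simp only [← hGdef, ← hn, add_mul] at hL ⊢
  linarith

end Vale.Agent.P262.S2
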