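import Mathlib
import Vale.Agent.P262.S2.CallBody
import Vale.Agent.P262.S2.Ends
import Vale.Agent.P262.S2.InvStep
import Vale.Agent.P262.S2.Part
import Vale.Agent.P262.S2.Rec
import Vale.Agent.P262.S2.Reduce
import Vale.Agent.P262.S2.Round
import Vale.Agent.P262.S2.Star
import Vale.Agent.P262.S2.TransferStep

/-! The Euclidean Steinitz bound `S₂(d) ≤ C √d`: composition of the modules. -/

namespace Vale.Agent.P262.S2

/-- Zero-sum families in the Euclidean unit ball can be ordered with partial sums within `C √d`. -/
theorem steinitzBound : SteinitzBound :=
  steinitzBound_of_diagBound (diagBound (stepLemma_of_modules (partitionLemma (roundTools starLemma))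
    endsLemma invLemma transferLemma))

end Vale.Agent.P262.S2
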