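import Mathlib
import Vale.Agent.P262.S2.Interface

/-! T0: solving a nearly diagonal symmetric system. -/

namespace Vale.Agent.P262.S2

open Finset

theorem nearDiag : NearDiag := by
  intro ι _ _ G g c hsym hg hF
  have coer : ∀ y : ι → ℝ, (∑ i, g i * y i ^ 2) / 2 ≤ ∑ i, y i * G.mulVec y i := by
    intro y
    set S := ∑ i, g i * y i ^ 2 with hS
    have hS0 : 0 ≤ S := sum_nonneg fun i _ => mul_nonneg (hg i).le (sq_nonneg _)
    have h1 : ∑ i, y i * G.mulVec y i
        = S + ∑ p : ι × ι, (G p.1 p.2 - if p.1 = p.2 then g p.1 else 0) * (y p.1 * y p.2) := by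
      have hd : S = ∑ i, ∑ j, (if i = j then g i else 0) * (y i * y j) := by
        simp [hS, ite_mul, sq]
      rw [hd, ← univ_product_univ, Finset.sum_product, ← sum_add_distrib]
      refine sum_congr rfl fun i _ => ?_
      rw [Matrix.mulVec, dotProduct, mul_sum, ← sum_add_distrib]
      exact sum_congr rfl fun j _ => by ring
    set T := ∑ p : ι × ι, (G p.1 p.2 - if p.1 = p.2 then g p.1 else 0) * (y p.1 * y p.2) with hT
    have h2 : T ^ 2 ≤ (1 / 4) * S ^ 2 := by
      have cs := sum_mul_sq_le_sq_mul_sq (univ : Finset (ι × ι))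
        (fun p => (G p.1 p.2 - if p.1 = p.2 then g p.1 else 0) / Real.sqrt (g p.1 * g p.2))
        (fun p => Real.sqrt (g p.1 * g p.2) * (y p.1 * y p.2))
      have e1 : ∀ p : ι × ι, (G p.1 p.2 - if p.1 = p.2 then g p.1 else 0) / Real.sqrt (g p.1 * g p.2) *
          (Real.sqrt (g p.1 * g p.2) * (y p.1 * y p.2))
          = (G p.1 p.2 - if p.1 = p.2 then g p.1 else 0) * (y p.1 * y p.2) := by
        intro p
        have : 0 < Real.sqrt (g p.1 * g p.2) := Real.sqrt_pos.2 (mul_pos (hg _) (hg _))
        field_simp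
      rw [sum_congr rfl fun p _ => e1 p] at cs
      refine cs.trans (mul_le_mul ?_ (le_of_eq ?_) (sum_nonneg fun _ _ => sq_nonneg _) (by norm_num))
      · refine le_trans (le_of_eq ?_) hF
        rw [← univ_product_univ, Finset.sum_product]
        refine sum_congr rfl fun i _ => sum_congr rfl fun j _ => ?_
        rw [div_pow, Real.sq_sqrt (mul_pos (hg i) (hg j)).le]
      · rw [sq S, hS, sum_mul_sum, ← univ_product_univ, Finset.sum_product]
        refine sum_congr rfl fun i _ => sum_congr rfl fun j _ => ?_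
        rw [mul_pow, Real.sq_sqrt (mul_pos (hg i) (hg j)).le]
        ring
    nlinarith [h1, h2, hS0, sq_nonneg (T + S / 2)]
  have inj : Function.Injective (Matrix.mulVecLin G) := by
    rw [injective_iff_map_eq_zero]
    intro y hy
    have h0 : G.mulVec y = 0 := hy
    have h := coer y
    simp [h0] at h
    funext i
    have hle : g i * y i ^ 2 ≤ ∑ j, g j * y j ^ 2 :=
      single_le_sum (f := fun j => g j * y j ^ 2) (fun j _ => mul_nonneg (hg j).le (sq_nonneg _)) (mem_univ i)
    have : y i ^ 2 ≤ 0 := by nlinarith [hg i]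
    simpa using le_antisymm this (sq_nonneg _)
  obtain ⟨y, hy⟩ := LinearMap.surjective_of_injective inj c
  have hy' : G.mulVec y = c := hy
  refine ⟨y, hy', ?_⟩
  have hc := coer y
  rw [hy'] at hc
  have am : ∑ i, y i * c i ≤ (∑ i, g i * y i ^ 2) / 4 + ∑ i, c i ^ 2 / g i := by
    rw [sum_div, ← sum_add_distrib]
    refine sum_le_sum fun i _ => ?_
    have := hg i
    have h : 0 ≤ (g i * y i / 2 - c i) ^ 2 / g i := by positivity
    have e : (g i * y i / 2 - c i) ^ 2 / g i = g i * y i ^ 2 / 4 + c i ^ 2 / g i - y i * c i := by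
      field_simp
      ring
    linarith
  have hS0 : 0 ≤ ∑ i, g i * y i ^ 2 := sum_nonneg fun i _ => mul_nonneg (hg i).le (sq_nonneg _)
  constructor <;> linarith

end Vale.Agent.P262.S2
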