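import Vale.Agent.P262.S2.CallBasic
import Vale.Agent.P262.S2.NearDiag

/-! T1-A: the inversion on the coordinates above the retired ones, for a general item set. -/

namespace Vale.Agent.P262.S2

open Finset

lemma tele_inv_sq (d : ℕ) {b : ℝ} (hb : 0 < b) :
    ∑ j ∈ range d, 1 / ((j : ℝ) + 1 + b) ^ 2 ≤ 1 / b - 1 / (b + d) := by
  induction d with
  | zero => simp
  | succ d ih =>
      rw [sum_range_succ]
      push_cast
      have h1 : 0 < b + d := by positivity
      have h2 : 0 < b + (d + 1) := by positivity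
      have key : 1 / ((d : ℝ) + 1 + b) ^ 2 ≤ 1 / (b + d) - 1 / (b + (d + 1)) := by
        rw [div_sub_div _ _ h1.ne' h2.ne', div_le_div_iff₀ (by positivity) (by positivity)]
        nlinarith
      linarith

lemma sum_inv_sq_above {d : ℕ} (L : Finset (Fin d)) (lo : ℕ) (hL : ∀ i ∈ L, lo ≤ i.val) {b : ℝ}
    (hb : 0 < b) : ∑ i ∈ L, 1 / (((i.val - lo : ℕ) : ℝ) + 1 + b) ^ 2 ≤ 1 / b := by
  rw [← sum_image (f := fun j : ℕ => 1 / ((j : ℝ) + 1 + b) ^ 2) (g := fun i : Fin d => i.val - lo)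
    (fun i hi j hj h => Fin.ext (by
      have := hL i hi; have := hL j hj; simp only at h; omega))]
  refine (sum_le_sum_of_subset_of_nonneg (t := range d) ?_ fun _ _ _ => by positivity).trans ?_
  · intro j hj
    obtain ⟨i, -, rfl⟩ := mem_image.1 hj
    exact mem_range.2 (by omega)
  · refine (tele_inv_sq d hb).trans ?_
    have : (0 : ℝ) ≤ 1 / (b + d) := by positivity
    linarith

variable {d N : ℕ} {P : Par} {lam : Fin d → ℝ} {v : Fin N → Fin d → ℝ} {x : Node d N}

/-- The coordinates above the retired ones. -/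
noncomputable def liveSet (P : Par) (lam : Fin d → ℝ) (v : Fin N → Fin d → ℝ) (x : Node d N) :
    Finset (Fin d) :=
  univ.filter fun i : Fin d => x.s + retire P lam v x ≤ i.val

lemma mem_liveSet {i : Fin d} : i ∈ liveSet P lam v x ↔ x.s + retire P lam v x ≤ i.val := by
  simp [liveSet]

/-- The load of the coordinates up to `i`. -/
noncomputable def topLoad (P : Par) (v : Fin N → Fin d → ℝ) (x : Node d N) (i : Fin d) : ℝ :=
  (load P v x (i.val + 1 - x.s) : ℝ)

lemma topLoad_facts (hb : 1 ≤ P.base) {i : Fin d} (hi : i ∈ liveSet P lam v x) :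
    ((i.val - x.s : ℕ) : ℝ) + 1 + P.base ≤ topLoad P v x i ∧
      (load P v x (retire P lam v x) : ℝ) ≤ topLoad P v x i ∧
      x.a i ^ 2 + x.b v i ^ 2 ≤ topLoad P v x i ∧
      topLoad P v x i ≤ root8 (gbar lam x.m i) ∧
      (2 : ℝ) ^ halvings P lam v x * topLoad P v x i ^ 8 ≤ gbar lam x.m i / 2 := by
  rw [mem_liveSet] at hi
  obtain ⟨-, hg, -, -⟩ := gbar_above (P := P) (lam := lam) (v := v) hb hi
  refine ⟨?_, ?_, ?_, ?_, ?_⟩
  · have h := le_load (P := P) (v := v) (x := x) (i.val + 1 - x.s)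
    unfold topLoad
    exact_mod_cast (show i.val - x.s + 1 + P.base ≤ load P v x (i.val + 1 - x.s) by omega)
  · unfold topLoad
    exact_mod_cast load_mono (P := P) (v := v) (x := x)
      (show retire P lam v x ≤ i.val + 1 - x.s by omega)
  · have h := ends_le_load (P := P) (v := v) (x := x) (i.val + 1 - x.s)
    have hmem : i ∈ univ.filter fun j : Fin d => x.s ≤ j.val ∧ j.val < x.s + (i.val + 1 - x.s) := by
      simp; omega
    have h1 : x.a i ^ 2 ≤ blockSq x.a x.s (x.s + (i.val + 1 - x.s)) :=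
      single_le_sum (f := fun j => x.a j ^ 2) (fun _ _ => sq_nonneg _) hmem
    have h2 : x.b v i ^ 2 ≤ blockSq (x.b v) x.s (x.s + (i.val + 1 - x.s)) :=
      single_le_sum (f := fun j => x.b v j ^ 2) (fun _ _ => sq_nonneg _) hmem
    unfold topLoad
    have h3 : (0 : ℝ) ≤ ((i.val + 1 - x.s : ℕ) : ℝ) := Nat.cast_nonneg _
    have h4 : (0 : ℝ) ≤ P.base := Nat.cast_nonneg _
    linarith
  · have h2 : (1 : ℝ) ≤ (2 : ℝ) ^ halvings P lam v x := one_le_pow₀ (by norm_num)
    have h8 : topLoad P v x i ^ 8 ≤ root8 (gbar lam x.m i) ^ 8 := by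
      rw [root8_pow (le_trans zero_le_one (one_le_gbar _ _))]
      refine le_trans ?_ hg
      unfold topLoad
      have : (0 : ℝ) ≤ (load P v x (i.val + 1 - x.s) : ℝ) ^ 8 := by positivity
      nlinarith
    exact le_of_pow_le_pow_left₀ (by norm_num) (root8_nonneg _) h8
  · unfold topLoad
    linarith

lemma sum_inv_topLoad (hb : 1 ≤ P.base) :
    ∑ i ∈ liveSet P lam v x, 1 / topLoad P v x i ^ 2 ≤ 1 / (P.base : ℝ) := by
  have hb' : (0 : ℝ) < P.base := by exact_mod_cast hb
  refine le_trans (sum_le_sum fun i hi => ?_) (sum_inv_sq_above (liveSet P lam v x) x.s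
    (fun i hi => by rw [mem_liveSet] at hi; omega) hb')
  have h := (topLoad_facts hb hi).1
  exact one_div_le_one_div_of_le (by positivity) (pow_le_pow_left₀ (by positivity) h 2)

lemma sum_load_ratio (hb : 1 ≤ P.base) :
    ∑ i ∈ liveSet P lam v x, ((load P v x (retire P lam v x) : ℝ) / topLoad P v x i) ^ 2 ≤
      4 * (load P v x (retire P lam v x) : ℝ) := by
  set Kk : ℝ := (load P v x (retire P lam v x) : ℝ) with hKk
  have hb' : (0 : ℝ) < P.base := by exact_mod_cast hb
  have hK : 0 < Kk := by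
    rw [hKk]; exact_mod_cast one_le_load hb _
  have h := sum_inv_sq_above (liveSet P lam v x) x.s
    (fun i hi => by rw [mem_liveSet] at hi; omega) (show (0 : ℝ) < P.base + Kk by positivity)
  calc ∑ i ∈ liveSet P lam v x, (Kk / topLoad P v x i) ^ 2
      ≤ ∑ i ∈ liveSet P lam v x,
          4 * Kk ^ 2 * (1 / (((i.val - x.s : ℕ) : ℝ) + 1 + (P.base + Kk)) ^ 2) := by
        refine sum_le_sum fun i hi => ?_
        obtain ⟨h1, h2, -⟩ := topLoad_facts hb hi
        have hT : 0 < topLoad P v x i := lt_of_lt_of_le hK h2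
        have hpos : 0 < ((i.val - x.s : ℕ) : ℝ) + 1 + (P.base + Kk) := by positivity
        rw [div_pow, mul_one_div, div_le_div_iff₀ (by positivity) (by positivity)]
        have h3 : ((i.val - x.s : ℕ) : ℝ) + 1 + (P.base + Kk) ≤ 2 * topLoad P v x i := by linarith
        have h4 := mul_le_mul_of_nonneg_left (pow_le_pow_left₀ hpos.le h3 2) (sq_nonneg Kk)
        linarith
    _ ≤ 4 * Kk ^ 2 * (1 / (P.base + Kk)) := by
        rw [← mul_sum]
        exact mul_le_mul_of_nonneg_left h (by positivity)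
    _ ≤ 4 * Kk := by
        rw [mul_one_div, div_le_iff₀ (by positivity)]
        nlinarith

variable {W : Finset (Fin N)} {θ D : ℝ}

/-- The closeness hypothesis on the Gram matrix of `W`. -/
def NearIdeal (P : Par) (lam : Fin d → ℝ) (v : Fin N → Fin d → ℝ) (x : Node d N)
    (W : Finset (Fin N)) (θ D : ℝ) : Prop :=
  ∀ l m : Fin d, x.s ≤ l.val → l ≤ m → x.s + retire P lam v x ≤ m.val →
    |gram v W l m - if l = m then θ * (lam l / 2 ^ x.m) else 0| ≤
      D * (root8 (gbar lam x.m m) + Real.sqrt (gbar lam x.m l))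

lemma scaled_low (hb : 1 ≤ P.base) (hθ : 1 / 2 ≤ θ) {i : Fin d} (hi : i ∈ liveSet P lam v x) :
    (2 : ℝ) ^ halvings P lam v x * topLoad P v x i ^ 8 ≤ θ * gbar lam x.m i := by
  have h1 := (topLoad_facts hb hi).2.2.2.2
  have h2 := one_le_gbar (lam := lam) x.m i
  have h3 := mul_le_mul_of_nonneg_right hθ (le_trans zero_le_one h2)
  linarith

lemma one_le_topLoad (hb : 1 ≤ P.base) {i : Fin d} (hi : i ∈ liveSet P lam v x) :
    1 ≤ topLoad P v x i := by
  have h1 := (topLoad_facts hb hi).1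
  have h2 : (0 : ℝ) ≤ ((i.val - x.s : ℕ) : ℝ) := Nat.cast_nonneg _
  have h3 : (0 : ℝ) ≤ P.base := Nat.cast_nonneg _
  linarith

lemma entry_aux {a D Rl Rm Tl Tm den : ℝ} (ha : |a| ≤ D * (Rm + (Rl ^ 2) ^ 2)) (hl : 1 ≤ Tl)
    (hm : 1 ≤ Tm) (hTl : Tl ≤ Rl) (hTm : Tm ≤ Rm) (hle : Rl ≤ Rm)
    (hden : Rl ^ 8 * Rm ^ 8 / 4 ≤ den) :
    a ^ 2 / den ≤ 16 * D ^ 2 * ((1 / Tl ^ 2) * (1 / Tm ^ 2)) := by
  have e1 : (1 : ℝ) ≤ Rl := hl.trans hTl
  have e2 : (1 : ℝ) ≤ Rm := hm.trans hTm
  have hsq : a ^ 2 ≤ 2 * D ^ 2 * (Rm ^ 2 + Rl ^ 8) := by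
    have h := sq_le_sq' (abs_le.1 ha).1 (abs_le.1 ha).2
    nlinarith [sq_nonneg (Rm - (Rl ^ 2) ^ 2), sq_nonneg D]
  refine (div_le_div₀ (by positivity) hsq (by positivity) hden).trans ?_
  have k1 : Rm ^ 2 / (Rl ^ 8 * Rm ^ 8) ≤ 1 / (Tl ^ 2 * Tm ^ 2) := by
    rw [div_le_div_iff₀ (by positivity) (by positivity), one_mul]
    have a1 : Tl ^ 2 ≤ Rl ^ 8 :=
      le_trans (pow_le_pow_left₀ (by linarith) hTl 2) (pow_le_pow_right₀ e1 (by norm_num))
    have a2 : Rm ^ 2 * Tm ^ 2 ≤ Rm ^ 8 := by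
      calc Rm ^ 2 * Tm ^ 2 ≤ Rm ^ 2 * Rm ^ 2 :=
            mul_le_mul_of_nonneg_left (pow_le_pow_left₀ (by linarith) hTm 2) (sq_nonneg _)
        _ = Rm ^ 4 := by ring
        _ ≤ _ := pow_le_pow_right₀ e2 (by norm_num)
    calc Rm ^ 2 * (Tl ^ 2 * Tm ^ 2) = Tl ^ 2 * (Rm ^ 2 * Tm ^ 2) := by ring
      _ ≤ _ := mul_le_mul a1 a2 (by positivity) (by positivity)
  have k2 : Rl ^ 8 / (Rl ^ 8 * Rm ^ 8) ≤ 1 / (Tl ^ 2 * Tm ^ 2) := by
    rw [div_le_div_iff₀ (by positivity) (by positivity), one_mul]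
    refine mul_le_mul_of_nonneg_left ?_ (by positivity)
    calc Tl ^ 2 * Tm ^ 2 ≤ Rm ^ 2 * Rm ^ 2 :=
          mul_le_mul (pow_le_pow_left₀ (by linarith) (hTl.trans hle) 2)
            (pow_le_pow_left₀ (by linarith) hTm 2) (by positivity) (by positivity)
      _ = Rm ^ 4 := by ring
      _ ≤ _ := pow_le_pow_right₀ e2 (by norm_num)
  calc 2 * D ^ 2 * (Rm ^ 2 + Rl ^ 8) / (Rl ^ 8 * Rm ^ 8 / 4)
      = 8 * D ^ 2 * (Rm ^ 2 / (Rl ^ 8 * Rm ^ 8) + Rl ^ 8 / (Rl ^ 8 * Rm ^ 8)) := by ring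
    _ ≤ 8 * D ^ 2 * (1 / (Tl ^ 2 * Tm ^ 2) + 1 / (Tl ^ 2 * Tm ^ 2)) := by gcongr
    _ = _ := by ring

lemma gram_entry (H : Hyp lam v) (hb : 1 ≤ P.base) (hθ : 1 / 2 ≤ θ)
    (hW : NearIdeal P lam v x W θ D) {l m : Fin d} (hl : l ∈ liveSet P lam v x)
    (hm : m ∈ liveSet P lam v x) :
    (gram v W l m - if l = m then θ * gbar lam x.m l else 0) ^ 2 /
        ((θ * gbar lam x.m l) * (θ * gbar lam x.m m)) ≤
      16 * D ^ 2 * ((1 / topLoad P v x l ^ 2) * (1 / topLoad P v x m ^ 2)) := by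
  have main : ∀ l ∈ liveSet P lam v x, ∀ m ∈ liveSet P lam v x, l ≤ m →
      (gram v W l m - if l = m then θ * gbar lam x.m l else 0) ^ 2 /
          ((θ * gbar lam x.m l) * (θ * gbar lam x.m m)) ≤
        16 * D ^ 2 * ((1 / topLoad P v x l ^ 2) * (1 / topLoad P v x m ^ 2)) := by
    intro l hl m hm hlm
    have h := hW l m (by have := mem_liveSet.1 hl; omega) hlm (mem_liveSet.1 hm)
    rw [← (gbar_above (P := P) (v := v) hb (mem_liveSet.1 hl)).1, ← root8_sq_sq] at h
    refine entry_aux h (one_le_topLoad hb hl) (one_le_topLoad hb hm) (topLoad_facts hb hl).2.2.2.1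
      (topLoad_facts hb hm).2.2.2.1 (root8_mono (gbar_mono H.mono _ hlm)) ?_
    rw [root8_pow (le_trans zero_le_one (one_le_gbar _ _)),
      root8_pow (le_trans zero_le_one (one_le_gbar _ _))]
    have h1 : (1 : ℝ) / 4 ≤ θ * θ := by nlinarith
    have h2 : (0 : ℝ) ≤ gbar lam x.m l * gbar lam x.m m :=
      mul_nonneg (le_trans zero_le_one (one_le_gbar _ _)) (le_trans zero_le_one (one_le_gbar _ _))
    have h3 := mul_le_mul_of_nonneg_right h1 h2
    linarith
  rcases le_total l m with h | h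
  · exact main l hl m hm h
  · have e : gram v W l m = gram v W m l := sum_congr rfl fun w _ => mul_comm _ _
    have e' : (if l = m then θ * gbar lam x.m l else 0) =
        if m = l then θ * gbar lam x.m m else 0 := by
      by_cases hh : l = m
      · subst hh; rfl
      · rw [if_neg hh, if_neg (Ne.symm hh)]
    rw [e, e', mul_comm (θ * gbar lam x.m l), mul_comm (1 / topLoad P v x l ^ 2)]
    exact main m hm l hl h

lemma cross_aux {a D R Rs T K M den : ℝ} (ha : |a| ≤ D * (R + Rs)) (hs : Rs ^ 2 ≤ 2 * M * K ^ 8)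
    (hT : 1 ≤ T) (hTR : T ≤ R) (hKT : K ≤ T) (hK : 1 ≤ K) (hM : 0 ≤ M) (hR : R ^ 8 / 2 ≤ den)
    (hden : M * T ^ 8 ≤ den) : a ^ 2 / den ≤ 8 * D ^ 2 * (K / T) ^ 2 := by
  have hR1 : 1 ≤ R := hT.trans hTR
  have hden0 : 0 < den := lt_of_lt_of_le (by positivity) hR
  have h1 : a ^ 2 ≤ 2 * D ^ 2 * (R ^ 2 + 2 * M * K ^ 8) := by
    have h0 := sq_le_sq' (abs_le.1 ha).1 (abs_le.1 ha).2
    nlinarith [sq_nonneg (R - Rs), sq_nonneg D]
  rw [div_le_iff₀ hden0]
  refine h1.trans ?_
  have a1 : R ^ 2 ≤ 2 * (K / T) ^ 2 * den := by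
    have e : R ^ 2 * T ^ 2 ≤ R ^ 8 := by
      calc R ^ 2 * T ^ 2 ≤ R ^ 2 * R ^ 2 :=
            mul_le_mul_of_nonneg_left (pow_le_pow_left₀ (by linarith) hTR 2) (sq_nonneg _)
        _ = R ^ 4 := by ring
        _ ≤ _ := pow_le_pow_right₀ hR1 (by norm_num)
    have e2 : 1 * den ≤ K ^ 2 * den := mul_le_mul_of_nonneg_right (one_le_pow₀ hK) hden0.le
    rw [div_pow, ← mul_div_assoc, div_mul_eq_mul_div, le_div_iff₀ (by positivity)]
    linarith
  have a2 : 2 * M * K ^ 8 ≤ 2 * (K / T) ^ 2 * den := by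
    have hratio : K ^ 8 ≤ (K / T) ^ 2 * T ^ 8 := by
      rw [div_pow, div_mul_eq_mul_div, le_div_iff₀ (by positivity)]
      calc K ^ 8 * T ^ 2 = K ^ 2 * (K ^ 6 * T ^ 2) := by ring
        _ ≤ K ^ 2 * (T ^ 6 * T ^ 2) := by gcongr
        _ = _ := by ring
    have h9 := mul_le_mul_of_nonneg_left hratio (show (0 : ℝ) ≤ 2 * M by positivity)
    have h10 := mul_le_mul_of_nonneg_left hden (show (0 : ℝ) ≤ 2 * (K / T) ^ 2 by positivity)
    linarith
  have := mul_le_mul_of_nonneg_left (add_le_add a1 a2) (show (0 : ℝ) ≤ 2 * D ^ 2 by positivity)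
  linarith

lemma cross_row (H : Hyp lam v) (hb : 1 ≤ P.base) (hθ : 1 / 2 ≤ θ)
    (hW : NearIdeal P lam v x W θ D) (hk : retire P lam v x ≠ 0) {i : Fin d} (hi1 : x.s ≤ i.val)
    (hi2 : i.val < x.s + retire P lam v x) :
    ∑ l ∈ liveSet P lam v x, gram v W i l ^ 2 / (θ * gbar lam x.m l) ≤
      32 * D ^ 2 * (load P v x (retire P lam v x) : ℝ) := by
  calc ∑ l ∈ liveSet P lam v x, gram v W i l ^ 2 / (θ * gbar lam x.m l)
      ≤ ∑ l ∈ liveSet P lam v x,
          8 * D ^ 2 * ((load P v x (retire P lam v x) : ℝ) / topLoad P v x l) ^ 2 := by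
        refine sum_le_sum fun l hl => ?_
        have hl' := mem_liveSet.1 hl
        have hne : i ≠ l := by intro h; rw [h] at hi2; omega
        have h := hW i l hi1 (by rw [Fin.le_def]; omega) hl'
        rw [if_neg hne, sub_zero] at h
        obtain ⟨-, hKl, -, hR, -⟩ := topLoad_facts (P := P) (lam := lam) (v := v) hb hl
        refine cross_aux h ?_ (one_le_topLoad hb hl) hR hKl
          (by exact_mod_cast one_le_load hb _) (by positivity) ?_ (scaled_low hb hθ hl)
        · rw [Real.sq_sqrt (le_trans zero_le_one (one_le_gbar _ _))]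
          exact gbar_below H hb hi2 hk
        · rw [root8_pow (le_trans zero_le_one (one_le_gbar _ _))]
          have h2 := mul_le_mul_of_nonneg_right hθ (le_trans zero_le_one (one_le_gbar (lam := lam) x.m l))
          linarith
    _ ≤ _ := by
        rw [← mul_sum]
        have := mul_le_mul_of_nonneg_left (sum_load_ratio (P := P) (lam := lam) (v := v) (x := x) hb)
          (show (0 : ℝ) ≤ 8 * D ^ 2 by positivity)
        linarith

lemma retiring_card (hk : retire P lam v x ≠ 0) :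
    ((univ.filter fun i : Fin d => x.s ≤ i.val ∧ i.val < x.s + retire P lam v x).card : ℝ)
      ≤ (load P v x (retire P lam v x) : ℝ) := by
  have h := le_load (P := P) (v := v) (x := x) (retire P lam v x)
  refine Nat.cast_le.2 (le_trans ?_ (show retire P lam v x ≤ _ by omega))
  refine le_trans (card_le_card_of_injOn (fun i : Fin d => i.val - x.s)
    (t := range (retire P lam v x)) ?_ ?_) (card_range _).le
  · intro i hi
    simp only [coe_filter, Set.mem_setOf_eq, mem_univ, true_and] at hi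
    simp only [coe_range, Set.mem_Iio]
    omega
  · intro i hi j hj h
    simp only [coe_filter, Set.mem_setOf_eq, mem_univ, true_and] at hi hj
    simp only at h
    exact Fin.ext (by omega)

/-- The exact solution on the live coordinates. -/
lemma solve (H : Hyp lam v) (hb : 1 ≤ P.base) (hθ : 1 / 2 ≤ θ) (hD : 0 ≤ D)
    (hW : NearIdeal P lam v x W θ D) (hbase : 10000 * (D + 1) ^ 2 ≤ P.base) (c : Fin d → ℝ)
    (hc : ∀ i ∈ liveSet P lam v x, c i ^ 2 ≤ 8 * topLoad P v x i) :
    ∃ y : Fin d → ℝ,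
      (∀ i ∈ liveSet P lam v x, ∑ l ∈ liveSet P lam v x, gram v W i l * y l = c i) ∧
      ∑ l ∈ liveSet P lam v x, y l * c l ≤ 32 / ((2 : ℝ) ^ halvings P lam v x * P.base) ∧
      ∑ l ∈ liveSet P lam v x, θ * gbar lam x.m l * y l ^ 2 ≤
        32 / ((2 : ℝ) ^ halvings P lam v x * P.base) := by
  classical
  set L := liveSet P lam v x with hL
  have hb' : (1 : ℝ) ≤ P.base := by exact_mod_cast hb
  have hsum := sum_inv_topLoad (P := P) (lam := lam) (v := v) (x := x) hb
  have hgp : ∀ i : Fin d, 0 < θ * gbar lam x.m i := fun i => by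
    have := one_le_gbar (lam := lam) x.m i
    positivity
  obtain ⟨y, hy, hgy, hyc⟩ := nearDiag {i // i ∈ L}
    (fun i j => gram v W i.1 j.1) (fun i => θ * gbar lam x.m i.1) (fun i => c i.1)
    (fun i j => sum_congr rfl fun w _ => mul_comm _ _) (fun i => hgp _) (by
      have e : ∀ i j : {i // i ∈ L},
          (gram v W i.1 j.1 - if i = j then θ * gbar lam x.m i.1 else 0) ^ 2 /
              ((θ * gbar lam x.m i.1) * (θ * gbar lam x.m j.1)) ≤
            16 * D ^ 2 * ((1 / topLoad P v x i.1 ^ 2) * (1 / topLoad P v x j.1 ^ 2)) := fun i j => by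
        have h := gram_entry (D := D) H hb hθ hW i.2 j.2
        simpa only [Subtype.ext_iff] using h
      refine (sum_le_sum fun i _ => sum_le_sum fun j _ => e i j).trans ?_
      simp only [← mul_sum, ← sum_mul]
      rw [sum_coe_sort L (fun i => 1 / topLoad P v x i ^ 2)]
      have h0 : 0 ≤ ∑ i ∈ L, 1 / topLoad P v x i ^ 2 := sum_nonneg fun _ _ => by positivity
      have h1 : (∑ i ∈ L, 1 / topLoad P v x i ^ 2) ≤ 1 := hsum.trans (by
        rw [div_le_one (by positivity)]; exact hb')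
      refine (mul_le_mul_of_nonneg_left (mul_le_mul hsum h1 h0 (by positivity))
        (by positivity)).trans ?_
      rw [mul_one, mul_one_div, div_le_iff₀ (by positivity)]
      nlinarith)
  refine ⟨fun l => if h : l ∈ L then y ⟨l, h⟩ else 0, ?_, ?_, ?_⟩
  · intro i hi
    rw [← sum_coe_sort L (fun l => gram v W i l * if h : l ∈ L then y ⟨l, h⟩ else 0)]
    simp only [coe_mem, dite_true]
    exact congrFun hy ⟨i, hi⟩
  all_goals
    have hE : ∑ i : {i // i ∈ L}, c i.1 ^ 2 / (θ * gbar lam x.m i.1) ≤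
        8 / ((2 : ℝ) ^ halvings P lam v x * P.base) := by
      calc _ ≤ ∑ i : {i // i ∈ L},
            8 / (2 : ℝ) ^ halvings P lam v x * (1 / topLoad P v x i.1 ^ 2) := by
            refine sum_le_sum fun i _ => ?_
            have h3 := one_le_topLoad (P := P) (v := v) hb i.2
            refine (div_le_div₀ (by positivity) (hc _ i.2) (by positivity)
              (scaled_low hb hθ i.2)).trans ?_
            rw [div_mul_div_comm, mul_one, div_le_div_iff₀ (by positivity) (by positivity)]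
            have h4 := mul_le_mul_of_nonneg_left (pow_le_pow_right₀ h3 (show 3 ≤ 8 by norm_num))
              (show (0 : ℝ) ≤ 8 * (2 : ℝ) ^ halvings P lam v x by positivity)
            linarith
        _ ≤ 8 / (2 : ℝ) ^ halvings P lam v x * (1 / P.base) := by
            rw [← mul_sum, sum_coe_sort L (fun i => 1 / topLoad P v x i ^ 2)]
            gcongr
        _ = _ := by rw [div_mul_div_comm, mul_one]
    have h4 := mul_le_mul_of_nonneg_left hE (show (0 : ℝ) ≤ 4 by norm_num)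
    rw [← mul_div_assoc, show (4 : ℝ) * 8 = 32 by norm_num] at h4
  · rw [← sum_coe_sort L (fun l => (if h : l ∈ L then y ⟨l, h⟩ else 0) * c l)]
    simp only [coe_mem, dite_true]
    exact hyc.trans h4
  · rw [← sum_coe_sort L
      (fun l => θ * gbar lam x.m l * (if h : l ∈ L then y ⟨l, h⟩ else 0) ^ 2)]
    simp only [coe_mem, dite_true]
    exact hgy.trans h4

/-- Exact tilt on the live coordinates, for a set of items whose Gram matrix is close to
`θ` times the ideal one. -/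
lemma tilt (H : Hyp lam v) (hb : 1 ≤ P.base) (hθ : 1 / 2 ≤ θ) (hD : 0 ≤ D)
    (hW : NearIdeal P lam v x W θ D) (hbase : 10000 * (D + 1) ^ 2 ≤ P.base) (c : Fin d → ℝ)
    (hc : ∀ i ∈ liveSet P lam v x, c i ^ 2 ≤ 8 * topLoad P v x i) :
    ∃ δ : Fin N → ℝ, (∀ i ∈ liveSet P lam v x, ∑ w ∈ W, δ w * v w i = c i) ∧
      ∑ w ∈ W, δ w ^ 2 ≤ 1 / (8 * (2 : ℝ) ^ halvings P lam v x) ∧
      (∀ w, |δ w| ≤ 1 / (4 * (2 : ℝ) ^ halvings P lam v x)) ∧
      blockSq (fun i => ∑ w ∈ W, δ w * v w i) x.s (x.s + retire P lam v x) ≤ 1 / 16 := by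
  obtain ⟨y, hy, hyc, hgy⟩ := solve H hb hθ hD hW hbase c hc
  set L := liveSet P lam v x with hL
  set M : ℝ := (2 : ℝ) ^ halvings P lam v x with hM
  have hM1 : 1 ≤ M := one_le_pow₀ (by norm_num)
  have hb' : (10000 : ℝ) ≤ P.base := le_trans (by nlinarith) hbase
  set δ : Fin N → ℝ := fun w => ∑ l ∈ L, v w l * y l with hδ
  have hmv : ∀ i : Fin d, ∑ w ∈ W, δ w * v w i = ∑ l ∈ L, gram v W i l * y l := by
    intro i
    simp only [hδ, gram, sum_mul]
    rw [sum_comm]
    exact sum_congr rfl fun l _ => sum_congr rfl fun w _ => by ring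
  refine ⟨δ, fun i hi => by rw [hmv]; exact hy i hi, ?_, ?_, ?_⟩
  · have e : ∑ w ∈ W, δ w ^ 2 = ∑ l ∈ L, y l * c l := by
      calc ∑ w ∈ W, δ w ^ 2 = ∑ w ∈ W, ∑ l ∈ L, y l * (δ w * v w l) := by
            refine sum_congr rfl fun w _ => ?_
            rw [sq]
            conv_lhs => arg 2; simp only [hδ]
            rw [mul_sum]
            exact sum_congr rfl fun l _ => by ring
        _ = _ := by
            rw [sum_comm]
            refine sum_congr rfl fun l hl => ?_
            rw [← mul_sum, hmv, hy l hl]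
    rw [e]
    refine hyc.trans ?_
    rw [div_le_div_iff₀ (by positivity) (by positivity)]
    nlinarith
  · intro w
    refine abs_le_of_sq_le_sq ?_ (by positivity)
    have h1 : δ w ^ 2 ≤ ∑ l ∈ L, y l ^ 2 :=
      (sum_mul_sq_le_sq_mul_sq _ _ _).trans (mul_le_of_le_one_left
        (sum_nonneg fun _ _ => sq_nonneg _)
        ((sum_le_univ_sum_of_nonneg fun _ => sq_nonneg _).trans (H.norm w)))
    have h2 : M * ∑ l ∈ L, y l ^ 2 ≤ 32 / (M * P.base) := by
      refine le_trans ?_ hgy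
      rw [mul_sum]
      refine sum_le_sum fun l hl => mul_le_mul_of_nonneg_right ?_ (sq_nonneg _)
      exact le_trans (le_mul_of_one_le_right (by positivity) (one_le_pow₀ (one_le_topLoad hb hl)))
        (scaled_low hb hθ hl)
    have h5 := (mul_le_mul_of_nonneg_left h1 (show (0 : ℝ) ≤ M by positivity)).trans h2
    rw [le_div_iff₀ (by positivity)] at h5
    rw [div_pow, one_pow, le_div_iff₀ (by positivity)]
    have h6 : (0 : ℝ) ≤ δ w ^ 2 * M ^ 2 := by positivity
    nlinarith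
  · rcases Nat.eq_zero_or_pos (retire P lam v x) with hk | hk
    · rw [blockSq_empty _ (by omega)]; norm_num
    have hk0 : retire P lam v x ≠ 0 := by omega
    set K : ℝ := (load P v x (retire P lam v x) : ℝ) with hK
    have hrow : ∀ i ∈ univ.filter (fun i : Fin d => x.s ≤ i.val ∧ i.val < x.s + retire P lam v x),
        (∑ w ∈ W, δ w * v w i) ^ 2 ≤ 32 * D ^ 2 * K * (32 / (M * P.base)) := by
      intro i hi
      simp only [mem_filter, mem_univ, true_and] at hi
      rw [hmv]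
      have hgp : ∀ l : Fin d, 0 < θ * gbar lam x.m l := fun l => by
        have := one_le_gbar (lam := lam) x.m l
        positivity
      refine le_trans (sum_sq_le_sum_mul_sum_of_sq_le_mul L (r := fun l => gram v W i l * y l)
        (f := fun l => gram v W i l ^ 2 / (θ * gbar lam x.m l))
        (g := fun l => θ * gbar lam x.m l * y l ^ 2)
        (fun l _ => div_nonneg (sq_nonneg _) (hgp l).le)
        (fun l _ => mul_nonneg (hgp l).le (sq_nonneg _)) fun l _ => le_of_eq ?_) ?_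
      · rw [← mul_assoc, div_mul_cancel₀ _ (hgp l).ne', mul_pow]
      · exact mul_le_mul (cross_row H hb hθ hW hk0 hi.1 hi.2) hgy
          (sum_nonneg fun l _ => mul_nonneg (hgp l).le (sq_nonneg _)) (by positivity)
    unfold blockSq
    refine (sum_le_card_nsmul _ _ _ hrow).trans ?_
    rw [nsmul_eq_mul]
    have h4 := four_load_sq_le (P := P) (lam := lam) (v := v) (x := x) hk0
    rw [← hK, ← hM] at h4
    calc _ ≤ K * (32 * D ^ 2 * K * (32 / (M * P.base))) :=
          mul_le_mul_of_nonneg_right (retiring_card hk0) (by positivity)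
      _ = 256 * D ^ 2 * (4 * K ^ 2) / (M * P.base) := by ring
      _ ≤ 256 * D ^ 2 * M / (M * P.base) := by gcongr
      _ ≤ 1 / 16 := by
          rw [div_le_div_iff₀ (by positivity) (by norm_num)]
          have : 4096 * D ^ 2 ≤ P.base := by nlinarith
          have := mul_le_mul_of_nonneg_left this (show (0 : ℝ) ≤ M by positivity)
          linarith

end Vale.Agent.P262.S2
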